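import Mathlib

/-!
The endpoint function of problem 232: the definitions and the step data of `psi_pos`.
-/

open MeasureTheory Set
open scoped Real

namespace Vale.Agent.P232.Endpoint

/-- The line over the planar bound: `c = w + p (t - w²)`, in the variable `t = π a`. -/
def cfun (p w t : ℝ) : ℝ := w + p * (t - w ^ 2)

/-- The square of the planar bound in the variable `t = π a`. -/
noncomputable def W2 (t : ℝ) : ℝ := min t (min 1 (π - t))

/-- The endpoint function is positive at `(p, w)`. -/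
def Good (p w : ℝ) : Prop :=
  ∃ T, w ^ 2 ≤ T ∧ T < π ∧
    (∀ t ∈ Icc (w ^ 2) T, 0 ≤ cfun p w t ∧ cfun p w t ^ 2 ≤ W2 t) ∧
    π * (1 - p * (1 - w ^ 2) - w) < ∫ t in (w ^ 2)..T, √(1 - cfun p w t ^ 2 / W2 t)

/-- The lower end of the range of `psi_pos`. -/
noncomputable def psiW0 (p : ℝ) : ℝ :=
  if p ≤ 343 / 1000 then 0 else if p ≤ 36 / 100 then 27 / 10000
  else if p ≤ 40 / 100 then 79 / 10000 else if p ≤ 44 / 100 then 101 / 10000
  else if p ≤ 455 / 1000 then 105 / 10000 else if p ≤ 46 / 100 then 127 / 10000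
  else if p ≤ 465 / 1000 then 172 / 10000 else if p ≤ 47 / 100 then 212 / 10000
  else if p ≤ 4725 / 10000 then 23 / 1000 else if p ≤ 475 / 1000 then 245 / 10000
  else if p ≤ 4775 / 10000 then 259 / 10000 else if p ≤ 48 / 100 then 273 / 10000
  else if p ≤ 485 / 1000 then 295 / 10000 else if p ≤ 49 / 100 then 31 / 1000
  else 316 / 10000

/-- The upper end of the range of `psi_pos`. -/
noncomputable def psiW1 (p : ℝ) : ℝ :=
  if p ≤ 5 / 100 then 835 / 1000 else if p ≤ 10 / 100 then 741 / 1000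
  else if p ≤ 15 / 100 then 707 / 1000 else if p ≤ 20 / 100 then 648 / 1000
  else if p ≤ 25 / 100 then 574 / 1000 else if p ≤ 30 / 100 then 500 / 1000
  else if p ≤ 343 / 1000 then 435 / 1000 else if p ≤ 35 / 100 then 428 / 1000
  else if p ≤ 355 / 1000 then 4225 / 10000 else if p ≤ 36 / 100 then 4165 / 10000
  else if p ≤ 365 / 1000 then 4105 / 10000 else if p ≤ 37 / 100 then 4055 / 10000
  else if p ≤ 375 / 1000 then 4005 / 10000 else if p ≤ 38 / 100 then 396 / 1000
  else if p ≤ 45 / 100 then 380 / 1000 else 430 / 1000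

end Vale.Agent.P232.Endpoint
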