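import Vale.Agent.P232.Interior
import Vale.Agent.P232.Endpoint.PsiDefs

/-!
The algebra of the endpoint `v = 1/π`. Per direction `H = l - p x`, so `√x - p x ≤ H ≤ 1 - p`
and the three `H` sum to `2 - 3p`. The region where the calibrated slice inequality holds leaves
every `H` below `r (psiW0 p)` or above `r (psiW1 p)`, `r w = w - p w²`; with the gain of the chord
calibration only two configurations remain.
-/

open Finset

namespace Vale.Agent.P232.Endpoint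

open Interior

/-- The function `r w = w - p w²`, increasing on `[0, 1]` for `p ≤ 1/2`. -/
def rfun (p w : ℝ) : ℝ := w - p * w ^ 2

/-- The upper bound for the sum of the two large contacts in the middle case. -/
noncomputable def sM (p : ℝ) : ℝ :=
  if p ≤ 350 / 1000 then 9220 / 10000 - 851 / 100 * (p - 343 / 1000)
  else if p ≤ 355 / 1000 then 8730 / 10000 - 836 / 100 * (p - 350 / 1000)
  else if p ≤ 360 / 1000 then 8424 / 10000 - 826 / 100 * (p - 355 / 1000)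
  else if p ≤ 365 / 1000 then 8119 / 10000 - 814 / 100 * (p - 360 / 1000)
  else if p ≤ 370 / 1000 then 7798 / 10000 - 797 / 100 * (p - 365 / 1000)
  else if p ≤ 375 / 1000 then 7482 / 10000 - 779 / 100 * (p - 370 / 1000)
  else if p ≤ 380 / 1000 then 7163 / 10000 - 760 / 100 * (p - 375 / 1000)
  else if p ≤ 400 / 1000 then 7052 / 10000 - 719 / 100 * (p - 380 / 1000)
  else if p ≤ 420 / 1000 then 5613 / 10000 - 580 / 100 * (p - 400 / 1000)
  else 4453 / 10000 - 429 / 100 * (p - 420 / 1000)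

/-- Two contacts `i`, `j` of bounded sum and a tiny one `k`. -/
def MiddleCase (p : ℝ) (x H : Fin 3 → ℝ) (i j k : Fin 3) : Prop :=
  343 / 1000 < p ∧ p ≤ 45 / 100 ∧ H k < rfun p (psiW0 p) ∧ x k ≤ psiW0 p ^ 2 ∧ x i + x j ≤ sM p

/-- One nearly full contact `i` and two tiny ones. -/
def CornerCase (p : ℝ) (x H : Fin 3 → ℝ) (i j k : Fin 3) : Prop :=
  475 / 1000 < p ∧ 9 / 10 ≤ x i ∧ x j ≤ 1 / 1000 ∧ x k ≤ 1 / 1000 ∧
    H j < rfun p (psiW0 p) ∧ H k < rfun p (psiW0 p)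

/-- Monotonicity of `√x - p x`. -/
theorem r_mono {p A x : ℝ} (hp : p ≤ 1 / 2) (hA : 0 ≤ A) (hAx : A ^ 2 ≤ x) (hx : x ≤ 1) :
    A - p * A ^ 2 ≤ Real.sqrt x - p * x := by
  have hx0 : 0 ≤ x := (sq_nonneg A).trans hAx
  have h1 : A ≤ Real.sqrt x := Real.le_sqrt_of_sq_le hAx
  have h2 : Real.sqrt x ≤ 1 := Real.sqrt_le_one.2 hx
  have h3 : 0 ≤ 1 - p * (Real.sqrt x + A) := by
    nlinarith [mul_le_mul_of_nonneg_right hp (add_nonneg (Real.sqrt_nonneg x) hA)]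
  nlinarith [mul_nonneg (sub_nonneg.2 h1) h3, Real.sq_sqrt hx0]

theorem r_nonneg {p x : ℝ} (hp : p ≤ 1 / 2) (hx0 : 0 ≤ x) (hx : x ≤ 1) :
    0 ≤ Real.sqrt x - p * x := by
  simpa using r_mono hp le_rfl (by simpa using hx0) hx

/-- Two contacts above `X` with sum above `s` overshoot. -/
theorem two_large {p X A T s x y : ℝ} (hp : p ≤ 1 / 2)
    (hAX : A ^ 2 ≤ X) (hTs : T ^ 2 ≤ s - X) (hsX : 2 * X ≤ s) (hx : X ≤ x) (hy : X ≤ y)
    (hx1 : x ≤ 1) (hy1 : y ≤ 1) (hs : s ≤ x + y) :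
    A + T - p * s ≤ (Real.sqrt x - p * x) + (Real.sqrt y - p * y) := by
  set x' := max X (s - y) with hx'
  have hX0 : 0 ≤ X := (sq_nonneg A).trans hAX
  have hXx : X ≤ x' := le_max_left _ _
  have hxx : x' ≤ x := max_le hx (by linarith)
  have hyy : s - x' ≤ y := by linarith [le_max_right X (s - y)]
  have hXy : X ≤ s - x' := by
    rcases max_cases X (s - y) with ⟨h, -⟩ | ⟨h, -⟩ <;> rw [hx', h] <;> linarith
  have hx0 : 0 ≤ x' := hX0.trans hXx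
  have hy0 : 0 ≤ s - x' := hX0.trans hXy
  have e1 := r_mono hp (Real.sqrt_nonneg x') (by rwa [Real.sq_sqrt hx0]) hx1
  have e2 := r_mono hp (Real.sqrt_nonneg (s - x')) (by rwa [Real.sq_sqrt hy0]) hy1
  rw [Real.sq_sqrt hx0] at e1
  rw [Real.sq_sqrt hy0] at e2
  have hprod : A * T ≤ Real.sqrt x' * Real.sqrt (s - x') := by
    refine le_of_pow_le_pow_left₀ two_ne_zero (by positivity) ?_
    rw [mul_pow, mul_pow, Real.sq_sqrt hx0, Real.sq_sqrt hy0]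
    nlinarith [mul_le_mul hAX hTs (sq_nonneg T) hX0,
      mul_nonneg (sub_nonneg.2 hXx) (sub_nonneg.2 hXy)]
  have hsum : A + T ≤ Real.sqrt x' + Real.sqrt (s - x') := by
    refine le_of_pow_le_pow_left₀ two_ne_zero (by positivity) ?_
    nlinarith [Real.sq_sqrt hx0, Real.sq_sqrt hy0, hprod]
  linarith

theorem all_small {x y z : ℝ} (hx : 0 ≤ x) (hx' : x < 1 / 1000)
    (hyx : y ≤ x) (hzx : z ≤ x) (hg : gain (Real.sqrt x) ≤ y + z) : x = 0 := by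
  set a := Real.sqrt x with ha
  have ha0 : 0 ≤ a := Real.sqrt_nonneg _
  have ha2 : a ^ 2 = x := Real.sq_sqrt hx
  have hau : a ≤ 317 / 10000 := by nlinarith
  rw [gain] at hg
  have h1 : 93 / 100 ≤ (1 - a) ^ 2 := by nlinarith
  have h2 : 60 / 100 ≤ (1 - a) ^ 2 * (13 / 20 - a / 6) := by
    nlinarith [mul_le_mul h1 (show 64 / 100 ≤ 13 / 20 - a / 6 by linarith) (by norm_num)
      (sq_nonneg (1 - a))]
  have h3 := mul_le_mul_of_nonneg_left h2 ha0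
  have h4 : a * (1 / 2) ≤ 0 := by
    nlinarith [mul_le_mul_of_nonneg_left hau ha0]
  nlinarith

theorem le_ite' {c : Prop} [Decidable c] {z a b : ℝ} (h1 : c → z ≤ a) (h2 : ¬c → z ≤ b) :
    z ≤ if c then a else b := by
  by_cases h : c
  · rw [if_pos h]; exact h1 h
  · rw [if_neg h]; exact h2 h

theorem ite_le' {c : Prop} [Decidable c] {z a b : ℝ} (h1 : c → a ≤ z) (h2 : ¬c → b ≤ z) :
    (if c then a else b) ≤ z := by
  by_cases h : c
  · rw [if_pos h]; exact h1 h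
  · rw [if_neg h]; exact h2 h

theorem ite_ind {c : Prop} [Decidable c] (P : ℝ → Prop) {a b : ℝ} (h1 : c → P a) (h2 : ¬c → P b) :
    P (if c then a else b) := by
  by_cases h : c
  · rw [if_pos h]; exact h1 h
  · rw [if_neg h]; exact h2 h

theorem psiW0_nonneg (p : ℝ) : 0 ≤ psiW0 p := by
  unfold psiW0
  repeat' (apply le_ite' <;> intro)
  all_goals norm_num

theorem psiW0_bounds (p : ℝ) :
    0 ≤ psiW0 p ∧ psiW0 p ≤ 316 / 10000 ∧ (p ≤ 343 / 1000 → psiW0 p = 0) ∧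
      (p ≤ 455 / 1000 → psiW0 p ≤ 105 / 10000) ∧
      (p ≤ 475 / 1000 → psiW0 p ≤ 245 / 10000) ∧ (p ≤ 485 / 1000 → psiW0 p ≤ 295 / 10000) := by
  refine ⟨psiW0_nonneg p, ?_, fun h => by rw [psiW0, if_pos h], ?_, ?_, ?_⟩ <;>
    try intro hq
  all_goals
    unfold psiW0
    repeat' (apply ite_le' <;> intro)
    all_goals linarith

theorem small_contact {p w x h : ℝ} (hp : p ≤ 1 / 2) (hw : 0 ≤ w) (hx1 : x ≤ 1)
    (hr : Real.sqrt x - p * x ≤ h) (hs : h < rfun p w) : x ≤ w ^ 2 := by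
  by_contra hh
  have := r_mono hp hw (not_le.1 hh).le hx1
  rw [rfun] at hs
  linarith

/-- One piece of the middle case. -/
theorem middle_piece {p A w T s x y z hx hy hz : ℝ} (hp : p ≤ 1 / 2) (hA : 0 ≤ A) (hw : A ≤ w)
    (hTs : T ^ 2 ≤ s - A ^ 2) (hsX : 2 * A ^ 2 ≤ s) (hkey : 2 - 3 * p < A + T - p * s)
    (hx1 : x ≤ 1 ∧ w ≤ 1) (hy1 : y ≤ 1) (hz0 : 0 ≤ z) (hz1 : z ≤ 1)
    (hrx : Real.sqrt x - p * x ≤ hx) (hry : Real.sqrt y - p * y ≤ hy)
    (hrz : Real.sqrt z - p * z ≤ hz) (hbx : rfun p w < hx) (hby : rfun p w < hy)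
    (hsum : hx + hy + hz ≤ 2 - 3 * p) : x + y ≤ s := by
  by_contra h
  have hA1 : A ^ 2 ≤ 1 := pow_le_one₀ hA (hw.trans hx1.2)
  have hAw : A - p * A ^ 2 ≤ rfun p w := by
    have := r_mono hp hA (pow_le_pow_left₀ hA hw 2) (pow_le_one₀ (hA.trans hw) hx1.2)
    rwa [Real.sqrt_sq (hA.trans hw)] at this
  have e : ∀ u g, Real.sqrt u - p * u ≤ g → rfun p w < g →
      Real.sqrt (max u (A ^ 2)) - p * max u (A ^ 2) ≤ g := by
    intro u g h1 h2
    rcases le_total u (A ^ 2) with q | q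
    · rw [max_eq_right q, Real.sqrt_sq hA]; linarith
    · rwa [max_eq_left q]
  have := two_large hp le_rfl hTs hsX (le_max_right x (A ^ 2)) (le_max_right y (A ^ 2))
    (max_le hx1.1 hA1) (max_le hy1 hA1)
    (by linarith [not_le.1 h, le_max_left x (A ^ 2), le_max_left y (A ^ 2)])
  linarith [e x hx hrx hbx, e y hy hry hby, r_nonneg hp hz0 hz1]

theorem psiW1_le_one (p : ℝ) : psiW1 p ≤ 1 := by
  unfold psiW1
  repeat' (apply ite_le' <;> intro)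
  all_goals norm_num

theorem rfun_mono {p A w : ℝ} (hp : p ≤ 1 / 2) (hA : 0 ≤ A) (hw : A ≤ w) (hw1 : w ≤ 1) :
    A - p * A ^ 2 ≤ rfun p w := by
  have := r_mono hp hA (pow_le_pow_left₀ hA hw 2) (pow_le_one₀ (hA.trans hw) hw1)
  rwa [Real.sqrt_sq (hA.trans hw)] at this

theorem three_big {p : ℝ} (hp0 : 0 < p) :
    2 - 3 * p < 3 * rfun p (psiW1 p) := by
  unfold psiW1 rfun
  repeat' (refine ite_ind (fun v => 2 - 3 * p < 3 * (v - p * v ^ 2)) ?_ ?_ <;> intro)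
  all_goals linarith

theorem sum_le_piece0 {p x y z hx hy hz : ℝ} (hp1 : p ≤ 1 / 2) (hlo : 343 / 1000 < p)
    (hhi : p ≤ 350 / 1000) (hx1 : x ≤ 1 ∧ psiW1 p ≤ 1) (hy1 : y ≤ 1) (hz0 : 0 ≤ z)
    (hz1 : z ≤ 1) (hrx : Real.sqrt x - p * x ≤ hx) (hry : Real.sqrt y - p * y ≤ hy)
    (hrz : Real.sqrt z - p * z ≤ hz) (hbx : rfun p (psiW1 p) < hx) (hby : rfun p (psiW1 p) < hy)
    (hsum : hx + hy + hz ≤ 2 - 3 * p) : x + y ≤ 9220 / 10000 - 851 / 100 * (p - 343 / 1000) := by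
  have hw : 428 / 1000 ≤ psiW1 p := by
    unfold psiW1
    repeat' (apply le_ite' <;> intro)
    all_goals linarith
  refine middle_piece (A := 428 / 1000) (T := 8595 / 10000 - 505 / 100 * (p - 343 / 1000)) hp1
    (by norm_num) hw ?_ (by linarith) ?_ hx1 hy1 hz0 hz1 hrx hry hrz hbx hby hsum
  · nlinarith [mul_nonneg (sub_nonneg.2 hlo.le) (sub_nonneg.2 hhi)]
  · nlinarith [sq_nonneg (p - 346115 / 1000000)]

theorem sum_le_piece1 {p x y z hx hy hz : ℝ} (hp1 : p ≤ 1 / 2) (hlo : 350 / 1000 < p)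
    (hhi : p ≤ 355 / 1000) (hx1 : x ≤ 1 ∧ psiW1 p ≤ 1) (hy1 : y ≤ 1) (hz0 : 0 ≤ z)
    (hz1 : z ≤ 1) (hrx : Real.sqrt x - p * x ≤ hx) (hry : Real.sqrt y - p * y ≤ hy)
    (hrz : Real.sqrt z - p * z ≤ hz) (hbx : rfun p (psiW1 p) < hx) (hby : rfun p (psiW1 p) < hy)
    (hsum : hx + hy + hz ≤ 2 - 3 * p) : x + y ≤ 8730 / 10000 - 836 / 100 * (p - 350 / 1000) := by
  have hw : 4225 / 10000 ≤ psiW1 p := by
    unfold psiW1
    repeat' (apply le_ite' <;> intro)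
    all_goals linarith
  refine middle_piece (A := 4225 / 10000) (T := 8333 / 10000 - 509 / 100 * (p - 350 / 1000)) hp1
    (by norm_num) hw ?_ (by linarith) ?_ hx1 hy1 hz0 hz1 hrx hry hrz hbx hby hsum
  · nlinarith [mul_nonneg (sub_nonneg.2 hlo.le) (sub_nonneg.2 hhi)]
  · nlinarith [sq_nonneg (p - 3522125 / 10000000)]

theorem sum_le_piece2 {p x y z hx hy hz : ℝ} (hp1 : p ≤ 1 / 2) (hlo : 355 / 1000 < p)
    (hhi : p ≤ 360 / 1000) (hx1 : x ≤ 1 ∧ psiW1 p ≤ 1) (hy1 : y ≤ 1) (hz0 : 0 ≤ z)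
    (hz1 : z ≤ 1) (hrx : Real.sqrt x - p * x ≤ hx) (hry : Real.sqrt y - p * y ≤ hy)
    (hrz : Real.sqrt z - p * z ≤ hz) (hbx : rfun p (psiW1 p) < hx) (hby : rfun p (psiW1 p) < hy)
    (hsum : hx + hy + hz ≤ 2 - 3 * p) : x + y ≤ 8424 / 10000 - 826 / 100 * (p - 355 / 1000) := by
  have hw : 4165 / 10000 ≤ psiW1 p := by
    unfold psiW1
    repeat' (apply le_ite' <;> intro)
    all_goals linarith
  refine middle_piece (A := 4165 / 10000) (T := 8178 / 10000 - 512 / 100 * (p - 355 / 1000)) hp1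
    (by norm_num) hw ?_ (by linarith) ?_ hx1 hy1 hz0 hz1 hrx hry hrz hbx hby hsum
  · nlinarith [mul_nonneg (sub_nonneg.2 hlo.le) (sub_nonneg.2 hhi)]
  · nlinarith [sq_nonneg (p - 356825 / 1000000)]

theorem sum_le_piece3 {p x y z hx hy hz : ℝ} (hp1 : p ≤ 1 / 2) (hlo : 360 / 1000 < p)
    (hhi : p ≤ 365 / 1000) (hx1 : x ≤ 1 ∧ psiW1 p ≤ 1) (hy1 : y ≤ 1) (hz0 : 0 ≤ z)
    (hz1 : z ≤ 1) (hrx : Real.sqrt x - p * x ≤ hx) (hry : Real.sqrt y - p * y ≤ hy)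
    (hrz : Real.sqrt z - p * z ≤ hz) (hbx : rfun p (psiW1 p) < hx) (hby : rfun p (psiW1 p) < hy)
    (hsum : hx + hy + hz ≤ 2 - 3 * p) : x + y ≤ 8119 / 10000 - 814 / 100 * (p - 360 / 1000) := by
  have hw : 4105 / 10000 ≤ psiW1 p := by
    unfold psiW1
    repeat' (apply le_ite' <;> intro)
    all_goals linarith
  refine middle_piece (A := 4105 / 10000) (T := 8021 / 10000 - 516 / 100 * (p - 360 / 1000)) hp1
    (by norm_num) hw ?_ (by linarith) ?_ hx1 hy1 hz0 hz1 hrx hry hrz hbx hby hsum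
  · nlinarith [mul_nonneg (sub_nonneg.2 hlo.le) (sub_nonneg.2 hhi)]
  · nlinarith [sq_nonneg (p - 36255 / 100000)]

theorem sum_le_piece4 {p x y z hx hy hz : ℝ} (hp1 : p ≤ 1 / 2) (hlo : 365 / 1000 < p)
    (hhi : p ≤ 370 / 1000) (hx1 : x ≤ 1 ∧ psiW1 p ≤ 1) (hy1 : y ≤ 1) (hz0 : 0 ≤ z)
    (hz1 : z ≤ 1) (hrx : Real.sqrt x - p * x ≤ hx) (hry : Real.sqrt y - p * y ≤ hy)
    (hrz : Real.sqrt z - p * z ≤ hz) (hbx : rfun p (psiW1 p) < hx) (hby : rfun p (psiW1 p) < hy)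
    (hsum : hx + hy + hz ≤ 2 - 3 * p) : x + y ≤ 7798 / 10000 - 797 / 100 * (p - 365 / 1000) := by
  have hw : 4055 / 10000 ≤ psiW1 p := by
    unfold psiW1
    repeat' (apply le_ite' <;> intro)
    all_goals linarith
  refine middle_piece (A := 4055 / 10000) (T := 7844 / 10000 - 516 / 100 * (p - 365 / 1000)) hp1
    (by norm_num) hw ?_ (by linarith) ?_ hx1 hy1 hz0 hz1 hrx hry hrz hbx hby hsum
  · nlinarith [mul_nonneg (sub_nonneg.2 hlo.le) (sub_nonneg.2 hhi)]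
  · nlinarith [sq_nonneg (p - 366925 / 1000000)]

theorem sum_le_piece5 {p x y z hx hy hz : ℝ} (hp1 : p ≤ 1 / 2) (hlo : 370 / 1000 < p)
    (hhi : p ≤ 375 / 1000) (hx1 : x ≤ 1 ∧ psiW1 p ≤ 1) (hy1 : y ≤ 1) (hz0 : 0 ≤ z)
    (hz1 : z ≤ 1) (hrx : Real.sqrt x - p * x ≤ hx) (hry : Real.sqrt y - p * y ≤ hy)
    (hrz : Real.sqrt z - p * z ≤ hz) (hbx : rfun p (psiW1 p) < hx) (hby : rfun p (psiW1 p) < hy)
    (hsum : hx + hy + hz ≤ 2 - 3 * p) : x + y ≤ 7482 / 10000 - 779 / 100 * (p - 370 / 1000) := by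
  have hw : 4005 / 10000 ≤ psiW1 p := by
    unfold psiW1
    repeat' (apply le_ite' <;> intro)
    all_goals linarith
  refine middle_piece (A := 4005 / 10000) (T := 7666 / 10000 - 516 / 100 * (p - 370 / 1000)) hp1
    (by norm_num) hw ?_ (by linarith) ?_ hx1 hy1 hz0 hz1 hrx hry hrz hbx hby hsum
  · nlinarith [mul_nonneg (sub_nonneg.2 hlo.le) (sub_nonneg.2 hhi)]
  · nlinarith [sq_nonneg (p - 3716625 / 10000000)]

theorem sum_le_piece6 {p x y z hx hy hz : ℝ} (hp1 : p ≤ 1 / 2) (hlo : 375 / 1000 < p)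
    (hhi : p ≤ 380 / 1000) (hx1 : x ≤ 1 ∧ psiW1 p ≤ 1) (hy1 : y ≤ 1) (hz0 : 0 ≤ z)
    (hz1 : z ≤ 1) (hrx : Real.sqrt x - p * x ≤ hx) (hry : Real.sqrt y - p * y ≤ hy)
    (hrz : Real.sqrt z - p * z ≤ hz) (hbx : rfun p (psiW1 p) < hx) (hby : rfun p (psiW1 p) < hy)
    (hsum : hx + hy + hz ≤ 2 - 3 * p) : x + y ≤ 7163 / 10000 - 760 / 100 * (p - 375 / 1000) := by
  have hw : 396 / 1000 ≤ psiW1 p := by
    unfold psiW1
    repeat' (apply le_ite' <;> intro)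
    all_goals linarith
  refine middle_piece (A := 396 / 1000) (T := 7479 / 10000 - 516 / 100 * (p - 375 / 1000)) hp1
    (by norm_num) hw ?_ (by linarith) ?_ hx1 hy1 hz0 hz1 hrx hry hrz hbx hby hsum
  · nlinarith [mul_nonneg (sub_nonneg.2 hlo.le) (sub_nonneg.2 hhi)]
  · nlinarith [sq_nonneg (p - 376725 / 1000000)]

theorem sum_le_piece7 {p x y z hx hy hz : ℝ} (hp1 : p ≤ 1 / 2) (hlo : 380 / 1000 < p)
    (hhi : p ≤ 400 / 1000) (hx1 : x ≤ 1 ∧ psiW1 p ≤ 1) (hy1 : y ≤ 1) (hz0 : 0 ≤ z)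
    (hz1 : z ≤ 1) (hrx : Real.sqrt x - p * x ≤ hx) (hry : Real.sqrt y - p * y ≤ hy)
    (hrz : Real.sqrt z - p * z ≤ hz) (hbx : rfun p (psiW1 p) < hx) (hby : rfun p (psiW1 p) < hy)
    (hsum : hx + hy + hz ≤ 2 - 3 * p) : x + y ≤ 7052 / 10000 - 719 / 100 * (p - 380 / 1000) := by
  have hw : 380 / 1000 ≤ psiW1 p := by
    unfold psiW1
    repeat' (apply le_ite' <;> intro)
    all_goals linarith
  refine middle_piece (A := 380 / 1000) (T := 7488 / 10000 - 516 / 100 * (p - 380 / 1000)) hp1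
    (by norm_num) hw ?_ (by linarith) ?_ hx1 hy1 hz0 hz1 hrx hry hrz hbx hby hsum
  · nlinarith [mul_nonneg (sub_nonneg.2 hlo.le) (sub_nonneg.2 hhi)]
  · nlinarith [sq_nonneg (p - 38925 / 100000)]

theorem sum_le_piece8 {p x y z hx hy hz : ℝ} (hp1 : p ≤ 1 / 2) (hlo : 400 / 1000 < p)
    (hhi : p ≤ 420 / 1000) (hx1 : x ≤ 1 ∧ psiW1 p ≤ 1) (hy1 : y ≤ 1) (hz0 : 0 ≤ z)
    (hz1 : z ≤ 1) (hrx : Real.sqrt x - p * x ≤ hx) (hry : Real.sqrt y - p * y ≤ hy)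
    (hrz : Real.sqrt z - p * z ≤ hz) (hbx : rfun p (psiW1 p) < hx) (hby : rfun p (psiW1 p) < hy)
    (hsum : hx + hy + hz ≤ 2 - 3 * p) : x + y ≤ 5613 / 10000 - 580 / 100 * (p - 400 / 1000) := by
  have hw : 380 / 1000 ≤ psiW1 p := by
    unfold psiW1
    repeat' (apply le_ite' <;> intro)
    all_goals linarith
  refine middle_piece (A := 380 / 1000) (T := 6456 / 10000 - 486 / 100 * (p - 400 / 1000)) hp1
    (by norm_num) hw ?_ (by linarith) ?_ hx1 hy1 hz0 hz1 hrx hry hrz hbx hby hsum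
  · nlinarith [mul_nonneg (sub_nonneg.2 hlo.le) (sub_nonneg.2 hhi)]
  · nlinarith [sq_nonneg (p - 40875 / 100000)]

theorem sum_le_piece9 {p x y z hx hy hz : ℝ} (hp1 : p ≤ 1 / 2) (hlo : 420 / 1000 < p)
    (hhi : p ≤ 450 / 1000) (hx1 : x ≤ 1 ∧ psiW1 p ≤ 1) (hy1 : y ≤ 1) (hz0 : 0 ≤ z)
    (hz1 : z ≤ 1) (hrx : Real.sqrt x - p * x ≤ hx) (hry : Real.sqrt y - p * y ≤ hy)
    (hrz : Real.sqrt z - p * z ≤ hz) (hbx : rfun p (psiW1 p) < hx) (hby : rfun p (psiW1 p) < hy)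
    (hsum : hx + hy + hz ≤ 2 - 3 * p) : x + y ≤ 4453 / 10000 - 429 / 100 * (p - 420 / 1000) := by
  have hw : 380 / 1000 ≤ psiW1 p := by
    unfold psiW1
    repeat' (apply le_ite' <;> intro)
    all_goals linarith
  refine middle_piece (A := 380 / 1000) (T := 5485 / 10000 - 446 / 100 * (p - 420 / 1000)) hp1
    (by norm_num) hw ?_ (by linarith) ?_ hx1 hy1 hz0 hz1 hrx hry hrz hbx hby hsum
  · nlinarith [mul_nonneg (sub_nonneg.2 hlo.le) (sub_nonneg.2 hhi)]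
  · nlinarith [sq_nonneg (p - 432075 / 1000000)]

theorem two_large_case {p x y z hx hy hz : ℝ} (hp : 343 / 1000 < p) (hp1 : p ≤ 1 / 2)
    (hxu : x ≤ 1) (hy1 : y ≤ 1) (hz0 : 0 ≤ z) (hz1 : z ≤ 1)
    (hrx : Real.sqrt x - p * x ≤ hx) (hry : Real.sqrt y - p * y ≤ hy)
    (hrz : Real.sqrt z - p * z ≤ hz)
    (hbx : rfun p (psiW1 p) < hx) (hby : rfun p (psiW1 p) < hy)
    (hsz : hz < rfun p (psiW0 p)) (hsum : hx + hy + hz = 2 - 3 * p) :
    p ≤ 45 / 100 ∧ z ≤ psiW0 p ^ 2 ∧ x + y ≤ sM p := by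
  have hr0 := r_nonneg hp1 hz0 hz1
  have hpu : p ≤ 45 / 100 := by
    by_contra h
    push Not at h
    have e : 430 / 1000 ≤ psiW1 p := by
      unfold psiW1
      repeat' (apply le_ite' <;> intro)
      all_goals linarith
    have := rfun_mono hp1 (by norm_num) e (psiW1_le_one p)
    linarith
  refine ⟨hpu, small_contact hp1 (psiW0_bounds p).1 hz1 hrz hsz, ?_⟩
  have hx1 : x ≤ 1 ∧ psiW1 p ≤ 1 := ⟨hxu, psiW1_le_one p⟩
  replace hsum := hsum.le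
  unfold sM
  rcases le_or_gt p (350 / 1000) with q1 | q1
  · rw [if_pos q1]
    exact sum_le_piece0 hp1 hp q1 hx1 hy1 hz0 hz1 hrx hry hrz hbx hby hsum
  rcases le_or_gt p (355 / 1000) with q2 | q2
  · rw [if_neg q1.not_ge, if_pos q2]
    exact sum_le_piece1 hp1 q1 q2 hx1 hy1 hz0 hz1 hrx hry hrz hbx hby hsum
  rcases le_or_gt p (360 / 1000) with q3 | q3
  · rw [if_neg q1.not_ge, if_neg q2.not_ge, if_pos q3]
    exact sum_le_piece2 hp1 q2 q3 hx1 hy1 hz0 hz1 hrx hry hrz hbx hby hsum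
  rcases le_or_gt p (365 / 1000) with q4 | q4
  · rw [if_neg q1.not_ge, if_neg q2.not_ge, if_neg q3.not_ge, if_pos q4]
    exact sum_le_piece3 hp1 q3 q4 hx1 hy1 hz0 hz1 hrx hry hrz hbx hby hsum
  rcases le_or_gt p (370 / 1000) with q5 | q5
  · rw [if_neg q1.not_ge, if_neg q2.not_ge, if_neg q3.not_ge, if_neg q4.not_ge, if_pos q5]
    exact sum_le_piece4 hp1 q4 q5 hx1 hy1 hz0 hz1 hrx hry hrz hbx hby hsum
  rcases le_or_gt p (375 / 1000) with q6 | q6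
  · rw [if_neg q1.not_ge, if_neg q2.not_ge, if_neg q3.not_ge, if_neg q4.not_ge, if_neg q5.not_ge, if_pos q6]
    exact sum_le_piece5 hp1 q5 q6 hx1 hy1 hz0 hz1 hrx hry hrz hbx hby hsum
  rcases le_or_gt p (380 / 1000) with q7 | q7
  · rw [if_neg q1.not_ge, if_neg q2.not_ge, if_neg q3.not_ge, if_neg q4.not_ge, if_neg q5.not_ge, if_neg q6.not_ge, if_pos q7]
    exact sum_le_piece6 hp1 q6 q7 hx1 hy1 hz0 hz1 hrx hry hrz hbx hby hsum
  rcases le_or_gt p (400 / 1000) with q8 | q8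
  · rw [if_neg q1.not_ge, if_neg q2.not_ge, if_neg q3.not_ge, if_neg q4.not_ge, if_neg q5.not_ge, if_neg q6.not_ge, if_neg q7.not_ge, if_pos q8]
    exact sum_le_piece7 hp1 q7 q8 hx1 hy1 hz0 hz1 hrx hry hrz hbx hby hsum
  rcases le_or_gt p (420 / 1000) with q9 | q9
  · rw [if_neg q1.not_ge, if_neg q2.not_ge, if_neg q3.not_ge, if_neg q4.not_ge, if_neg q5.not_ge, if_neg q6.not_ge, if_neg q7.not_ge, if_neg q8.not_ge, if_pos q9]
    exact sum_le_piece8 hp1 q8 q9 hx1 hy1 hz0 hz1 hrx hry hrz hbx hby hsum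
  rw [if_neg q1.not_ge, if_neg q2.not_ge, if_neg q3.not_ge, if_neg q4.not_ge, if_neg q5.not_ge, if_neg q6.not_ge, if_neg q7.not_ge, if_neg q8.not_ge, if_neg q9.not_ge]
  exact sum_le_piece9 hp1 q9 (by linarith) hx1 hy1 hz0 hz1 hrx hry hrz hbx hby hsum

theorem one_large_case {p x y z hx hy hz : ℝ} (hp : 343 / 1000 < p) (hp1 : p ≤ 1 / 2)
    (hx0 : 0 ≤ x) (hx1 : x ≤ 1) (hy0 : 0 ≤ y) (hy1 : y ≤ 1) (hz0 : 0 ≤ z) (hz1 : z ≤ 1)
    (hrx : Real.sqrt x - p * x ≤ hx) (hry : Real.sqrt y - p * y ≤ hy)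
    (hrz : Real.sqrt z - p * z ≤ hz) (hQ : hx ≤ 1 - p)
    (hsy : hy < rfun p (psiW0 p)) (hsz : hz < rfun p (psiW0 p))
    (hsum : hx + hy + hz = 2 - 3 * p)
    (hg : gain (Real.sqrt x) ≤ y + z) (hgy : gain (Real.sqrt y) ≤ x + z)
    (hgz : gain (Real.sqrt z) ≤ x + y) (hne : 0 < x ∨ 0 < y ∨ 0 < z)
    (hg' : 9 / 10 ≤ Real.sqrt x → 7 / 10 * (1 - Real.sqrt x) ^ 2 ≤ y + z) :
    475 / 1000 < p ∧ 9 / 10 ≤ x ∧ y ≤ 1 / 1000 ∧ z ≤ 1 / 1000 := by
  obtain ⟨w0, w1, -, w3, w5, w6⟩ := psiW0_bounds p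
  have hyw := small_contact hp1 w0 hy1 hry hsy
  have hzw := small_contact hp1 w0 hz1 hrz hsz
  have hw2 : psiW0 p ^ 2 ≤ (316 / 10000) ^ 2 := pow_le_pow_left₀ w0 w1 2
  have hy' : y < 1 / 1000 := by linarith
  have hz' : z < 1 / 1000 := by linarith
  have hsm : rfun p (psiW0 p) ≤ psiW0 p := by
    rw [rfun]
    linarith [mul_nonneg (show (0 : ℝ) ≤ p by linarith) (sq_nonneg (psiW0 p))]
  have hp475 : 475 / 1000 < p := by
    by_contra h
    push Not at h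
    rcases le_total p (455 / 1000) with u | u
    · linarith [w3 u]
    · linarith [w5 h]
  have hxlo : 1 / 1000 ≤ x := by
    by_contra h
    push Not at h
    rcases le_total y x with a | a <;> rcases le_total z x with b | b <;>
      rcases le_total z y with c | c
    all_goals first
      | (have := all_small (y := y) (z := z) hx0 h (by linarith) (by linarith) (by linarith)
         rcases hne with d | d | d <;> linarith)
      | (have := all_small (y := x) (z := z) hy0 hy' (by linarith) (by linarith) (by linarith)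
         rcases hne with d | d | d <;> linarith)
      | (have := all_small (y := x) (z := y) hz0 hz' (by linarith) (by linarith) (by linarith)
         rcases hne with d | d | d <;> linarith)
  set a := Real.sqrt x with ha
  have ha0 : 0 ≤ a := Real.sqrt_nonneg _
  have ha2 : a ^ 2 = x := Real.sq_sqrt hx0
  have ha1 : a ≤ 1 := Real.sqrt_le_one.2 hx1
  have halo : 316 / 10000 ≤ a := Real.le_sqrt_of_sq_le (by linarith)
  have ha9 : 9 / 10 ≤ a := by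
    by_contra h
    push Not at h
    rw [gain] at hg
    have h3 : 49 / 100 ≤ 13 / 20 - a / 6 := by linarith
    rcases le_or_gt a (1 / 2) with q | q
    · have h4 : 1 / 4 ≤ (1 - a) ^ 2 := by
        linarith [pow_le_pow_left₀ (by norm_num) (show (1 / 2 : ℝ) ≤ 1 - a by linarith) 2]
      linarith [mul_le_mul (mul_le_mul halo h4 (by norm_num) ha0) h3 (by norm_num)
        (mul_nonneg ha0 (sq_nonneg (1 - a)))]
    · have h4 : 1 / 100 ≤ (1 - a) ^ 2 := by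
        linarith [pow_le_pow_left₀ (by norm_num) (show (1 / 10 : ℝ) ≤ 1 - a by linarith) 2]
      linarith [mul_le_mul (mul_le_mul q.le h4 (by norm_num) ha0) h3 (by norm_num)
        (mul_nonneg ha0 (sq_nonneg (1 - a)))]
  refine ⟨hp475, ?_, hy'.le, hz'.le⟩
  by_contra h
  push Not at h
  have he := hg' ha9
  have hau : a ≤ 9487 / 10000 :=
    le_of_pow_le_pow_left₀ two_ne_zero (by norm_num) (by linarith)
  have hsq : (513 / 10000 : ℝ) ^ 2 ≤ (1 - a) ^ 2 :=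
    pow_le_pow_left₀ (by norm_num) (by linarith) 2
  rcases le_total p (485 / 1000) with u | u
  · linarith [pow_le_pow_left₀ w0 (w6 u) 2]
  · set b := Real.sqrt y with hb
    set c := Real.sqrt z with hc
    have hb0 : 0 ≤ b := Real.sqrt_nonneg _
    have hc0 : 0 ≤ c := Real.sqrt_nonneg _
    have hb2 : b ^ 2 = y := Real.sq_sqrt hy0
    have hc2 : c ^ 2 = z := Real.sq_sqrt hz0
    have hbu : b ≤ 317 / 10000 := le_of_pow_le_pow_left₀ two_ne_zero (by norm_num) (by linarith)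
    have hcu : c ≤ 317 / 10000 := le_of_pow_le_pow_left₀ two_ne_zero (by norm_num) (by linarith)
    have hyb : y ≤ 317 / 10000 * b := by
      rw [← hb2, sq]; exact mul_le_mul_of_nonneg_right hbu hb0
    have hzc : z ≤ 317 / 10000 * c := by
      rw [← hc2, sq]; exact mul_le_mul_of_nonneg_right hcu hc0
    have hpy : p * y ≤ 1 / 2 * y := mul_le_mul_of_nonneg_right hp1 hy0
    have hpz : p * z ≤ 1 / 2 * z := mul_le_mul_of_nonneg_right hp1 hz0
    have he0 : 0 ≤ 1 - a := by linarith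
    have h1 : (1 - 2 * p) * (2 - a) ≤ 1 / 25 * (2 - a) :=
      mul_le_mul_of_nonneg_right (by linarith) (by linarith)
    have h2 : p * (1 - a) ^ 2 ≤ 1 / 2 * (1 - a) ^ 2 :=
      mul_le_mul_of_nonneg_right hp1 (sq_nonneg _)
    have hpx : p * x = p * a ^ 2 := by rw [ha2]
    have hsum' : (b + c) * (984 / 1000) ≤ 1 / 25 * (2 - a) + 1 / 2 * (1 - a) ^ 2 := by
      linarith
    have h3 : 513 / 10000 * (1 - a) ≤ (1 - a) * (1 - a) :=
      mul_le_mul_of_nonneg_right (by linarith) he0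
    linarith

/-- **The endpoint algebra.** `hH` is `l ≥ √x`, `hQ` is `Q ≥ 0`, `hsum` is `Q_x + Q_y + Q_z = P`,
`hcls` is the calibrated slice inequality with `psi_pos`, `hG` and `hG'` the chord bound. -/
theorem split {p : ℝ} (hp0 : 0 < p) (hp1 : p ≤ 1 / 2) (x H : Fin 3 → ℝ) (hx0 : ∀ i, 0 ≤ x i)
    (hx1 : ∀ i, x i ≤ 1) (hne : ∃ i, 0 < x i)
    (hH : ∀ i, Real.sqrt (x i) - p * x i ≤ H i) (hQ : ∀ i, H i ≤ 1 - p)
    (hsum : ∑ i, H i = 2 - 3 * p)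
    (hcls : ∀ i, H i < rfun p (psiW0 p) ∨ rfun p (psiW1 p) < H i)
    (hG : ∀ i, gain (Real.sqrt (x i)) ≤ ∑ j, x j - x i)
    (hG' : ∀ i, 9 / 10 ≤ Real.sqrt (x i) → 7 / 10 * (1 - Real.sqrt (x i)) ^ 2 ≤ ∑ j, x j - x i) :
    ∃ i j k, i ≠ j ∧ i ≠ k ∧ j ≠ k ∧
      (MiddleCase p x H i j k ∨ CornerCase p x H i j k) := by
  simp only [Fin.sum_univ_three] at hsum hG hG'
  have hne' : 0 < x 0 ∨ 0 < x 1 ∨ 0 < x 2 := by
    obtain ⟨i, hi⟩ := hne
    fin_cases i <;> simp at hi <;> tauto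
  have hnn : ∀ i, 0 ≤ H i := fun i => (r_nonneg hp1 (hx0 i) (hx1 i)).trans (hH i)
  rcases le_or_gt p (343 / 1000) with hp | hp
  · exfalso
    have hb : ∀ i, rfun p (psiW1 p) < H i := by
      intro i
      refine (hcls i).resolve_left fun h => ?_
      rw [(psiW0_bounds p).2.2.1 hp] at h
      simp only [rfun] at h
      linarith [hnn i]
    linarith [three_big hp0, hb 0, hb 1, hb 2]
  have w1 := (psiW0_bounds p).2.1
  have hsm : rfun p (psiW0 p) ≤ 316 / 10000 := by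
    rw [rfun]; linarith [mul_nonneg (show (0 : ℝ) ≤ p by linarith) (sq_nonneg (psiW0 p))]
  rcases hcls 0 with s0 | l0 <;> rcases hcls 1 with s1 | l1 <;> rcases hcls 2 with s2 | l2
  · exfalso; linarith
  · obtain ⟨a, b, c, d⟩ := one_large_case hp hp1 (hx0 2) (hx1 2) (hx0 0) (hx1 0) (hx0 1) (hx1 1)
      (hH 2) (hH 0) (hH 1) (hQ 2) s0 s1 (by linarith) (by linarith [hG 2]) (by linarith [hG 0])
      (by linarith [hG 1]) (by tauto) (fun h => by linarith [hG' 2 h])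
    exact ⟨2, 0, 1, by decide, by decide, by decide, Or.inr ⟨a, b, c, d, s0, s1⟩⟩
  · obtain ⟨a, b, c, d⟩ := one_large_case hp hp1 (hx0 1) (hx1 1) (hx0 0) (hx1 0) (hx0 2) (hx1 2)
      (hH 1) (hH 0) (hH 2) (hQ 1) s0 s2 (by linarith) (by linarith [hG 1]) (by linarith [hG 0])
      (by linarith [hG 2]) (by tauto) (fun h => by linarith [hG' 1 h])
    exact ⟨1, 0, 2, by decide, by decide, by decide, Or.inr ⟨a, b, c, d, s0, s2⟩⟩
  · obtain ⟨a, b, c⟩ := two_large_case hp hp1 (hx1 1) (hx1 2) (hx0 0) (hx1 0) (hH 1) (hH 2)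
      (hH 0) l1 l2 s0 (by linarith)
    exact ⟨1, 2, 0, by decide, by decide, by decide, Or.inl ⟨hp, a, s0, b, c⟩⟩
  · obtain ⟨a, b, c, d⟩ := one_large_case hp hp1 (hx0 0) (hx1 0) (hx0 1) (hx1 1) (hx0 2) (hx1 2)
      (hH 0) (hH 1) (hH 2) (hQ 0) s1 s2 (by linarith) (by linarith [hG 0]) (by linarith [hG 1])
      (by linarith [hG 2]) (by tauto) (fun h => by linarith [hG' 0 h])
    exact ⟨0, 1, 2, by decide, by decide, by decide, Or.inr ⟨a, b, c, d, s1, s2⟩⟩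
  · obtain ⟨a, b, c⟩ := two_large_case hp hp1 (hx1 0) (hx1 2) (hx0 1) (hx1 1) (hH 0) (hH 2)
      (hH 1) l0 l2 s1 (by linarith)
    exact ⟨0, 2, 1, by decide, by decide, by decide, Or.inl ⟨hp, a, s1, b, c⟩⟩
  · obtain ⟨a, b, c⟩ := two_large_case hp hp1 (hx1 0) (hx1 1) (hx0 2) (hx1 2) (hH 0) (hH 1)
      (hH 2) l0 l1 s2 (by linarith)
    exact ⟨0, 1, 2, by decide, by decide, by decide, Or.inl ⟨hp, a, s2, b, c⟩⟩
  · exfalso; linarith [three_big hp0]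

theorem gain_poly_end {a t : ℝ} (ha : 9 / 10 ≤ a) (ha1 : a ≤ 1) (ht : 1 ≤ t) :
    7 / 10 * (1 - a) ^ 2 * (a + t) + 22 / 7 * ((1 - a) * (t - 1))
      ≤ 2 * ((t - a) ^ 2 * (5 * t + 6 * a) / 15) := by
  obtain ⟨e, rfl⟩ : ∃ e, a = 1 - e := ⟨1 - a, by ring⟩
  obtain ⟨τ, rfl⟩ : ∃ τ, t = 1 + τ := ⟨t - 1, by ring⟩
  have he : 0 ≤ e := by linarith
  have he1 : e ≤ 1 / 10 := by linarith
  have hτ : 0 ≤ τ := by linarith
  nlinarith [sq_nonneg (10 * e - 60 * τ), mul_nonneg (mul_nonneg he hτ) hτ, pow_nonneg hτ 3,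
    mul_le_mul_of_nonneg_left he1 (sq_nonneg e),
    mul_le_mul_of_nonneg_left he1 (mul_nonneg he hτ), sq_nonneg τ, sq_nonneg e]

/-- The gain of the chord calibration at `v = 1/π` for a nearly full contact. -/
theorem chord_gain_end {u w : ℝ} (hu : 9 / 10 ≤ u * Real.sqrt Real.pi)
    (huv : u ≤ Real.sqrt (1 / Real.pi)) (hvw : Real.sqrt (1 / Real.pi) ≤ w) :
    1 + 1 / Real.pi * (7 / 10 * (1 - u * Real.sqrt Real.pi) ^ 2)
      ≤ (Real.sqrt Real.pi * (1 / Real.pi + u * w) + 2 * Cylinder.H u w) / (u + w) := by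
  have hpi := Real.pi_pos
  set q := Real.sqrt Real.pi with hq
  have hq0 : 0 < q := Real.sqrt_pos.2 hpi
  have hq2 : q ^ 2 = Real.pi := Real.sq_sqrt hpi.le
  have hs : Real.sqrt (1 / Real.pi) = 1 / q := by rw [Real.sqrt_div zero_le_one, Real.sqrt_one]
  rw [hs] at huv hvw
  rw [le_div_iff₀ hq0] at huv
  rw [div_le_iff₀ hq0] at hvw
  obtain ⟨a, rfl⟩ : ∃ a, u = a / q := ⟨u * q, by field_simp⟩
  obtain ⟨t, rfl⟩ : ∃ t, w = t / q := ⟨w * q, by field_simp⟩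
  rw [div_mul_cancel₀ a hq0.ne'] at hu huv ⊢
  rw [div_mul_cancel₀ t hq0.ne'] at hvw
  have hsc : Cylinder.H (a / q) (t / q) = (1 / q) ^ 3 * Cylinder.H a t := by
    have e1 := Cylinder.H_scale (a / t) (t / q)
    have e2 := Cylinder.H_scale (a / t) t
    rw [show a / t * (t / q) = a / q by field_simp] at e1
    rw [div_mul_cancel₀ a (by linarith : t ≠ 0)] at e2
    rw [e1, e2]; field_simp
  have key := (gain_poly_end hu huv hvw).trans
    (mul_le_mul_of_nonneg_left (H_poly (by linarith) (huv.trans hvw)) zero_le_two)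
  have hpi' : Real.pi * ((1 - a) * (t - 1)) ≤ 22 / 7 * ((1 - a) * (t - 1)) :=
    mul_le_mul_of_nonneg_right (Real.pi_lt_d4.le.trans (by norm_num))
      (mul_nonneg (by linarith) (by linarith))
  rw [le_div_iff₀ (by positivity), hsc, ← hq2]
  rw [← hq2] at hpi'
  field_simp
  linarith

end Vale.Agent.P232.Endpoint
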