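import Vale.Agent.P232.Endpoint.MiddleSets
import Vale.Agent.P232.Endpoint.Algebra
import Vale.Agent.P232.CylinderEq
import Vale.Agent.P232.InteriorDownset

/-!
The endpoint `v = 1/π`: a minimiser has a full face. Without one, the calibrated slice inequality
confines every trace, and the two remaining configurations are contradictory.
-/

open MeasureTheory Set Filter Function Real
open scoped Topology

namespace Vale.Agent.P232.Endpoint

/-- Positivity of the endpoint function between `psiW0` and `psiW1`. -/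
def PsiPos : Prop :=
  ∀ ⦃p w : ℝ⦄, 0 ≤ p → p ≤ 1 / 2 → psiW0 p ≤ w → w ≤ psiW1 p → ¬(p = 0 ∧ w = 0) → Good p w

/-- The certificate of the middle case. -/
def KappaCert : Prop :=
  ∀ ⦃p H x S : ℝ⦄, 343 / 1000 < p → p ≤ 45 / 100 → 0 ≤ H → H ≤ rfun p (psiW0 p) → 0 ≤ x →
    x ≤ psiW0 p ^ 2 → S ≤ sM p →
    ∃ (kap T : ℝ) (k al be rho : ℝ → ℝ), 0 ≤ kap ∧ 1 ≤ T ∧ T ≤ π ∧ Measurable k ∧
      Continuous al ∧ Continuous be ∧ Continuous rho ∧
      (∀ t ∈ Icc 1 T, H + p * t < min √t (min 1 √(π - t))) ∧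
      (∀ t, 0 ≤ k t ∧ k t ≤ 1 / 2 ∧ 0 ≤ al t ∧ 0 ≤ be t ∧ rho t ∈ Icc (0 : ℝ) 1 ∧
        al t ^ 2 + be t ^ 2 ≤ rho t ^ 2 ∧ k t * al t ≤ kap ∧
        rho t * (H + p * t) ≤ al t * weightW (k t) (t / π)) ∧
      (∀ t, (t ≤ x ∨ T ≤ t) → be t = 0) ∧
      π * (1 - p - H) + kap * S < ∫ t in x..T, be t

/-- The corner configuration does not occur. -/
def CornerFalse : Prop :=
  ∀ ⦃D : Set R3⦄ ⦃P lam : ℝ⦄, EndData D P lam → ∀ ⦃i j k : Fin 3⦄, i ≠ j → i ≠ k → j ≠ k →
    CornerCase (pOf P lam) (xOf D) (hOf D P lam) i j k → False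

variable {D : Set R3} {P lam : ℝ}

/-- At most one contact: a full face. -/
theorem EndData.exists_pos (hd : EndData D P lam) : ∃ i, 0 < xOf D i := by
  by_contra h
  push Not at h
  have h0 : ∀ j, faceArea D j = 0 := fun j =>
    le_antisymm (nonpos_of_mul_nonpos_right (h j) Real.pi_pos) (faceArea_nonneg hd.down j)
  obtain ⟨j, hj⟩ := endpoint_of_le_one_contact hd.crit hd.vol 0 (h0 _) (h0 _)
  exact (hd.proper j).ne hj

theorem psiW1_lt_one (p : ℝ) : psiW1 p < 1 :=
  lt_of_le_of_lt (b := 835 / 1000) (by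
    unfold psiW1
    repeat' (apply ite_le' <;> intro)
    all_goals norm_num) (by norm_num)

theorem psiW0_lt_psiW1 (p : ℝ) : psiW0 p < psiW1 p :=
  (psiW0_bounds p).2.1.trans_lt (lt_of_lt_of_le (b := 380 / 1000) (by norm_num) (by
    unfold psiW1
    repeat' (apply le_ite' <;> intro)
    all_goals norm_num))

/-- The excluded range of the traces. -/
theorem EndData.cls (hpsi : PsiPos) (hd : EndData D P lam) (k : Fin 3) :
    (pOf P lam = 0 ∧ hOf D P lam k = 0) ∨ hOf D P lam k < rfun (pOf P lam) (psiW0 (pOf P lam)) ∨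
      rfun (pOf P lam) (psiW1 (pOf P lam)) < hOf D P lam k := by
  by_contra h
  push Not at h
  obtain ⟨hne, h0, h1⟩ := h
  set p := pOf P lam
  rcases le_total (psiW0 p) (psiW1 p) with hw | hw
  · obtain ⟨w, hw', hH⟩ := intermediate_value_Icc hw
      (f := rfun p) (by unfold rfun; fun_prop) ⟨h0, h1⟩
    have hw0 := (psiW0_nonneg p).trans hw'.1
    refine hd.not_good k hw0 (hw'.2.trans_lt (psiW1_lt_one p)) hH
      (hpsi hd.p_nonneg hd.p_le hw'.1 hw'.2 fun hz => hne hz.1 ?_)
    rw [← hH, hz.2]; simp [rfun]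
  · exact absurd hw (not_le.2 (psiW0_lt_psiW1 p))

/-- The gain of the chord calibration. -/
theorem EndData.gains (hd : EndData D P lam) (k : Fin 3) :
    Interior.gain √(xOf D k) ≤ ∑ j, xOf D j - xOf D k ∧
      (9 / 10 ≤ √(xOf D k) → 7 / 10 * (1 - √(xOf D k)) ^ 2 ≤ ∑ j, xOf D j - xOf D k) := by
  have hpi := Real.pi_pos
  obtain ⟨w, hw, hc⟩ := exists_chord hd.meas hd.down hd.crit.2.2.1
    (hd.vol.symm ▸ (by positivity)) k
  rw [hd.vol] at hw hc
  set u := √(faceArea D k) with hu
  have huv : u ≤ √(1 / π) := Real.sqrt_le_sqrt (hd.proper k).le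
  have hue : u / √(1 / π) = √(xOf D k) := by
    rw [hu, xOf, Real.sqrt_div zero_le_one, Real.sqrt_one, Real.sqrt_mul hpi.le]
    field_simp
  have hv : 4 * π / 81 ≤ 1 / π := by
    rw [div_le_div_iff₀ (by norm_num) hpi]
    nlinarith [Real.pi_lt_four]
  have hone : √(π * (1 / π)) = 1 := by rw [mul_one_div, div_self hpi.ne', Real.sqrt_one]
  have hsum : ∑ j, xOf D j - xOf D k = π * (∑ j, faceArea D j - faceArea D k) := by
    rw [mul_sub, Finset.mul_sum]; rfl
  have key : ∀ g : ℝ, 1 + 1 / π * g ≤ P + (∑ j, faceArea D j - faceArea D k) →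
      g ≤ ∑ j, xOf D j - xOf D k := fun g hg => by
    have : 1 / π * g ≤ ∑ j, faceArea D j - faceArea D k := by linarith [hd.per_le_one]
    rw [one_div, inv_mul_le_iff₀ hpi] at this
    rwa [hsum]
  refine ⟨key _ ?_, fun h9 => key _ ?_⟩
  · have := Interior.chord_gain hv (Real.sqrt_nonneg _) huv hw
    rw [hue, hone] at this
    exact this.trans hc
  · have hsx : √(xOf D k) = u * √π := by rw [hu, xOf, Real.sqrt_mul hpi.le, mul_comm]
    rw [hsx] at h9 ⊢
    exact (chord_gain_end h9 huv hw).trans hc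

/-- A trace equal to one at rate zero is impossible. -/
theorem EndData.no_unit (hd : EndData D P lam) (k : Fin 3) (hp : pOf P lam = 0)
    (hH : hOf D P lam k = 1) : False := by
  have hpi := Real.pi_gt_three
  set A := π * rightLim (areaExt D k) 0 with hA
  have hA1 : 1 < A := by
    have := (div_lt_iff₀ Real.pi_pos).1 (hd.area_gt k)
    rw [hA, mul_comm]; exact this
  set c := min A (min (π - 1) 2) with hc
  have hc1 : 1 < c := lt_min hA1 (lt_min (by linarith) (by norm_num))
  have hcA : c ≤ A := min_le_left _ _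
  have hcp : c ≤ π - 1 := (min_le_right _ _).trans (min_le_left _ _)
  have hc2 : c ≤ 2 := (min_le_right _ _).trans (min_le_right _ _)
  set b : ℝ → ℝ := fun t => max 0 (min (t - 1) (c - t)) with hb
  have hb0 : ∀ t, 0 ≤ b t := fun t => le_max_left _ _
  have hb1 : ∀ t, b t ≤ 1 := fun t => max_le zero_le_one (by
    rcases le_total t 2 with h | h
    · exact (min_le_left _ _).trans (by linarith)
    · exact (min_le_right _ _).trans (by linarith))
  have hbc : Continuous b := by rw [hb]; fun_prop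
  have hx1 : xOf D k < A := (hd.x_lt k).trans hA1
  set I := ∫ t in (xOf D k)..A, b t with hI
  have hI0 : 0 < I := by
    refine intervalIntegral.integral_pos hx1 hbc.continuousOn (fun t _ => hb0 t)
      ⟨(1 + c) / 2, ⟨by linarith [hd.x_lt k], by linarith⟩, ?_⟩
    exact lt_max_of_lt_right (lt_min (by linarith) (by linarith))
  set e := min (I / (2 * π)) 1 with he
  have he0 : 0 < e := lt_min (by positivity) one_pos
  have he1 : e ≤ 1 := min_le_right _ _
  have he2 : π * e ≤ I / 2 := by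
    calc π * e ≤ π * (I / (2 * π)) := mul_le_mul_of_nonneg_left (min_le_left _ _) Real.pi_pos.le
      _ = I / 2 := by field_simp
  have hs0 : 0 ≤ √(1 - e ^ 2) := Real.sqrt_nonneg _
  have hs : 1 - e ^ 2 ≤ √(1 - e ^ 2) := by
    have h0 : 0 ≤ 1 - e ^ 2 := by nlinarith
    refine Real.le_sqrt_of_sq_le ?_
    nlinarith
  have hline : ∀ t, b t * (P * (hOf D P lam k + pOf P lam * t))
      ≤ b t * √(1 - e ^ 2) * √(W2 t) + e ^ 2 := fun t => by
    rw [hp, hH, zero_mul, add_zero, mul_one]
    by_cases ht : 1 < t ∧ t < c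
    · have hW : W2 t = 1 := by rw [W2, min_eq_left (show (1 : ℝ) ≤ π - t by linarith [ht.2]), min_eq_right ht.1.le]
      rw [hW, Real.sqrt_one, mul_one]
      nlinarith [mul_le_mul_of_nonneg_left hd.per_le_one (hb0 t), hb0 t, hb1 t, sq_nonneg e,
        mul_le_mul_of_nonneg_left hs (hb0 t)]
    · have hz : b t = 0 := max_eq_left (by
        rcases le_or_gt t 1 with h | h
        · exact (min_le_left _ _).trans (by linarith)
        · exact (min_le_right _ _).trans (by linarith [not_lt.1 fun h' => ht ⟨h, h'⟩]))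
      rw [hz]; nlinarith
  have hcal := hd.calib_plain k (g := fun t => b t * e) (h := fun t => b t * √(1 - e ^ 2)) (r := b)
    (hbc.mul continuous_const) (hbc.mul continuous_const) hbc (fun t => mul_nonneg (hb0 t) he0.le)
    (fun t => mul_nonneg (hb0 t) hs0) (fun t => ⟨hb0 t, hb1 t⟩)
    (fun t => le_of_eq (by
      rw [mul_pow, mul_pow, Real.sq_sqrt (by nlinarith)]; ring)) hline
  rw [intervalIntegral.integral_mul_const, hp, hH] at hcal
  have : I * e ≤ π * e ^ 2 := by rw [hI, hA]; linarith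
  nlinarith [mul_le_mul_of_nonneg_left he2 he0.le]

/-- The endpoint bound. -/
theorem endpointBound_of (hpsi : PsiPos) (hker : KappaCert) (hcor : CornerFalse) :
    EndpointBound := by
  intro D P h hv
  by_contra hno
  push Not at hno
  obtain ⟨lam, hd⟩ := exists_endData h hv hno
  set p := pOf P lam with hp
  set H := hOf D P lam with hH
  rcases hd.p_nonneg.eq_or_lt with hz | hpos
  · have hp0 : p = 0 := hz.symm
    have hcl : ∀ k, H k ≤ 0 ∨ 4 / 5 < H k := fun k => by
      rcases hd.cls hpsi k with ⟨-, h⟩ | h | h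
      · exact Or.inl h.le
      · rw [← hp, hp0, rfun] at h
        norm_num [psiW0] at h
        exact Or.inl h.le
      · rw [← hp, hp0, rfun] at h
        norm_num [psiW1] at h
        exact Or.inr (by linarith)
    have hle : ∀ k, H k ≤ 1 := fun k => by simpa [← hp, hp0] using hd.h_le k
    have hsum := hd.sum_h
    rw [Fin.sum_univ_three, ← hp, hp0] at hsum
    rcases hcl 0 with a | a <;> rcases hcl 1 with b | b <;> rcases hcl 2 with c | c
    all_goals first
      | linarith [hle 0, hle 1, hle 2]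
      | exact hd.no_unit 0 hp0 (le_antisymm (hle 0) (by linarith [hle 1, hle 2]))
      | exact hd.no_unit 1 hp0 (le_antisymm (hle 1) (by linarith [hle 0, hle 2]))
  · obtain ⟨i, j, k, hij, hik, hjk, hM | hC⟩ := split hpos hd.p_le (xOf D) H hd.x_nonneg
      (fun i => (hd.x_lt i).le) hd.exists_pos hd.h_ge hd.h_le hd.sum_h
      (fun i => by
        rcases hd.cls hpsi i with ⟨h, -⟩ | h
        · exact absurd h hpos.ne'
        · exact h)
      (fun i => (hd.gains i).1) (fun i => (hd.gains i).2)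
    · obtain ⟨h1, h2, h3, h4, h5⟩ := hM
      have hH0 : 0 ≤ H k := (r_nonneg hd.p_le (hd.x_nonneg k) (hd.x_lt k).le).trans (hd.h_ge k)
      have hS : ∑ l, xOf D l - xOf D k = xOf D i + xOf D j := by
        rw [Fin.sum_univ_three]
        fin_cases i <;> fin_cases j <;> fin_cases k <;> simp_all <;> ring
      obtain ⟨kap, T, wt, al, be, rho, g1, g2, g3, g4, g5, g6, g7, g8, g9, g10, g11⟩ :=
        hker h1 h2 hH0 h3.le (hd.x_nonneg k) h4 h5
      exact hd.middle_contradiction k g1 g2 g4 g5 g6 g7 g8 g9 g10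
        (((hd.x_lt k).le).trans g2) hS.le g11
    · exact hcor hd hij hik hjk hC

end Vale.Agent.P232.Endpoint
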