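import Vale.Agent.P232.PlanarSet

/-!
The corner case at the endpoint `v = 1/π`: one contact `x ≥ 9/10`, the other two tiny.

* `corner_contradiction`: the inequality of the one-sided compression (first and second order)
  for the two small contacts is impossible.
* `planar_extent`: the end slice in the large direction ends below `7/10`, so the volume above
  height `7/10` in a small direction is at most `(1 - x) v`.
-/

open Real Set MeasureTheory

namespace Vale.Agent.P232.Endpoint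

/-- Second order lower bound for the tube profile under a small loss of volume. -/
theorem sqrt_one_sub_ge {u : ℝ} (h0 : 0 ≤ u) (h1 : u ≤ 1 / 10) :
    1 - u / 2 - 13 / 10 / π ^ 2 * u ^ 2 ≤ √(1 - u) := by
  have hpi : π ^ 2 ≤ 98697 / 10000 := by nlinarith [Real.pi_lt_d6, Real.pi_pos]
  have hc : 1317 / 10000 ≤ 13 / 10 / π ^ 2 := by
    rw [le_div_iff₀ (by positivity)]; linarith
  have hle : 1 - u / 2 - 1317 / 10000 * u ^ 2 ≤ √(1 - u) := by
    apply Real.le_sqrt_of_sq_le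
    nlinarith [mul_nonneg (sq_nonneg u) h0, mul_nonneg (sq_nonneg u) (sub_nonneg.2 h1),
      mul_nonneg (mul_nonneg (sq_nonneg u) h0) (sub_nonneg.2 h1)]
  nlinarith [mul_le_mul_of_nonneg_right hc (sq_nonneg u)]

/-- The competitor inequality `P √(1 - π e V) ≤ P'` in polynomial form. -/
theorem tube_drop {P P' e V : ℝ} (hP0 : 0 ≤ P) (hP1 : P ≤ 1) (he : 0 ≤ e) (hV : 0 ≤ V)
    (hu : π * e * V ≤ 1 / 10) (h : P * √(1 - π * e * V) ≤ P') :
    P - P' ≤ e * (π / 2 * V) + e ^ 2 * (13 / 10 * V ^ 2) := by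
  have hu0 : 0 ≤ π * e * V := by positivity
  have h1 := mul_le_mul_of_nonneg_left (sqrt_one_sub_ge hu0 hu) hP0
  have hsq : 13 / 10 / π ^ 2 * (π * e * V) ^ 2 = e ^ 2 * (13 / 10 * V ^ 2) := by
    field_simp
  rw [hsq] at h1
  have hnn : 0 ≤ π * e * V / 2 + e ^ 2 * (13 / 10 * V ^ 2) := by positivity
  nlinarith [mul_le_mul_of_nonneg_right hP1 hnn]

/-- The algebra of one tiny contact: `g` is the first order gain, `K4` four times the second
order coefficient, `u = π V`. -/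
theorem corner_algebra {H η u y g K4 : ℝ} (hH : 0 < H) (hη : η ≤ 2 * H) (hu0 : 0 ≤ u)
    (hu : u ≤ 1 / 10) (hy0 : 0 ≤ y) (hy : y ≤ 11 / 10000)
    (hyH : H ≤ 7 / 200 → 965 / 1000 * y ≤ H ^ 2)
    (hg : g = 3 / 10 * H - η * u / 2)
    (hK : K4 ≤ (1 - η) * u + 6 / 10 * H + 527 / 1000 * u ^ 2)
    (h : π * g ^ 2 ≤ K4 * y) : False := by
  obtain ⟨δ, hδ, hδdef⟩ : ∃ δ, 0 ≤ δ ∧ δ = (2 * H - η) * u / 2 :=
    ⟨_, div_nonneg (mul_nonneg (by linarith) hu0) (by norm_num), rfl⟩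
  have hg' : g = H * (3 / 10 - u) + δ := by rw [hg, hδdef]; ring
  have hK' : K4 ≤ (1 - 2 * H) * u + 6 / 10 * H + 527 / 1000 * u ^ 2 + 2 * δ := by
    rw [hδdef]; linarith
  have hfac : 1 / 5 * H ≤ H * (3 / 10 - u) := by
    rw [mul_comm (1 / 5 : ℝ)]; exact mul_le_mul_of_nonneg_left (by linarith) hH.le
  have hg2 : H ^ 2 * (1 / 25) + 2 / 5 * (H * δ) ≤ g ^ 2 := by
    have h0 : 1 / 5 * H + δ ≤ g := by linarith
    have h1 := mul_self_le_mul_self (by positivity) h0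
    calc H ^ 2 * (1 / 25) + 2 / 5 * (H * δ) ≤ (1 / 5 * H + δ) * (1 / 5 * H + δ) := by
          nlinarith [sq_nonneg δ]
      _ ≤ g * g := h1
      _ = g ^ 2 := by ring
  have hu2 : u ^ 2 ≤ 1 / 100 := by
    calc u ^ 2 ≤ (1 / 10) ^ 2 := pow_le_pow_left₀ hu0 hu 2
      _ = 1 / 100 := by norm_num
  have h2 : 314 / 100 * (H ^ 2 * (1 / 25) + 2 / 5 * (H * δ)) ≤ π * g ^ 2 :=
    mul_le_mul (by linarith [Real.pi_gt_d6]) hg2 (by positivity) Real.pi_pos.le
  have hHδ : 0 ≤ H * δ := mul_nonneg hH.le hδ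
  by_cases hsmall : H ≤ 7 / 200
  · -- `y` is controlled by `H`
    have hy' := hyH hsmall
    have hden : K4 ≤ 1194 / 10000 + 2 * δ := by
      have : (1 - 2 * H) * u ≤ (1 - 2 * H) * (1 / 10) :=
        mul_le_mul_of_nonneg_left hu (by linarith)
      linarith
    have hd0 : 0 ≤ 1194 / 10000 + 2 * δ := by positivity
    have h1 : 965 / 1000 * (π * g ^ 2) ≤ (1194 / 10000 + 2 * δ) * H ^ 2 := by
      calc 965 / 1000 * (π * g ^ 2) ≤ 965 / 1000 * ((1194 / 10000 + 2 * δ) * y) := by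
            have := mul_le_mul_of_nonneg_right hden hy0
            linarith
        _ = (1194 / 10000 + 2 * δ) * (965 / 1000 * y) := by ring
        _ ≤ _ := mul_le_mul_of_nonneg_left hy' hd0
    have h3 : H * (H * δ) ≤ 7 / 200 * (H * δ) := mul_le_mul_of_nonneg_right hsmall hHδ
    have h4 : δ * H ^ 2 = H * (H * δ) := by ring
    have h5 : 0 < H ^ 2 := by positivity
    linarith
  · have hbig : 7 / 200 < H := not_le.1 hsmall
    have hden : K4 ≤ 1053 / 10000 + 6 / 10 * H + 2 * δ := by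
      have := mul_nonneg hH.le hu0
      linarith
    have hd0 : 0 ≤ 1053 / 10000 + 6 / 10 * H + 2 * δ := by positivity
    have h1 : π * g ^ 2 ≤ (1053 / 10000 + 6 / 10 * H + 2 * δ) * (11 / 10000) :=
      h.trans (mul_le_mul hden hy hy0 hd0)
    have h3 : 7 / 200 * δ ≤ H * δ := mul_le_mul_of_nonneg_right hbig.le hδ
    have h4 : 7 / 200 * H ≤ H ^ 2 := by
      rw [pow_two]; exact mul_le_mul_of_nonneg_right hbig.le hH.le
    linarith

/-- One tiny contact `y` with `H = l - p y ≥ (1 - 2 p) / 2` and `V ≤ (1 - x) v`. -/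
theorem contact_contradiction {p y l V : ℝ} (hp0 : 0 ≤ p) (hp : p ≤ 1 / 2)
    (hy : y ∈ Icc (0 : ℝ) (11 / 10000)) (hl : √y ≤ l) (hV0 : 0 ≤ V) (hV : π * V ≤ 1 / 10)
    (hH : 0 < l - p * y) (heta : 1 - 2 * p ≤ 2 * (l - p * y))
    (h : ∀ e0 ∈ Ioc (0 : ℝ) 1, e0 * (3 / 10 * (l - p * y) - (π / 2 - p * π) * V) ≤
      y / π + e0 ^ 2 * ((p * π * V + 3 / 10 * (l - p * y)) / 2 + 13 / 10 * V ^ 2)) : False := by
  obtain ⟨hy0, hy1⟩ := hy
  obtain ⟨H, hHdef⟩ : ∃ H, H = l - p * y := ⟨_, rfl⟩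
  rw [← hHdef] at hH heta h
  have hu0 : 0 ≤ π * V := by positivity
  obtain ⟨g, hgdef⟩ : ∃ g, g = 3 / 10 * H - (π / 2 - p * π) * V := ⟨_, rfl⟩
  obtain ⟨K, hKdef⟩ : ∃ K, K = (p * π * V + 3 / 10 * H) / 2 + 13 / 10 * V ^ 2 := ⟨_, rfl⟩
  rw [← hgdef, ← hKdef] at h
  have hg : g = 3 / 10 * H - (1 - 2 * p) * (π * V) / 2 := by rw [hgdef]; ring
  have hgp : 0 < g := by
    have e1 := mul_le_mul_of_nonneg_right heta hu0
    have e2 := mul_le_mul_of_nonneg_left hV hH.le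
    linarith
  have hKlow : 3 / 10 * H ≤ 2 * K := by
    have e1 : 0 ≤ p * π * V := by positivity
    have e2 : 0 ≤ V ^ 2 := sq_nonneg V
    linarith
  have hK : 0 < K := by linarith
  have he0 : g / (2 * K) ∈ Ioc (0 : ℝ) 1 := by
    refine ⟨by positivity, ?_⟩
    rw [div_le_one (by linarith)]
    have := mul_nonneg (show (0 : ℝ) ≤ 1 - 2 * p by linarith) hu0
    linarith
  have hmain : π * g ^ 2 ≤ 4 * K * y := by
    have h1 := h _ he0
    have e1 : g / (2 * K) * g - (g / (2 * K)) ^ 2 * K = g ^ 2 / (4 * K) := by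
      field_simp; ring
    have h2 : g ^ 2 / (4 * K) ≤ y / π := by linarith
    rw [div_le_div_iff₀ (by positivity) Real.pi_pos] at h2
    linarith
  have hK4 : 4 * K ≤ (1 - (1 - 2 * p)) * (π * V) + 6 / 10 * H + 527 / 1000 * (π * V) ^ 2 := by
    have hpi2 : (98695 : ℝ) / 10000 ≤ π ^ 2 := by nlinarith [Real.pi_gt_d6]
    have e1 := mul_le_mul_of_nonneg_right hpi2 (sq_nonneg V)
    have e2 : (π * V) ^ 2 = π ^ 2 * V ^ 2 := by ring
    have e3 := sq_nonneg V
    rw [hKdef, e2]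
    linarith
  refine corner_algebra hH heta hu0 hV hy0 hy1 (fun hsmall => ?_) hg hK4 hmain
  have hs0 := Real.sqrt_nonneg y
  have hs2 := Real.sq_sqrt hy0
  have hs1 : √y ≤ 332 / 10000 := by
    rw [Real.sqrt_le_iff]; exact ⟨by norm_num, by linarith⟩
  have e1 : p * y ≤ 1 / 2 * (√y * (332 / 10000)) := by
    apply mul_le_mul hp ?_ hy0 (by norm_num)
    calc y = √y * √y := (Real.mul_self_sqrt hy0).symm
      _ ≤ _ := mul_le_mul_of_nonneg_left hs1 hs0
  have hlow : √y * (9834 / 10000) ≤ H := by linarith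
  have e2 := mul_le_mul hlow hlow (by positivity) hH.le
  have e3 : (√y * (9834 / 10000)) * (√y * (9834 / 10000)) =
      y * (9834 / 10000) ^ 2 := by rw [mul_mul_mul_comm, Real.mul_self_sqrt hy0]; ring
  rw [e3, ← pow_two H] at e2
  linarith

/-- **Corner case.** With `x ≥ 9/10` (so `π Vy, π Vz ≤ 1 - x ≤ 1/10`) the compression
inequalities for the two tiny contacts cannot both hold. -/
theorem corner_contradiction {p x y z ly lz Vy Vz : ℝ} (hp0 : 0 ≤ p) (hp : p ≤ 1 / 2)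
    (hx : 9 / 10 ≤ x) (hy : y ∈ Icc (0 : ℝ) (11 / 10000)) (hz : z ∈ Icc (0 : ℝ) (11 / 10000))
    (hpos : 0 < y ∨ 0 < z) (hly : √y ≤ ly) (hlz : √z ≤ lz)
    (hsum : 1 - 2 * p ≤ (ly - p * y) + (lz - p * z))
    (hVy0 : 0 ≤ Vy) (hVy : Vy ≤ (1 - x) / π) (hVz0 : 0 ≤ Vz) (hVz : Vz ≤ (1 - x) / π)
    (hcy : ∀ e0 ∈ Ioc (0 : ℝ) 1, e0 * (3 / 10 * (ly - p * y) - (π / 2 - p * π) * Vy) ≤
      y / π + e0 ^ 2 * ((p * π * Vy + 3 / 10 * (ly - p * y)) / 2 + 13 / 10 * Vy ^ 2))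
    (hcz : ∀ e0 ∈ Ioc (0 : ℝ) 1, e0 * (3 / 10 * (lz - p * z) - (π / 2 - p * π) * Vz) ≤
      z / π + e0 ^ 2 * ((p * π * Vz + 3 / 10 * (lz - p * z)) / 2 + 13 / 10 * Vz ^ 2)) :
    False := by
  rw [le_div_iff₀ Real.pi_pos] at hVy hVz
  have key : ∀ w l : ℝ, 0 < w → w ≤ 11 / 10000 → √w ≤ l → 0 < l - p * w := by
    intro w l hw0 hw1 hl
    have hs := Real.sqrt_pos.2 hw0
    have hs1 : √w ≤ 1 := by rw [Real.sqrt_le_one]; linarith
    nlinarith [Real.sq_sqrt hw0.le, mul_le_mul_of_nonneg_left hs1 hs.le]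
  rcases le_total (lz - p * z) (ly - p * y) with hc | hc
  · have hH : 0 < ly - p * y := by
      rcases hpos with h | h
      · exact key y ly h hy.2 hly
      · linarith [key z lz h hz.2 hlz]
    exact contact_contradiction hp0 hp hy hly hVy0 (by linarith) hH (by linarith) hcy
  · have hH : 0 < lz - p * z := by
      rcases hpos with h | h
      · linarith [key y ly h hy.2 hly]
      · exact key z lz h hz.2 hlz
    exact contact_contradiction hp0 hp hz hlz hVz0 (by linarith) hH (by linarith) hcz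

/-- The planar numerical fact: an end slice of area `x/π` cannot reach height `7/10` within
perimeter `1 - p (1 - x)`, with room `7/10000` for its two far contacts. -/
theorem extent_margin {p x : ℝ} (hx : x ≤ 1)
    (h : (17 / 50 ≤ p ∧ 97 / 100 ≤ x) ∨ (43 / 100 ≤ p ∧ 9 / 10 ≤ x)) :
    1 - p * (1 - x) + 7 / 10000 < x / π / (7 / 10) + π * (7 / 10) / 4 := by
  have h1 : x * (4547 / 10000) ≤ x / π / (7 / 10) := by
    rw [div_div, le_div_iff₀ (by positivity)]
    have hx0 : 0 ≤ x := by rcases h with h | h <;> linarith [h.2]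
    nlinarith [mul_le_mul_of_nonneg_left Real.pi_lt_d6.le hx0]
  have h2 := Real.pi_gt_d6
  rcases h with ⟨hp, hx'⟩ | ⟨hp, hx'⟩ <;>
    nlinarith [mul_le_mul_of_nonneg_right hp (sub_nonneg.2 hx)]

open Planar in
/-- A planar down-set of area at least `9/(10 π)` whose test fluxes are at most `L`, small
against the quarter-disc bound of radius `7/10`, vanishes beyond `7/10`. -/
theorem planar_extent {g : ℝ → ℝ} (hg : IsHeight g) {p ex L : ℝ} (hp : 0 ≤ p)
    (htop : ∀ t ∈ Ioo p 1, g t < 1) (hex : EndsBelow g ex) (hex0 : 0 ≤ ex)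
    (hA : area g ≤ 1 / π) (hL : ∀ F : Field, Planar.flux F g ≤ L)
    (h : L + p + ex < area g / (7 / 10) + π * (7 / 10) / 4) :
    ∀ t ∈ Ioo (7 / 10 : ℝ) 1, g t = 0 := by
  intro t ht
  by_contra hne
  have ht01 : t ∈ Ioo (0 : ℝ) 1 := ⟨by linarith [ht.1], ht.2⟩
  have hgt : 0 < g t := lt_of_le_of_ne (hg.mem t ht01).1 (Ne.symm hne)
  set T : Set ℝ := {x | x ∈ Ioo (0 : ℝ) 1 ∧ 0 < g x} with hT
  have htT : t ∈ T := ⟨ht01, hgt⟩
  have hTb : BddAbove T := ⟨1, fun x hx => hx.1.2.le⟩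
  set q := sSup T with hqdef
  have hq7 : 7 / 10 < q := ht.1.trans_le (le_csSup hTb htT)
  have hq1 : q ≤ 1 := csSup_le ⟨t, htT⟩ fun x hx => hx.1.2.le
  have hq0 : 0 < q := by linarith
  have hzero : ∀ x ∈ Ioo q 1, g x = 0 := by
    intro x hx
    have hx' : x ∈ Ioo (0 : ℝ) 1 := ⟨hq0.trans hx.1, hx.2⟩
    refine le_antisymm (le_of_not_gt fun hpx => ?_) (hg.mem x hx').1
    linarith [hx.1, le_csSup hTb (show x ∈ T from ⟨hx', hpx⟩)]
  have hpos : ∀ x ∈ Ioo 0 q, 0 < g x := by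
    intro x hx
    obtain ⟨y, hy, hxy⟩ := exists_lt_of_lt_csSup (⟨t, htT⟩ : T.Nonempty) hx.2
    exact hy.2.trans_le (hg.anti ⟨hx.1, hxy.trans hy.1.2⟩ hy.1 hxy.le)
  -- the bound increases with the radius
  have hmono : area g / (7 / 10) + π * (7 / 10) / 4 ≤ area g / q + π * q / 4 := by
    have hA' : area g * (4 * π) ≤ 4 := by
      have := mul_le_mul_of_nonneg_right hA Real.pi_pos.le
      rw [div_mul_cancel₀ _ Real.pi_ne_zero] at this; linarith
    have hid : area g / q + π * q / 4 - (area g / (7 / 10) + π * (7 / 10) / 4) =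
        (q - 7 / 10) * (π * q * (7 / 10) - 4 * area g) / (4 * q * (7 / 10)) := by
      field_simp; ring
    have hfac : 0 ≤ π * q * (7 / 10) - 4 * area g := by
      have hpp : 4 ≤ π * q * (7 / 10) * π := by
        nlinarith [mul_le_mul Real.pi_gt_d6.le Real.pi_gt_d6.le (by norm_num) Real.pi_pos.le,
          mul_lt_mul_of_pos_left hq7 (mul_pos Real.pi_pos Real.pi_pos)]
      nlinarith [Real.pi_pos]
    have : 0 ≤ (q - 7 / 10) * (π * q * (7 / 10) - 4 * area g) / (4 * q * (7 / 10)) :=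
      div_nonneg (mul_nonneg (by linarith) hfac) (by positivity)
    linarith
  have a1 := area_le_one hg
  have a0 := area_nonneg hg
  obtain ⟨c, hc0, hc1, hc⟩ : ∃ c : ℝ, 0 < c ∧ c ≤ 1 / 2 ∧
      5 * c < area g / q + π * q / 4 - (L + p + ex) := by
    set r := area g / q + π * q / 4 - (L + p + ex)
    have hr : 0 < r := by simp only [r]; linarith
    refine ⟨min (1 / 2) (r / 6), lt_min (by norm_num) (by linarith), min_le_left _ _, ?_⟩
    linarith [min_le_right (1 / 2 : ℝ) (r / 6)]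
  have hs : 0 ≤ (1 - c) / q := div_nonneg (by linarith) hq0.le
  have hsq : (1 - c) / q * q < 1 := by rw [div_mul_cancel₀ _ hq0.ne']; linarith
  obtain ⟨ex', hex', hle⟩ : ∃ ex', EndsBelow g ex' ∧ (1 - c) / q * ex' ≤ ex := by
    rcases hq1.eq_or_lt with hq | hq
    · exact ⟨ex, hex, by rw [hq, div_one]; nlinarith⟩
    · refine ⟨0, fun d hd => ⟨(q + 1) / 2, ⟨by linarith, by linarith⟩, ?_⟩, by simpa using hex0⟩
      rw [hzero _ ⟨by linarith, by linarith⟩]; linarith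
  obtain ⟨F, hF⟩ := exists_schmidt hg hs hsq ⟨hq0.le, hq1⟩ hpos hzero hp htop hex' hc0
  have mono : π * q / 4 ≤ ∫ x in (0 : ℝ)..q, √(1 - ((1 - c) / q * x) ^ 2) := by
    rw [← integral_quarter_scaled hq0]
    refine intervalIntegral.integral_mono_on hq0.le
      (Continuous.intervalIntegrable (by fun_prop) _ _)
      (Continuous.intervalIntegrable (by fun_prop) _ _) fun x hx => Real.sqrt_le_sqrt ?_
    have hxq : 0 ≤ x / q := div_nonneg hx.1 hq0.le
    rw [show (1 - c) / q * x = (1 - c) * (x / q) by ring]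
    nlinarith [mul_nonneg (sub_nonneg.2 (show c ≤ 1 by linarith)) hxq, mul_nonneg hc0.le hxq]
  have hAq : c * (area g / q) ≤ c * 2 := by
    refine mul_le_mul_of_nonneg_left ?_ hc0.le
    rw [div_le_iff₀ hq0]; nlinarith
  have hsA : (1 - c) / q * area g = area g / q - c * (area g / q) := by ring
  linarith [hL F]

/-- The corner form of `planar_extent`: area `x/π`, perimeter at most `1 - p (1 - x)`. -/
theorem corner_extent {g : ℝ → ℝ} (hg : Planar.IsHeight g) {p x cp ex : ℝ} (hx : x ≤ 1)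
    (h : (17 / 50 ≤ p ∧ 97 / 100 ≤ x) ∨ (43 / 100 ≤ p ∧ 9 / 10 ≤ x))
    (hA : Planar.area g = x / π) (hcp : 0 ≤ cp) (htop : ∀ t ∈ Ioo cp 1, g t < 1)
    (hex : Planar.EndsBelow g ex) (hex0 : 0 ≤ ex) (hsmall : cp + ex ≤ 7 / 10000)
    (hL : ∀ F : Planar.Field, Planar.flux F g ≤ 1 - p * (1 - x)) :
    ∀ t ∈ Ioo (7 / 10 : ℝ) 1, g t = 0 := by
  refine planar_extent hg hcp htop hex hex0 ?_ hL ?_
  · rw [hA]; gcongr
  · rw [hA]; linarith [extent_margin hx h]

/-- `corner_extent` for a planar down-set and square fields: nothing above `7/10` in the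
first coordinate. -/
theorem corner_extent_set {B : Set (ℝ × ℝ)} (hB : IsSqDown B) {p x : ℝ} (hx : x ≤ 1)
    (h : (17 / 50 ≤ p ∧ 97 / 100 ≤ x) ∨ (43 / 100 ≤ p ∧ 9 / 10 ≤ x))
    (hA : volume.real B = x / π) (hc : contactY B + contactX B ≤ 7 / 10000)
    (hL : ∀ P Q, IsSqField P Q → flux P Q B ≤ 1 - p * (1 - x)) :
    ∀ w ∈ B, w.2 ≠ 0 → w.1 ≤ 7 / 10 := by
  intro w hw hw2
  by_contra hlt
  have h1 := hB.sub hw
  have h0 : height B w.1 = 0 :=
    corner_extent hB.isHeight hx h (hB.area_eq.trans hA) measureReal_nonneg hB.height_lt_one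
      hB.endsBelow hB.contactX_nonneg hc
      (fun F => (flux_prod hB F).symm.trans_le (hL _ _ (isSqField_prod F))) w.1
      ⟨not_le.1 hlt, h1.1.2⟩
  have := ((hB.fib_bounds w.1).2 (show w.2 ∈ Prod.mk w.1 ⁻¹' B from hw)).2
  exact hw2 (le_antisymm (this.trans h0.le) h1.2.1)

end Vale.Agent.P232.Endpoint
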