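import Vale.Agent.P232.Endpoint.Sides
import Vale.Agent.P232.Endpoint.Corner
import Vale.Agent.P232.PlanarWeight

/-!
The corner case on the sets side, first part: a nearly full contact confines the set in the two
other directions.
-/

open MeasureTheory Set Filter Real
open scoped Topology

namespace Vale.Agent.P232

variable {D : Set R3} {B B' : Set (ℝ × ℝ)}

theorem contactX_mono (hB : IsSqDown B) (hB' : IsSqDown B') (h : B' ⊆ B) :
    contactX B' ≤ contactX B :=
  le_of_tendsto_of_tendsto' hB'.tendsto_height hB.tendsto_height fun _ =>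
    ENNReal.toReal_mono (hB.fib_finite _) (measure_mono (preimage_mono h))

theorem contactY_mono (hB : IsSqDown B) (hB' : IsSqDown B') (h : B' ⊆ B) :
    contactY B' ≤ contactY B := by
  rw [hB.contactY_eq_swap, hB'.contactY_eq_swap]
  exact contactX_mono hB.swap hB'.swap (preimage_mono h)

theorem contactX_transpose (hB : IsSqDown B) : contactX (transpose B) = contactY B :=
  hB.contactY_eq_swap.symm

theorem contactY_transpose (hB : IsSqDown B) : contactY (transpose B) = contactX B :=
  hB.transpose.contactY_eq_swap.trans (congrArg contactX (Set.ext fun _ => Iff.rfl))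

/-- A lower bound `c` of a contact in every slice is at most the face area it sweeps. -/
theorem const_le_integral {f : ℝ → ℝ} {c C : ℝ} (hf : Measurable f)
    (h1 : ∀ z, |f z| ≤ C) (h : ∀ z ∈ Ioo (0 : ℝ) 1, c ≤ f z) :
    c ≤ ∫ z in Ioo (0 : ℝ) 1, f z := by
  have hi : IntegrableOn f (Ioo (0 : ℝ) 1) := IntegrableOn.of_bound (by simp)
    hf.aestronglyMeasurable C (ae_of_all _ fun z => (Real.norm_eq_abs _).trans_le (h1 z))
  simpa [setIntegral_const, Measure.real] using
    setIntegral_mono_on (integrableOn_const (C := c) (by simp)) hi measurableSet_Ioo h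

theorem contact_endSlice_le (hD : MeasurableSet D) (hdown : IsDownset D) (i : Fin 3) :
    contactX (endSlice D i) ≤ faceArea D (i.succAbove 0) ∧
      contactY (endSlice D i) ≤ faceArea D (i.succAbove 1) := by
  have hE := isSqDown_endSlice hD hdown i
  have hS := fun z => isSqDown_slice hD hdown i z
  constructor
  · rw [← (integral_contactX hD hdown i).2]
    refine const_le_integral (C := 1) (integral_contactX hD hdown i).1 (fun z => ?_) fun z hz =>
      contactX_mono (hS z) hE (endSlice_subset hdown i ⟨hz.1.le, hz.2⟩)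
    rw [abs_of_nonneg (hS z).contactX_nonneg]
    exact ((hS z).contactX_le (x := 1 / 2) (by norm_num)).trans ((hS z).height_mem _).2
  · rw [← (integral_contactY hD hdown i).2]
    refine const_le_integral (C := 1) (integral_contactY hD hdown i).1 (fun z => ?_) fun z hz =>
      contactY_mono (hS z) hE (endSlice_subset hdown i ⟨hz.1.le, hz.2⟩)
    rw [(hS z).contactY_eq_swap, abs_of_nonneg (hS z).swap.contactX_nonneg]
    exact ((hS z).swap.contactX_le (x := 1 / 2) (by norm_num)).trans ((hS z).swap.height_mem _).2

/-- The part above the height `s`, measured by the slices. -/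
theorem integral_upper (hdown : IsDownset D) (j : Fin 3) {s : ℝ}
    (hs : 0 ≤ s) (hs1 : s ≤ 1) :
    ∫ z, (Ioi s).indicator (sliceArea D j) z = ∫ z in s..1, areaExt D j z := by
  rw [intervalIntegral.integral_of_le hs1, ← integral_indicator measurableSet_Ioc]
  refine integral_congr_ae (ae_of_all _ fun z => ?_)
  by_cases h : z ∈ Ioc s 1
  · rw [indicator_of_mem h, indicator_of_mem (show z ∈ Ioi s from h.1),
      areaExt_eq (hs.trans h.1.le)]
  · rw [indicator_of_notMem h]
    by_cases h' : z ∈ Ioi s
    · rw [indicator_of_mem h', sliceArea_eq_zero hdown.1 fun hh => h ⟨h', hh.2.le⟩]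
    · rw [indicator_of_notMem h']

theorem volume_upper (hD : MeasurableSet D) (hdown : IsDownset D) (j : Fin 3) {s : ℝ}
    (hs : 0 ≤ s) (hs1 : s ≤ 1) :
    volume.real (D ∩ {x | s < x j}) = ∫ z in s..1, areaExt D j z := by
  have hm : MeasurableSet {x : R3 | s < x j} :=
    measurableSet_lt measurable_const (PiLp.continuous_apply 2 _ j).measurable
  rw [measureReal_def, volume_eq_integral_sliceArea (hD.inter hm)
    (inter_subset_left.trans hdown.1) j, ← integral_upper hdown j hs hs1]
  refine integral_congr_ae (ae_of_all _ fun z => ?_)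
  by_cases h : z ∈ Ioi s
  · rw [indicator_of_mem h]
    have e : slice (D ∩ {x | s < x j}) j z = slice D j z := by
      ext w; simp [mem_slice, ins_apply_self, mem_Ioi.1 h]
    simp [sliceArea, e]
  · rw [indicator_of_notMem h]
    have e : slice (D ∩ {x | s < x j}) j z = ∅ := by
      ext w; simp [mem_slice, ins_apply_self, not_lt.1 (mt mem_Ioi.2 h)]
    simp [sliceArea, e]

namespace Endpoint

open Weighted (wDer relPer)

variable {P lam : ℝ}

/-- Above `7/10` in a small direction there is at most `(1 - x) v`. -/
theorem EndData.upper_le (hd : EndData D P lam) {i j k : Fin 3} (hij : i ≠ j) (hik : i ≠ k)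
    (hjk : j ≠ k) (hp : 43 / 100 ≤ pOf P lam) (hx : 9 / 10 ≤ xOf D i)
    (hy : xOf D j ≤ 1 / 1000) (hz : xOf D k ≤ 1 / 1000) :
    ∫ z in (7 / 10 : ℝ)..1, areaExt D j z ≤ (1 - xOf D i) / π := by
  have hD := hd.meas
  have hdown := hd.down
  set B := endSlice D i with hB
  have hBd : IsSqDown B := isSqDown_endSlice hD hdown i
  have hx1 := (hd.x_lt i).le
  have hA : volume.real B = xOf D i / π := by
    rw [hB, volume_endSlice hD hdown, xOf, mul_div_cancel_left₀ _ Real.pi_ne_zero]
  have hm : ∀ l, l ≠ i → faceArea D l ≤ 1 / 1000 / π := by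
    intro l hl
    have hl' : l = j ∨ l = k := by omega
    rw [le_div_iff₀ Real.pi_pos, mul_comm]
    rcases hl' with rfl | rfl <;> assumption
  obtain ⟨hcX, hcY⟩ := contact_endSlice_le hD hdown i
  have hpi : 1 / 1000 / π ≤ (7 / 20000 : ℝ) := by
    rw [div_le_iff₀ Real.pi_pos]; linarith [Real.pi_gt_three]
  have hc : contactY B + contactX B ≤ 7 / 10000 := by
    have h0 := hm _ (Fin.succAbove_ne i 0)
    have h1 := hm _ (Fin.succAbove_ne i 1)
    linarith
  have hL : ∀ p q, IsSqField p q → flux p q B ≤ 1 - pOf P lam * (1 - xOf D i) := by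
    intro p q hpq
    have h1 := le_endPer hD hdown i hpq
    rw [hd.endPer_eq i] at h1
    have h0 : 0 ≤ hOf D P lam i + pOf P lam * xOf D i := by
      have := endPer_nonneg hD hdown i
      rw [hd.endPer_eq i] at this
      exact nonneg_of_mul_nonneg_right this hd.per_pos
    linarith [mul_le_of_le_one_left h0 hd.per_le_one, hd.h_le i]
  have hext : ∀ w ∈ B, (w.2 ≠ 0 → w.1 ≤ 7 / 10) ∧ (w.1 ≠ 0 → w.2 ≤ 7 / 10) := by
    intro w hw
    refine ⟨corner_extent_set hBd hx1 (Or.inr ⟨hp, hx⟩) hA hc hL w hw, fun h => ?_⟩
    refine corner_extent_set hBd.transpose hx1 (Or.inr ⟨hp, hx⟩)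
      (by rw [volume_real_transpose hBd]; exact hA)
      (by rw [contactX_transpose hBd, contactY_transpose hBd, add_comm]; exact hc)
      (fun p q hpq => ?_) (w.2, w.1) hw h
    rw [← flux_transpose B p q]
    exact hL _ _ (isSqField_transpose hpq)
  -- the cylinder over the last slice
  set S := D ∩ {x | (7 / 10 : ℝ) < x j} with hS
  set T := cyl i 0 1 B with hT
  have hTD : T ⊆ D := fun x hx => by
    have h := endSlice_subset hdown i hx.1 hx.2
    have e : (outL i x).1 = x i := by simp [outL_apply]
    rw [mem_slice, ← e] at h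
    rwa [← ins_outL i x]
  have hTm : MeasurableSet T := measurableSet_cyl hBd.meas i 0 1
  have hTv : volume.real T = xOf D i / π := by
    rw [measureReal_def, volume_eq_integral_sliceArea hTm (hTD.trans hdown.1) i, ← hA]
    have e : ∀ z, sliceArea T i z = (Ico (0 : ℝ) 1).indicator (fun _ => volume.real B) z := by
      intro z
      simp only [sliceArea, hT, slice_cyl, indicator]
      split_ifs <;> simp [measureReal_def]
    simp only [e, integral_indicator measurableSet_Ico, setIntegral_const, smul_eq_mul]
    simp
  have hnull : volume (S ∩ T) = 0 := by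
    have hsub : S ∩ T ⊆ {x | ∃ l, x l = 0} := by
      rintro x ⟨⟨-, hxj : (7 / 10 : ℝ) < x j⟩, -, hxB⟩
      by_contra hne'
      have hne : ∀ l, x l ≠ 0 := fun l h => hne' ⟨l, h⟩
      obtain ⟨m, rfl⟩ := Fin.exists_succAbove_eq (Ne.symm hij)
      have hw := hext _ hxB
      have e1 : ((outL i x).2).1 = x (i.succAbove 0) := by simp [outL_apply]
      have e2 : ((outL i x).2).2 = x (i.succAbove 1) := by simp [outL_apply]
      rw [e1, e2] at hw
      fin_cases m
      · exact absurd (hw.1 (hne _)) (not_le.2 hxj)
      · exact absurd (hw.2 (hne _)) (not_le.2 hxj)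
    refine measure_mono_null hsub ?_
    rw [ofPred_exists]
    refine measure_iUnion_null fun l => ?_
    have h := Deform.ae_coord l (volume.ae_ne (0 : ℝ))
    rw [ae_iff] at h
    simpa using h
  have hsum : volume.real S + volume.real T ≤ (volume D).toReal := by
    have hfin : volume D ≠ ⊤ := ne_top_of_le_ne_top (by rw [volume_cell]; simp) (measure_mono hdown.1)
    rw [measureReal_def, measureReal_def, ← ENNReal.toReal_add
      (ne_top_of_le_ne_top hfin (measure_mono inter_subset_left))
      (ne_top_of_le_ne_top hfin (measure_mono hTD))]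
    refine ENNReal.toReal_mono hfin ?_
    rw [← measure_union_add_inter S hTm, hnull, add_zero]
    exact measure_mono (union_subset inter_subset_left hTD)
  rw [hS, volume_upper hD hdown j (by norm_num) (by norm_num), hTv, hd.vol] at hsum
  rw [sub_div]
  linarith

end Endpoint

end Vale.Agent.P232
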