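import Vale.Agent.P232.Endpoint.CornerExtent
import Vale.Agent.P232.WeightedHalf
import Vale.Agent.P232.Moves

/-!
The corner case at volume `1/π` is impossible: one-sided compression of the part above height
`7/10` in a direction with a tiny contact, priced to second order.
-/

open MeasureTheory Set Filter Function Real
open scoped Topology NNReal

namespace Vale.Agent.P232

open Weighted (wPer wDer relPer IsWeight)

variable {D : Set R3}

theorem isSqDown_empty : IsSqDown (∅ : Set (ℝ × ℝ)) :=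
  ⟨MeasurableSet.empty, empty_subset _, fun _ hw => absurd hw (notMem_empty _)⟩

theorem volume_compress (hD : MeasurableSet D) (hdown : IsDownset D) (j : Fin 3) {s c : ℝ}
    (hc0 : 0 < c) (hc : c ≤ 1) (hs : 0 ≤ s) (hs1 : s ≤ 1) :
    (volume (fillSet D j s c ∅)).toReal =
      (volume D).toReal - (1 - c) * ∫ z in s..1, areaExt D j z := by
  rw [volume_fillSet hc0 hc hs hs1 hD hdown isSqDown_empty, measureReal_empty, mul_zero, add_zero,
    ← integral_upper hdown j hs hs1, volume_eq_integral_sliceArea hD hdown.1 j, ← integral_const_mul,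
    ← integral_sub (integrable_sliceArea hD hdown.1 j)
      (((integrable_sliceArea hD hdown.1 j).indicator measurableSet_Ioi).const_mul _)]
  refine integral_congr_ae ?_
  filter_upwards [volume.ae_ne s] with z hz
  unfold slope
  rcases lt_or_gt_of_ne hz with h | h
  · rw [if_pos h, indicator_of_notMem (show z ∉ Ioi s from not_lt.2 h.le)]; ring
  · rw [if_neg (not_lt.2 h.le), indicator_of_mem (show z ∈ Ioi s from h)]; ring

/-- The cut-off above `s`. -/
noncomputable def upCut (s δ z : ℝ) : ℝ := clamp01 (δ⁻¹ * (z - s))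

theorem exists_lip_upCut (s δ : ℝ) : ∃ K, LipschitzWith K (upCut s δ) :=
  ⟨_, lipschitz_clamp01.comp ((lipschitzWith_smul δ⁻¹).comp
    (LipschitzWith.id.sub (LipschitzWith.const s)))⟩

theorem upCut_mem (s δ z : ℝ) : upCut s δ z ∈ Icc (0 : ℝ) 1 := clamp01_mem _

/-- A cut-off `u` of width `δ` above `s` integrates `g` as the indicator does, up to `δ`. -/
theorem abs_integral_cut_le {u g : ℝ → ℝ} (hu : Continuous u) (hu1 : ∀ z, u z ∈ Icc (0 : ℝ) 1)
    (hg : IntervalIntegrable g volume 0 1) (hg1 : ∀ z, g z ∈ Icc (0 : ℝ) 1) {s δ : ℝ} (hs : 0 ≤ s)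
    (hδ : 0 ≤ δ) (hsδ : s + δ ≤ 1) (h0 : ∀ z ≤ s, u z = 0) (h1 : ∀ z, s + δ ≤ z → u z = 1) :
    |(∫ z in (0 : ℝ)..1, u z * g z) - ∫ z in s..1, g z| ≤ δ := by
  have sub : ∀ a b : ℝ, 0 ≤ a → a ≤ 1 → 0 ≤ b → b ≤ 1 → IntervalIntegrable g volume a b :=
    fun a b ha ha' hb hb' => hg.mono_set (by
      rw [uIcc_of_le zero_le_one]; exact uIcc_subset_Icc ⟨ha, ha'⟩ ⟨hb, hb'⟩)
  have hf : ∀ a b : ℝ, 0 ≤ a → a ≤ 1 → 0 ≤ b → b ≤ 1 →
      IntervalIntegrable (fun z => u z * g z) volume a b :=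
    fun a b ha ha' hb hb' => (sub a b ha ha' hb hb').continuousOn_mul hu.continuousOn
  have hs1 : s ≤ 1 := by linarith
  have hm : 0 ≤ s + δ := by linarith
  have i1 : ∫ z in (0 : ℝ)..s, u z * g z = 0 := by
    rw [intervalIntegral.integral_congr (g := fun _ => (0 : ℝ)) fun z hz => by
      rw [uIcc_of_le hs] at hz; simp [h0 z hz.2]]
    simp
  have i3 : ∫ z in (s + δ)..1, u z * g z = ∫ z in (s + δ)..1, g z :=
    intervalIntegral.integral_congr fun z hz => by
      rw [uIcc_of_le hsδ] at hz; simp [h1 z hz.1]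
  rw [← intervalIntegral.integral_add_adjacent_intervals (hf 0 s le_rfl zero_le_one hs hs1)
      (hf s 1 hs hs1 zero_le_one le_rfl), i1, zero_add,
    ← intervalIntegral.integral_add_adjacent_intervals (hf s _ hs hs1 hm hsδ)
      (hf _ 1 hm hsδ zero_le_one le_rfl), i3,
    ← intervalIntegral.integral_add_adjacent_intervals (sub s _ hs hs1 hm hsδ)
      (sub _ 1 hm hsδ zero_le_one le_rfl), add_sub_add_right_eq_sub,
    ← intervalIntegral.integral_sub (hf s _ hs hs1 hm hsδ) (sub s _ hs hs1 hm hsδ),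
    ← Real.norm_eq_abs]
  refine (intervalIntegral.norm_integral_le_of_norm_le_const (C := 1) fun z _ => ?_).trans
    (le_of_eq (by simp [abs_of_nonneg hδ]))
  rw [Real.norm_eq_abs, show u z * g z - g z = -((1 - u z) * g z) by ring, abs_neg,
    abs_of_nonneg (mul_nonneg (sub_nonneg.2 (hu1 z).2) (hg1 z).1)]
  exact mul_le_one₀ (by linarith [(hu1 z).1]) (hg1 z).1 (hg1 z).2

namespace Endpoint

variable {P lam : ℝ}

/-- The compression of the part above `7/10` with its cap, priced to second order. -/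
theorem EndData.compress (hd : EndData D P lam) (j : Fin 3) {e : ℝ} (he : e ∈ Ioo (0 : ℝ) 1)
    {V : ℝ} (hV : V = ∫ z in (7 / 10 : ℝ)..1, areaExt D j z) (hVu : π * V ≤ 1 / 10) :
    e * (3 / 10 * hOf D P lam j - (π / 2 - pOf P lam * π) * V) ≤ faceArea D j / P +
      e ^ 2 * ((pOf P lam * π * V + 3 / 10 * hOf D P lam j) / 2 + 13 / 10 * V ^ 2) := by
  have hD := hd.meas
  have hdown := hd.down
  have hFD := hd.finite
  have hanti := areaExt_antitone hdown j
  obtain ⟨he0, he1⟩ := he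
  set c := 1 - e with hcd
  have hc0 : 0 < c := by linarith
  have hc : c ≤ 1 := by linarith
  have ha1 : ∀ z, areaExt D j z ∈ Icc (0 : ℝ) 1 := fun z =>
    ⟨sliceArea_nonneg D j _, sliceArea_le_one hdown.1 j _⟩
  have hV0 : 0 ≤ V := hV ▸ intervalIntegral.integral_nonneg (by norm_num) fun z _ => (ha1 z).1
  set m := faceArea D j with hm
  set l := endPer D j with hl
  have hm0 : 0 ≤ m := faceArea_nonneg hdown j
  have hl0 : 0 ≤ l := endPer_nonneg hD hdown j
  set Cs := lam * (V - m * (3 / 10)) + l * (3 / 10) with hCs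
  -- the derivative at a cut-off
  have hC : ∀ (u : ℝ → ℝ) (δ : ℝ), (∃ K, LipschitzWith K u) → (∀ z, u z ∈ Icc (0 : ℝ) 1) →
      0 ≤ δ → δ ≤ 3 / 10 → (∀ z ≤ 7 / 10, u z = 0) → (∀ z, 7 / 10 + δ ≤ z → u z = 1) →
      |wDer D (horU j u) - Cs| ≤ (lam * (1 + m) + l) * δ := by
    intro u δ hu hu1 hδ hδ1 h0 h1
    obtain ⟨K, hK⟩ := hu
    have hi : IntervalIntegrable (areaExt D j) volume 0 1 := hanti.intervalIntegrable
    have ea := abs_le.1 (abs_integral_cut_le hK.continuous hu1 hi ha1 (by norm_num) hδ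
      (by linarith) h0 h1)
    have eo := abs_le.1 (abs_integral_cut_le hK.continuous hu1 (g := fun _ => 1)
      intervalIntegrable_const (fun _ => ⟨zero_le_one, le_rfl⟩) (by norm_num) hδ
      (by linarith) h0 h1)
    simp only [mul_one, intervalIntegral.integral_const, smul_eq_mul] at eo
    rw [← hV] at ea
    have a1 := mul_le_mul_of_nonneg_left ea.1 hd.lam_nonneg
    have a2 := mul_le_mul_of_nonneg_left ea.2 hd.lam_nonneg
    have b1 := mul_le_mul_of_nonneg_left eo.1 (mul_nonneg hd.lam_nonneg hm0)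
    have b2 := mul_le_mul_of_nonneg_left eo.2 (mul_nonneg hd.lam_nonneg hm0)
    have c1 := mul_le_mul_of_nonneg_left eo.1 hl0
    have c2 := mul_le_mul_of_nonneg_left eo.2 hl0
    rw [hd.rate j u ⟨K, hK⟩ ⟨1, fun z => abs_le.2 ⟨by linarith [(hu1 z).1], (hu1 z).2⟩⟩, ← hm,
      ← hl, hCs, abs_le]
    constructor <;> linarith
  -- the competitor
  set E := fillSet D j (7 / 10) c ∅ with hE
  have hEv : (volume E).toReal = 1 / π - e * V := by
    rw [hE, volume_compress hD hdown j hc0 hc (by norm_num) (by norm_num), hd.vol, ← hV, hcd]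
    ring
  have heV : π * (e * V) ≤ 1 / 10 := by
    calc π * (e * V) = e * (π * V) := by ring
      _ ≤ 1 * (π * V) := mul_le_mul_of_nonneg_right he1.le (by positivity)
      _ ≤ 1 / 10 := by linarith
  have key : ∀ ε > 0, P * √(1 - π * e * V) ≤ P - e * Cs + e ^ 2 / 2 * Cs + m + ε := by
    intro ε hε
    set K := lam * (1 + m) + l with hKd
    have hK0 : 0 ≤ K := by have := hd.lam_nonneg; positivity
    set δ₁ := min (3 / 10 : ℝ) (ε / (2 * K + 1)) with hδ₁d
    have hδ₁ : 0 < δ₁ := lt_min (by norm_num) (by positivity)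
    set R := P - e * Cs + e ^ 2 / 2 * Cs + ε with hR
    have hRb : ∀ δ ∈ Ioo (0 : ℝ) δ₁, wPer D (pullW j (7 / 10) c δ 0) ≤ R := by
      intro δ hδ
      set u := upCut (7 / 10) δ with hud
      obtain ⟨Ku, hKu⟩ := exists_lip_upCut (7 / 10) δ
      have hu1 : ∀ z, u z ∈ Icc (0 : ℝ) 1 := upCut_mem _ _
      have hu0 : ∀ z ≤ (7 / 10 : ℝ), u z = 0 := fun z hz =>
        clamp01_of_nonpos (mul_nonpos_of_nonneg_of_nonpos (inv_nonneg.2 hδ.1.le) (by linarith))
      have hu1' : ∀ z, 7 / 10 + δ ≤ z → u z = 1 := fun z hz =>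
        clamp01_of_one_le (by rw [← div_eq_inv_mul, le_div_iff₀ hδ.1]; linarith)
      obtain ⟨Ku2, hKu2⟩ : ∃ K, LipschitzWith K fun z => u z * u z :=
        ⟨_, lipschitz_mul hKu hKu (fun z => abs_le.2 ⟨by linarith [(hu1 z).1], (hu1 z).2⟩)
          fun z => abs_le.2 ⟨by linarith [(hu1 z).1], (hu1 z).2⟩⟩
      have hU : IsWeight (horU j u) := isWeight_horU hKu (C := 1)
        (fun z => abs_le.2 ⟨by linarith [(hu1 z).1], (hu1 z).2⟩) j
      have hU2 : IsWeight (horU j fun z => u z * u z) := isWeight_horU hKu2 (C := 1)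
        (fun z => by
          rw [abs_of_nonneg (mul_nonneg (hu1 z).1 (hu1 z).1)]
          exact mul_le_one₀ (hu1 z).2 (hu1 z).1 (hu1 z).2) j
      have hs : (7 / 10 : ℝ) ≠ 0 := by norm_num
      have e1 : pullW j (7 / 10) c δ 0 = (-e) • horU j u := by
        funext x i
        simp only [pullW, softW, soft, if_neg hs, Pi.zero_apply, Pi.smul_apply, smul_eq_mul, horU,
          hud, upCut, hcd]
        split_ifs <;> ring
      have e2 : Weighted.sqW ((-e) • horU j u) =
          (-2 * e) • horU j u + (e ^ 2) • horU j fun z => u z * u z := by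
        funext x i
        simp only [Weighted.sqW, Pi.add_apply, Pi.smul_apply, smul_eq_mul, horU]
        split_ifs <;> ring
      have h := Weighted.wPer_le_half_wDer hFD (hU.smul (-e))
      rw [e2, Weighted.wDer_add hFD (hU.smul _) (hU2.smul _), Weighted.wDer_smul hFD hU,
        Weighted.wDer_smul hFD hU2, ← hd.crit.eq_relPer] at h
      rw [e1]
      have hδ3 : δ ≤ 3 / 10 := hδ.2.le.trans (min_le_left _ _)
      have c1 := abs_le.1 (hC u δ ⟨Ku, hKu⟩ hu1 hδ.1.le hδ3 hu0 hu1')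
      have c2 := abs_le.1 (hC (fun z => u z * u z) δ ⟨Ku2, hKu2⟩
        (fun z => ⟨mul_nonneg (hu1 z).1 (hu1 z).1, mul_le_one₀ (hu1 z).2 (hu1 z).1 (hu1 z).2⟩)
        hδ.1.le hδ3 (fun z hz => by simp [hu0 z hz]) fun z hz => by simp [hu1' z hz])
      have hKδ : (2 * K + 1) * δ ≤ ε := by
        have := hδ.2.le.trans (min_le_right _ _)
        rw [le_div_iff₀ (by positivity)] at this; linarith
      have d1 := mul_le_mul_of_nonneg_left c1.1 he0.le
      have d2 := mul_le_mul_of_nonneg_left c2.2 (sq_nonneg e)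
      have hKδ0 : 0 ≤ K * δ := mul_nonneg hK0 hδ.1.le
      have he2 : e ^ 2 ≤ 1 := pow_le_one₀ he0.le he1.le
      have f1 := mul_le_mul_of_nonneg_right he1.le hKδ0
      have f2 := mul_le_mul_of_nonneg_right he2 hKδ0
      rw [hR]
      linarith [hδ.1]
    have hEp : RelPerLE E (R + m) := by
      intro X hX
      have h := wPer_fillSet_le' (k := j) hδ₁ hD hdown hd.crit.2.2.1 hc0 hc (by norm_num)
        (by norm_num) isSqDown_empty (empty_subset _) Weighted.isWeight_zero (C := 0) le_rfl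
        (fun x i => by simp) (l := 0) (fun p q _ => by simp [Vale.Agent.P232.flux]) hRb hX
      simpa [Weighted.fl, Weighted.sc_zero] using h
    have hπ := Real.pi_pos
    have hlow : 9 / 10 / π ≤ (volume E).toReal := by
      rw [hEv, div_le_iff₀ hπ, sub_mul, div_mul_cancel₀ _ hπ.ne']; linarith
    have hrange : (volume E).toReal ∈ Icc (1 / 40 : ℝ) (1 / π) := by
      refine ⟨le_trans ?_ hlow, ?_⟩
      · rw [le_div_iff₀ hπ]; linarith [Real.pi_lt_four]
      · rw [hEv]; linarith [mul_nonneg he0.le hV0]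
    have h := hd.crit.2.2.2.2.2 E _ (measurableSet_fillSet hD isSqDown_empty)
      (isDownset_fillSet hc0 hc (by norm_num) (by norm_num) hdown isSqDown_empty (empty_subset _))
      hrange hEp
    have h81 : 4 * π / 81 ≤ (9 / 10 : ℝ) / π := by
      rw [le_div_iff₀ hπ]
      have := mul_lt_mul'' Real.pi_lt_d2 Real.pi_lt_d2 hπ.le hπ.le
      linarith
    have hvv : 4 * π / 81 ≤ 1 / π :=
      h81.trans (div_le_div_of_nonneg_right (by norm_num) hπ.le)
    rw [hd.vol, ballTube_eq_tube hvv, ballTube_eq_tube (h81.trans hlow), hEv,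
      mul_one_div_cancel hπ.ne', Real.sqrt_one, div_one, mul_sub, mul_one_div_cancel hπ.ne'] at h
    rw [mul_assoc π e V]
    rw [hR] at h
    linarith
  have hmain : P * √(1 - π * e * V) ≤ P - e * Cs + e ^ 2 / 2 * Cs + m :=
    le_of_forall_pos_le_add key
  have hdrop := tube_drop (P := 1) (P' := √(1 - π * e * V)) zero_le_one le_rfl he0.le hV0
    (by rw [mul_assoc]; exact heV) (one_mul _).le
  have hP := hd.per_pos
  have hCn : Cs = P * (pOf P lam * π * V + 3 / 10 * hOf D P lam j) := by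
    rw [hCs, hl, hd.endPer_eq j, pOf, xOf, hm]
    field_simp
    ring
  rw [hCn] at hmain
  have hd2 := mul_le_mul_of_nonneg_left hdrop hP.le
  have : P * (e * (3 / 10 * hOf D P lam j - (π / 2 - pOf P lam * π) * V) -
      e ^ 2 * ((pOf P lam * π * V + 3 / 10 * hOf D P lam j) / 2 + 13 / 10 * V ^ 2)) ≤ m := by
    linarith
  rw [← le_div_iff₀' hP] at this
  linarith

/-- Two untouched directions beside a nearly full contact. -/
theorem EndData.two_untouched (hd : EndData D P lam) {i : Fin 3} (hx : 9 / 10 ≤ xOf D i)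
    (h0 : ∀ l, l ≠ i → faceArea D l = 0) : False := by
  set A := rightLim (areaExt D i) 0 with hA
  have hpi := Real.pi_pos
  have hm0 := faceArea_nonneg hd.down i
  have hAv : 1 / π ≤ A := (hd.area_gt i).le
  have hmv : faceArea D i ≤ 1 / π := (hd.proper i).le
  have hw : 0 < √A := Real.sqrt_pos.2 (lt_of_lt_of_le (by positivity) hAv)
  have h := cylinder_bound_end hd.meas hd.down hd.crit.2.2.1 i (Real.sqrt_nonneg _)
    (Real.sqrt_le_sqrt (hmv.trans hAv)) hw (Real.sq_sqrt hm0)
    (Real.sq_sqrt (le_trans (by positivity) hAv)).symm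
  rw [h0 _ (Fin.succAbove_ne i 0), h0 _ (Fin.succAbove_ne i 1), add_zero, add_zero, hd.vol] at h
  have hu : √(faceArea D i) * √π = √(xOf D i) := by
    rw [← Real.sqrt_mul hm0, mul_comm, xOf]
  have hx1 := hd.x_lt i
  have hsx : √(xOf D i) < 1 := by
    rw [← Real.sqrt_one]; exact Real.sqrt_lt_sqrt (hd.x_nonneg i) hx1
  have hsx9 : 9 / 10 ≤ √(xOf D i) := by
    refine hx.trans (Real.le_sqrt_of_sq_le ?_)
    rw [pow_two]; exact mul_le_of_le_one_left (hd.x_nonneg i) hx1.le
  have hg := chord_gain_end (u := √(faceArea D i)) (w := √A) (hu ▸ hsx9)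
    (Real.sqrt_le_sqrt hmv) (Real.sqrt_le_sqrt hAv)
  rw [hu] at hg
  have : 0 < 1 / π * (7 / 10 * (1 - √(xOf D i)) ^ 2) := by
    have := pow_pos (sub_pos.2 hsx) 2
    positivity
  linarith [hd.per_le_one]

/-- The corner case is impossible. -/
theorem corner_false (hd : EndData D P lam) {i j k : Fin 3} (hij : i ≠ j) (hik : i ≠ k)
    (hjk : j ≠ k) (h : CornerCase (pOf P lam) (xOf D) (hOf D P lam) i j k) : False := by
  obtain ⟨hp, hx, hy, hz, -, -⟩ := h
  set p := pOf P lam with hpd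
  by_cases hpos : 0 < xOf D j ∨ 0 < xOf D k
  swap
  · push Not at hpos
    refine hd.two_untouched hx fun l hl => ?_
    have hl' : l = j ∨ l = k := by omega
    have h0 := hd.x_nonneg l
    have h1 : xOf D l ≤ 0 := by rcases hl' with rfl | rfl <;> [exact hpos.1; exact hpos.2]
    exact ((mul_eq_zero.1 (le_antisymm h1 h0 : π * faceArea D l = 0)).resolve_left
      Real.pi_ne_zero)
  have hP0 := hd.per_pos
  have hP1 := hd.per_le_one
  have hlow : ∀ l, √(xOf D l) ≤ P * (hOf D P lam l + p * xOf D l) := fun l => by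
    rw [← hd.endPer_eq l]; exact sqrt_le_endPer hd.meas hd.down hd.vol.le l
  have hP9 : 94 / 100 ≤ P := by
    have h1 : (94 / 100 : ℝ) ≤ √(xOf D i) :=
      Real.le_sqrt_of_sq_le (le_trans (by norm_num) hx)
    have h2 : hOf D P lam i + p * xOf D i ≤ 1 := by
      linarith [hd.h_le i, mul_nonneg hd.p_nonneg (sub_nonneg.2 (hd.x_lt i).le)]
    have := (hlow i).trans (mul_le_of_le_one_right hP0.le h2)
    linarith
  have hscale : ∀ l, xOf D l ≤ 1 / 1000 → xOf D l / P ∈ Icc (0 : ℝ) (11 / 10000) ∧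
      √(xOf D l / P) ≤ hOf D P lam l + p * (xOf D l / P) := by
    intro l hl
    have h0 := hd.x_nonneg l
    refine ⟨⟨div_nonneg h0 hP0.le, by rw [div_le_iff₀ hP0]; linarith⟩, ?_⟩
    have h1 : √(xOf D l) / P ≤ hOf D P lam l + p * xOf D l := by
      rw [div_le_iff₀ hP0, mul_comm]; exact hlow l
    have h2 : √(xOf D l / P) ≤ √(xOf D l) / P := by
      rw [Real.sqrt_div h0]
      exact div_le_div_of_nonneg_left (Real.sqrt_nonneg _) hP0
        (Real.le_sqrt_of_sq_le (by rw [pow_two]; exact mul_le_of_le_one_left hP0.le hP1))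
    have h3 : p * xOf D l ≤ p * (xOf D l / P) :=
      mul_le_mul_of_nonneg_left (le_div_self h0 hP0 hP1) hd.p_nonneg
    linarith
  have hsum : 1 - 2 * p ≤ hOf D P lam j + hOf D P lam k := by
    have hS := hd.sum_h
    have hu : (Finset.univ : Finset (Fin 3)) = {i, j, k} := by
      refine (Finset.eq_univ_of_card _ ?_).symm
      simp [Finset.card_insert_of_notMem, hij, hik, hjk]
    rw [hu, Finset.sum_insert (by simp [hij, hik]), Finset.sum_pair hjk] at hS
    linarith [hd.h_le i]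
  set Vy := ∫ z in (7 / 10 : ℝ)..1, areaExt D j z with hVy
  set Vz := ∫ z in (7 / 10 : ℝ)..1, areaExt D k z with hVz
  have hp43 : 43 / 100 ≤ p := by linarith
  have hVy1 : Vy ≤ (1 - xOf D i) / π := hd.upper_le hij hik hjk hp43 hx hy hz
  have hVz1 : Vz ≤ (1 - xOf D i) / π := hd.upper_le hik hij hjk.symm hp43 hx hz hy
  have hV0 : ∀ l, 0 ≤ ∫ z in (7 / 10 : ℝ)..1, areaExt D l z := fun l =>
    intervalIntegral.integral_nonneg (by norm_num) fun z _ => sliceArea_nonneg D l _
  have hpiV : ∀ V : ℝ, V ≤ (1 - xOf D i) / π → π * V ≤ 1 / 10 := fun V hV => by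
    rw [le_div_iff₀ Real.pi_pos] at hV; linarith
  have hcl : ∀ l, π * (∫ z in (7 / 10 : ℝ)..1, areaExt D l z) ≤ 1 / 10 → ∀ e ∈ Ioc (0 : ℝ) 1,
      e * (3 / 10 * (hOf D P lam l + p * (xOf D l / P) - p * (xOf D l / P)) -
        (π / 2 - p * π) * ∫ z in (7 / 10 : ℝ)..1, areaExt D l z) ≤ xOf D l / P / π +
      e ^ 2 * ((p * π * (∫ z in (7 / 10 : ℝ)..1, areaExt D l z) +
        3 / 10 * (hOf D P lam l + p * (xOf D l / P) - p * (xOf D l / P))) / 2 +
          13 / 10 * (∫ z in (7 / 10 : ℝ)..1, areaExt D l z) ^ 2) := by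
    intro l hV e he
    simp only [add_sub_cancel_right]
    rw [show xOf D l / P / π = faceArea D l / P by rw [xOf]; field_simp]
    have hcl : e ∈ closure (Ioo (0 : ℝ) 1) := by
      rw [closure_Ioo zero_ne_one]; exact ⟨he.1.le, he.2⟩
    exact le_on_closure (fun e' he' => hd.compress l he' rfl hV) (by fun_prop) (by fun_prop) hcl
  obtain ⟨hy1, hly⟩ := hscale j hy
  obtain ⟨hz1, hlz⟩ := hscale k hz
  exact corner_contradiction (y := xOf D j / P) (z := xOf D k / P)
    (ly := hOf D P lam j + p * (xOf D j / P)) (lz := hOf D P lam k + p * (xOf D k / P))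
    (x := xOf D i) hd.p_nonneg hd.p_le hx hy1 hz1
    (hpos.imp (fun h => div_pos h hP0) fun h => div_pos h hP0) hly hlz (by linarith)
    (hV0 j) hVy1 (hV0 k) hVz1 (hcl j (hpiV _ hVy1)) (hcl k (hpiV _ hVz1))

end Endpoint

end Vale.Agent.P232
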