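import Vale.Agent.P232.Endpoint.KappaSound
import Vale.Agent.P232.Endpoint.KappaData.A
import Vale.Agent.P232.Endpoint.KappaData.B
import Vale.Agent.P232.Endpoint.KappaData.C
import Vale.Agent.P232.Endpoint.KappaData.D
import Vale.Agent.P232.Endpoint.Algebra

/-!
The weighted certificate of the middle case at the volume `1/π`.
-/

open Set

namespace Vale.Agent.P232.Kappa

lemma check_of_mem {L : List Box} (h : L.all Box.check = true) {bx : Box} (hb : bx ∈ L) :
    bx.check = true :=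
  List.all_eq_true.1 h bx hb

lemma use_box {bx : Box} (hc : bx.check = true) {p H x S c s q : ℝ} (h01 : bx.p0 < bx.p1)
    (hw : bx.w0 < bx.w1) (hp0 : (bx.p0 : ℝ) / (one : ℤ) ≤ p) (hp1 : p ≤ (bx.p1 : ℝ) / (one : ℤ))
    (hH0 : (bx.w0 : ℝ) / (one : ℤ) ≤ H) (hH1 : H ≤ (bx.w1 : ℝ) / (one : ℤ))
    (hx : x ≤ (bx.start : ℝ) / (one : ℤ)) (hS : S ≤ c - s * (p - q))
    (h0 : c - s * ((bx.p0 : ℝ) / (one : ℤ) - q) ≤ (bx.s0 : ℝ) / (one : ℤ))
    (h1 : c - s * ((bx.p1 : ℝ) / (one : ℤ) - q) ≤ (bx.s1 : ℝ) / (one : ℤ)) :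
    KappaCert p H x S := by
  have hD := one_pos'
  set l := (p * (one : ℤ) - bx.p0) / ((bx.p1 : ℝ) - bx.p0) with hl'
  set m := (H * (one : ℤ) - bx.w0) / ((bx.w1 : ℝ) - bx.w0) with hm'
  have d1 : (0 : ℝ) < (bx.p1 : ℝ) - bx.p0 := sub_pos.2 (Int.cast_lt.2 h01)
  have d2 : (0 : ℝ) < (bx.w1 : ℝ) - bx.w0 := sub_pos.2 (Int.cast_lt.2 hw)
  rw [div_le_iff₀ hD] at hp0 hH0
  rw [le_div_iff₀ hD] at hp1 hH1
  have hl : l ∈ Icc (0 : ℝ) 1 :=
    ⟨div_nonneg (by linarith) d1.le, (div_le_one d1).2 (by linarith)⟩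
  have hm : m ∈ Icc (0 : ℝ) 1 :=
    ⟨div_nonneg (by linarith) d2.le, (div_le_one d2).2 (by linarith)⟩
  have ep : bx.pp l = p := by
    rw [Box.pp, hl']; field_simp; ring
  have eH : bx.ww m = H := by
    rw [Box.ww, hm']; field_simp; ring
  have hS' : S ≤ ((1 - l) * bx.s0 + l * bx.s1) / (one : ℤ) := by
    have h := combo_le hl h0 h1
    have e : (1 - l) * (c - s * ((bx.p0 : ℝ) / (one : ℤ) - q))
        + l * (c - s * ((bx.p1 : ℝ) / (one : ℤ) - q)) = c - s * (bx.pp l - q) := by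
      rw [Box.pp]; ring
    rw [e, ep] at h
    refine hS.trans (h.trans (le_of_eq ?_))
    ring
  have h := check_sound hc hl hm hx hS'
  rwa [ep, eH] at h

open Endpoint

lemma kappa_piece0 {p H x S : ℝ} (hp0 : 343 / 1000 < p) (hp1 : p ≤ 173 / 500) (hH0 : 0 ≤ H)
    (hW : H ≤ psiW0 p) (hx : x ≤ psiW0 p ^ 2) (hS : S ≤ sM p) : KappaCert p H x S := by
  rw [psiW0, if_neg (by linarith : ¬p ≤ 343 / 1000), if_pos (by linarith : p ≤ 36 / 100)] at hW hx
  rw [sM, if_pos (by linarith : p ≤ 350 / 1000)] at hS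
  rcases le_total H (1 / 1000) with hH | hH
  · refine use_box (check_of_mem boxes0_ok (bx := ⟨34300000, 34600000, 0, 100000, 1600000, 92200000, 89647000, 243187485, 777666, 106412, 14, 24, 30⟩) (by simp [boxes0])) (by norm_num) (by norm_num) ?_ ?_ ?_ ?_ ?_ hS ?_ ?_
    all_goals norm_num [one, Box.start]
    all_goals linarith
  · refine use_box (check_of_mem boxes0_ok (bx := ⟨34300000, 34600000, 100000, 270000, 1600000, 92200000, 89647000, 243006468, 777718, 181017, 10, 17, 21⟩) (by simp [boxes0])) (by norm_num) (by norm_num) ?_ ?_ ?_ ?_ ?_ hS ?_ ?_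
    all_goals norm_num [one, Box.start]
    all_goals linarith

lemma kappa_piece1 {p H x S : ℝ} (hp0 : 173 / 500 < p) (hp1 : p ≤ 87 / 250) (hH0 : 0 ≤ H)
    (hW : H ≤ psiW0 p) (hx : x ≤ psiW0 p ^ 2) (hS : S ≤ sM p) : KappaCert p H x S := by
  rw [psiW0, if_neg (by linarith : ¬p ≤ 343 / 1000), if_pos (by linarith : p ≤ 36 / 100)] at hW hx
  rw [sM, if_pos (by linarith : p ≤ 350 / 1000)] at hS
  rcases le_total H (1 / 1000) with hH | hH
  · refine use_box (check_of_mem boxes0_ok (bx := ⟨34600000, 34800000, 0, 100000, 1600000, 89647000, 87945000, 242670302, 517183, 106430, 14, 24, 30⟩) (by simp [boxes0])) (by norm_num) (by norm_num) ?_ ?_ ?_ ?_ ?_ hS ?_ ?_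
    all_goals norm_num [one, Box.start]
    all_goals linarith
  · refine use_box (check_of_mem boxes0_ok (bx := ⟨34600000, 34800000, 100000, 270000, 1600000, 89647000, 87945000, 242489257, 517211, 181045, 10, 17, 21⟩) (by simp [boxes0])) (by norm_num) (by norm_num) ?_ ?_ ?_ ?_ ?_ hS ?_ ?_
    all_goals norm_num [one, Box.start]
    all_goals linarith

lemma kappa_piece2 {p H x S : ℝ} (hp0 : 87 / 250 < p) (hp1 : p ≤ 7 / 20) (hH0 : 0 ≤ H)
    (hW : H ≤ psiW0 p) (hx : x ≤ psiW0 p ^ 2) (hS : S ≤ sM p) : KappaCert p H x S := by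
  rw [psiW0, if_neg (by linarith : ¬p ≤ 343 / 1000), if_pos (by linarith : p ≤ 36 / 100)] at hW hx
  rw [sM, if_pos (by linarith : p ≤ 350 / 1000)] at hS
  rcases le_total H (1 / 1000) with hH | hH
  · refine use_box (check_of_mem boxes0_ok (bx := ⟨34800000, 35000000, 0, 100000, 2000000, 87945000, 86243000, 242154145, 516157, 106443, 14, 24, 30⟩) (by simp [boxes0])) (by norm_num) (by norm_num) ?_ ?_ ?_ ?_ ?_ hS ?_ ?_
    all_goals norm_num [one, Box.start]
    all_goals linarith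
  · refine use_box (check_of_mem boxes0_ok (bx := ⟨34800000, 35000000, 100000, 270000, 2000000, 87945000, 86243000, 241973077, 516180, 181068, 10, 17, 21⟩) (by simp [boxes0])) (by norm_num) (by norm_num) ?_ ?_ ?_ ?_ ?_ hS ?_ ?_
    all_goals norm_num [one, Box.start]
    all_goals linarith

lemma kappa_piece3 {p H x S : ℝ} (hp0 : 7 / 20 < p) (hp1 : p ≤ 44 / 125) (hH0 : 0 ≤ H)
    (hW : H ≤ psiW0 p) (hx : x ≤ psiW0 p ^ 2) (hS : S ≤ sM p) : KappaCert p H x S := by
  rw [psiW0, if_neg (by linarith : ¬p ≤ 343 / 1000), if_pos (by linarith : p ≤ 36 / 100)] at hW hx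
  rw [sM, if_neg (by linarith : ¬p ≤ 350 / 1000), if_pos (by linarith : p ≤ 355 / 1000)] at hS
  rcases le_total H (1 / 1000) with hH | hH
  · refine use_box (check_of_mem boxes1_ok (bx := ⟨35000000, 35200000, 0, 100000, 2000000, 87300000, 85628000, 241639025, 515120, 106455, 14, 24, 30⟩) (by simp [boxes1])) (by norm_num) (by norm_num) ?_ ?_ ?_ ?_ ?_ hS ?_ ?_
    all_goals norm_num [one, Box.start]
    all_goals linarith
  · refine use_box (check_of_mem boxes1_ok (bx := ⟨35000000, 35200000, 100000, 270000, 2000000, 87300000, 85628000, 241457938, 515139, 181087, 10, 17, 21⟩) (by simp [boxes1])) (by norm_num) (by norm_num) ?_ ?_ ?_ ?_ ?_ hS ?_ ?_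
    all_goals norm_num [one, Box.start]
    all_goals linarith

lemma kappa_piece4 {p H x S : ℝ} (hp0 : 44 / 125 < p) (hp1 : p ≤ 707 / 2000) (hH0 : 0 ≤ H)
    (hW : H ≤ psiW0 p) (hx : x ≤ psiW0 p ^ 2) (hS : S ≤ sM p) : KappaCert p H x S := by
  rw [psiW0, if_neg (by linarith : ¬p ≤ 343 / 1000), if_pos (by linarith : p ≤ 36 / 100)] at hW hx
  rw [sM, if_neg (by linarith : ¬p ≤ 350 / 1000), if_pos (by linarith : p ≤ 355 / 1000)] at hS
  rcases le_total H (1 / 1000) with hH | hH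
  · refine use_box (check_of_mem boxes1_ok (bx := ⟨35200000, 35350000, 0, 100000, 2300000, 85628000, 84374000, 241253372, 385653, 106462, 14, 24, 30⟩) (by simp [boxes1])) (by norm_num) (by norm_num) ?_ ?_ ?_ ?_ ?_ hS ?_ ?_
    all_goals norm_num [one, Box.start]
    all_goals linarith
  · refine use_box (check_of_mem boxes1_ok (bx := ⟨35200000, 35350000, 100000, 270000, 2000000, 85628000, 84374000, 241072277, 385661, 181095, 10, 17, 21⟩) (by simp [boxes1])) (by norm_num) (by norm_num) ?_ ?_ ?_ ?_ ?_ hS ?_ ?_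
    all_goals norm_num [one, Box.start]
    all_goals linarith

lemma kappa_piece5 {p H x S : ℝ} (hp0 : 707 / 2000 < p) (hp1 : p ≤ 71 / 200) (hH0 : 0 ≤ H)
    (hW : H ≤ psiW0 p) (hx : x ≤ psiW0 p ^ 2) (hS : S ≤ sM p) : KappaCert p H x S := by
  rw [psiW0, if_neg (by linarith : ¬p ≤ 343 / 1000), if_pos (by linarith : p ≤ 36 / 100)] at hW hx
  rw [sM, if_neg (by linarith : ¬p ≤ 350 / 1000), if_pos (by linarith : p ≤ 355 / 1000)] at hS
  rcases le_total H (1 / 1000) with hH | hH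
  · refine use_box (check_of_mem boxes1_ok (bx := ⟨35350000, 35500000, 0, 100000, 2300000, 84374000, 83120000, 240868317, 385055, 106466, 14, 24, 30⟩) (by simp [boxes1])) (by norm_num) (by norm_num) ?_ ?_ ?_ ?_ ?_ hS ?_ ?_
    all_goals norm_num [one, Box.start]
    all_goals linarith
  · refine use_box (check_of_mem boxes1_ok (bx := ⟨35350000, 35500000, 100000, 270000, 2300000, 84374000, 83120000, 240687214, 385063, 181103, 10, 17, 21⟩) (by simp [boxes1])) (by norm_num) (by norm_num) ?_ ?_ ?_ ?_ ?_ hS ?_ ?_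
    all_goals norm_num [one, Box.start]
    all_goals linarith

lemma kappa_piece6 {p H x S : ℝ} (hp0 : 71 / 200 < p) (hp1 : p ≤ 891 / 2500) (hH0 : 0 ≤ H)
    (hW : H ≤ psiW0 p) (hx : x ≤ psiW0 p ^ 2) (hS : S ≤ sM p) : KappaCert p H x S := by
  rw [psiW0, if_neg (by linarith : ¬p ≤ 343 / 1000), if_pos (by linarith : p ≤ 36 / 100)] at hW hx
  rw [sM, if_neg (by linarith : ¬p ≤ 350 / 1000), if_neg (by linarith : ¬p ≤ 355 / 1000), if_pos (by linarith : p ≤ 360 / 1000)] at hS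
  rcases le_total H (1 / 1000) with hH | hH
  · refine use_box (check_of_mem boxes2_ok (bx := ⟨35500000, 35640000, 0, 100000, 2300000, 84240000, 83083600, 240509474, 358843, 106469, 14, 24, 30⟩) (by simp [boxes2])) (by norm_num) (by norm_num) ?_ ?_ ?_ ?_ ?_ hS ?_ ?_
    all_goals norm_num [one, Box.start]
    all_goals linarith
  · refine use_box (check_of_mem boxes2_ok (bx := ⟨35500000, 35640000, 100000, 270000, 2300000, 84240000, 83083600, 240328367, 358847, 181107, 10, 17, 21⟩) (by simp [boxes2])) (by norm_num) (by norm_num) ?_ ?_ ?_ ?_ ?_ hS ?_ ?_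
    all_goals norm_num [one, Box.start]
    all_goals linarith

lemma kappa_piece7 {p H x S : ℝ} (hp0 : 891 / 2500 < p) (hp1 : p ≤ 447 / 1250) (hH0 : 0 ≤ H)
    (hW : H ≤ psiW0 p) (hx : x ≤ psiW0 p ^ 2) (hS : S ≤ sM p) : KappaCert p H x S := by
  rw [psiW0, if_neg (by linarith : ¬p ≤ 343 / 1000), if_pos (by linarith : p ≤ 36 / 100)] at hW hx
  rw [sM, if_neg (by linarith : ¬p ≤ 350 / 1000), if_neg (by linarith : ¬p ≤ 355 / 1000), if_pos (by linarith : p ≤ 360 / 1000)] at hS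
  rcases le_total H (1 / 1000) with hH | hH
  · refine use_box (check_of_mem boxes2_ok (bx := ⟨35640000, 35760000, 0, 100000, 2600000, 83083600, 82092400, 240202314, 307160, 106471, 14, 24, 30⟩) (by simp [boxes2])) (by norm_num) (by norm_num) ?_ ?_ ?_ ?_ ?_ hS ?_ ?_
    all_goals norm_num [one, Box.start]
    all_goals linarith
  · refine use_box (check_of_mem boxes2_ok (bx := ⟨35640000, 35760000, 100000, 270000, 2600000, 83083600, 82092400, 240021204, 307163, 181110, 10, 17, 21⟩) (by simp [boxes2])) (by norm_num) (by norm_num) ?_ ?_ ?_ ?_ ?_ hS ?_ ?_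
    all_goals norm_num [one, Box.start]
    all_goals linarith

lemma kappa_piece8 {p H x S : ℝ} (hp0 : 447 / 1250 < p) (hp1 : p ≤ 897 / 2500) (hH0 : 0 ≤ H)
    (hW : H ≤ psiW0 p) (hx : x ≤ psiW0 p ^ 2) (hS : S ≤ sM p) : KappaCert p H x S := by
  rw [psiW0, if_neg (by linarith : ¬p ≤ 343 / 1000), if_pos (by linarith : p ≤ 36 / 100)] at hW hx
  rw [sM, if_neg (by linarith : ¬p ≤ 350 / 1000), if_neg (by linarith : ¬p ≤ 355 / 1000), if_pos (by linarith : p ≤ 360 / 1000)] at hS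
  rcases le_total H (1 / 1000) with hH | hH
  · refine use_box (check_of_mem boxes2_ok (bx := ⟨35760000, 35880000, 0, 100000, 2600000, 82092400, 81101200, 239895544, 306770, 106472, 14, 24, 30⟩) (by simp [boxes2])) (by norm_num) (by norm_num) ?_ ?_ ?_ ?_ ?_ hS ?_ ?_
    all_goals norm_num [one, Box.start]
    all_goals linarith
  · refine use_box (check_of_mem boxes2_ok (bx := ⟨35760000, 35880000, 100000, 270000, 2600000, 82092400, 81101200, 239714435, 306769, 181109, 10, 17, 21⟩) (by simp [boxes2])) (by norm_num) (by norm_num) ?_ ?_ ?_ ?_ ?_ hS ?_ ?_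
    all_goals norm_num [one, Box.start]
    all_goals linarith

lemma kappa_piece9 {p H x S : ℝ} (hp0 : 897 / 2500 < p) (hp1 : p ≤ 9 / 25) (hH0 : 0 ≤ H)
    (hW : H ≤ psiW0 p) (hx : x ≤ psiW0 p ^ 2) (hS : S ≤ sM p) : KappaCert p H x S := by
  rw [psiW0, if_neg (by linarith : ¬p ≤ 343 / 1000), if_pos (by linarith : p ≤ 36 / 100)] at hW hx
  rw [sM, if_neg (by linarith : ¬p ≤ 350 / 1000), if_neg (by linarith : ¬p ≤ 355 / 1000), if_pos (by linarith : p ≤ 360 / 1000)] at hS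
  rcases le_total H (1 / 1000) with hH | hH
  · refine use_box (check_of_mem boxes3_ok (bx := ⟨35880000, 36000000, 0, 100000, 3000000, 81101200, 80110000, 239589166, 306378, 106471, 14, 24, 30⟩) (by simp [boxes3])) (by norm_num) (by norm_num) ?_ ?_ ?_ ?_ ?_ hS ?_ ?_
    all_goals norm_num [one, Box.start]
    all_goals linarith
  · refine use_box (check_of_mem boxes3_ok (bx := ⟨35880000, 36000000, 100000, 270000, 3000000, 81101200, 80110000, 239408059, 306376, 181107, 10, 17, 21⟩) (by simp [boxes3])) (by norm_num) (by norm_num) ?_ ?_ ?_ ?_ ?_ hS ?_ ?_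
    all_goals norm_num [one, Box.start]
    all_goals linarith

lemma kappa_piece10 {p H x S : ℝ} (hp0 : 9 / 25 < p) (hp1 : p ≤ 903 / 2500) (hH0 : 0 ≤ H)
    (hW : H ≤ psiW0 p) (hx : x ≤ psiW0 p ^ 2) (hS : S ≤ sM p) : KappaCert p H x S := by
  rw [psiW0, if_neg (by linarith : ¬p ≤ 343 / 1000), if_neg (by linarith : ¬p ≤ 36 / 100), if_pos (by linarith : p ≤ 40 / 100)] at hW hx
  rw [sM, if_neg (by linarith : ¬p ≤ 350 / 1000), if_neg (by linarith : ¬p ≤ 355 / 1000), if_neg (by linarith : ¬p ≤ 360 / 1000), if_pos (by linarith : p ≤ 365 / 1000)] at hS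
  rcases le_total H (1 / 1000) with hH | hH
  · refine use_box (check_of_mem boxes3_ok (bx := ⟨36000000, 36120000, 0, 100000, 3000000, 81190000, 80213200, 239283184, 305982, 106469, 14, 24, 30⟩) (by simp [boxes3])) (by norm_num) (by norm_num) ?_ ?_ ?_ ?_ ?_ hS ?_ ?_
    all_goals norm_num [one, Box.start]
    all_goals linarith
  · refine use_box (check_of_mem boxes3_ok (bx := ⟨36000000, 36120000, 100000, 790000, 3000000, 81190000, 80213200, 238547280, 305964, 735904, 10, 17, 21⟩) (by simp [boxes3])) (by norm_num) (by norm_num) ?_ ?_ ?_ ?_ ?_ hS ?_ ?_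
    all_goals norm_num [one, Box.start]
    all_goals linarith

lemma kappa_piece11 {p H x S : ℝ} (hp0 : 903 / 2500 < p) (hp1 : p ≤ 29 / 80) (hH0 : 0 ≤ H)
    (hW : H ≤ psiW0 p) (hx : x ≤ psiW0 p ^ 2) (hS : S ≤ sM p) : KappaCert p H x S := by
  rw [psiW0, if_neg (by linarith : ¬p ≤ 343 / 1000), if_neg (by linarith : ¬p ≤ 36 / 100), if_pos (by linarith : p ≤ 40 / 100)] at hW hx
  rw [sM, if_neg (by linarith : ¬p ≤ 350 / 1000), if_neg (by linarith : ¬p ≤ 355 / 1000), if_neg (by linarith : ¬p ≤ 360 / 1000), if_pos (by linarith : p ≤ 365 / 1000)] at hS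
  rcases le_total H (1 / 1000) with hH | hH
  · refine use_box (check_of_mem boxes3_ok (bx := ⟨36120000, 36250000, 0, 100000, 3000000, 80213200, 79155000, 238952151, 331033, 106466, 14, 24, 30⟩) (by simp [boxes3])) (by norm_num) (by norm_num) ?_ ?_ ?_ ?_ ?_ hS ?_ ?_
    all_goals norm_num [one, Box.start]
    all_goals linarith
  · refine use_box (check_of_mem boxes3_ok (bx := ⟨36120000, 36250000, 100000, 790000, 3300000, 80213200, 79155000, 238216276, 331004, 735875, 10, 17, 21⟩) (by simp [boxes3])) (by norm_num) (by norm_num) ?_ ?_ ?_ ?_ ?_ hS ?_ ?_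
    all_goals norm_num [one, Box.start]
    all_goals linarith

lemma kappa_piece12 {p H x S : ℝ} (hp0 : 29 / 80 < p) (hp1 : p ≤ 73 / 200) (hH0 : 0 ≤ H)
    (hW : H ≤ psiW0 p) (hx : x ≤ psiW0 p ^ 2) (hS : S ≤ sM p) : KappaCert p H x S := by
  rw [psiW0, if_neg (by linarith : ¬p ≤ 343 / 1000), if_neg (by linarith : ¬p ≤ 36 / 100), if_pos (by linarith : p ≤ 40 / 100)] at hW hx
  rw [sM, if_neg (by linarith : ¬p ≤ 350 / 1000), if_neg (by linarith : ¬p ≤ 355 / 1000), if_neg (by linarith : ¬p ≤ 360 / 1000), if_pos (by linarith : p ≤ 365 / 1000)] at hS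
  rcases le_total H (1 / 1000) with hH | hH
  · refine use_box (check_of_mem boxes4_ok (bx := ⟨36250000, 36500000, 0, 100000, 3300000, 79155000, 77120000, 238316871, 635280, 106457, 14, 24, 30⟩) (by simp [boxes4])) (by norm_num) (by norm_num) ?_ ?_ ?_ ?_ ?_ hS ?_ ?_
    all_goals norm_num [one, Box.start]
    all_goals linarith
  · refine use_box (check_of_mem boxes4_ok (bx := ⟨36250000, 36500000, 100000, 790000, 3599999, 79155000, 77120000, 237581073, 635203, 735798, 10, 17, 21⟩) (by simp [boxes4])) (by norm_num) (by norm_num) ?_ ?_ ?_ ?_ ?_ hS ?_ ?_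
    all_goals norm_num [one, Box.start]
    all_goals linarith

lemma kappa_piece13 {p H x S : ℝ} (hp0 : 73 / 200 < p) (hp1 : p ≤ 147 / 400) (hH0 : 0 ≤ H)
    (hW : H ≤ psiW0 p) (hx : x ≤ psiW0 p ^ 2) (hS : S ≤ sM p) : KappaCert p H x S := by
  rw [psiW0, if_neg (by linarith : ¬p ≤ 343 / 1000), if_neg (by linarith : ¬p ≤ 36 / 100), if_pos (by linarith : p ≤ 40 / 100)] at hW hx
  rw [sM, if_neg (by linarith : ¬p ≤ 350 / 1000), if_neg (by linarith : ¬p ≤ 355 / 1000), if_neg (by linarith : ¬p ≤ 360 / 1000), if_neg (by linarith : ¬p ≤ 365 / 1000), if_pos (by linarith : p ≤ 370 / 1000)] at hS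
  rcases le_total H (1 / 1000) with hH | hH
  · refine use_box (check_of_mem boxes4_ok (bx := ⟨36500000, 36750000, 0, 100000, 3599999, 77980000, 75987500, 237683347, 633524, 106444, 14, 24, 30⟩) (by simp [boxes4])) (by norm_num) (by norm_num) ?_ ?_ ?_ ?_ ?_ hS ?_ ?_
    all_goals norm_num [one, Box.start]
    all_goals linarith
  · refine use_box (check_of_mem boxes4_ok (bx := ⟨36500000, 36750000, 100000, 790000, 3599999, 77980000, 75987500, 236947654, 633419, 735693, 10, 17, 21⟩) (by simp [boxes4])) (by norm_num) (by norm_num) ?_ ?_ ?_ ?_ ?_ hS ?_ ?_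
    all_goals norm_num [one, Box.start]
    all_goals linarith

lemma kappa_piece14 {p H x S : ℝ} (hp0 : 147 / 400 < p) (hp1 : p ≤ 37 / 100) (hH0 : 0 ≤ H)
    (hW : H ≤ psiW0 p) (hx : x ≤ psiW0 p ^ 2) (hS : S ≤ sM p) : KappaCert p H x S := by
  rw [psiW0, if_neg (by linarith : ¬p ≤ 343 / 1000), if_neg (by linarith : ¬p ≤ 36 / 100), if_pos (by linarith : p ≤ 40 / 100)] at hW hx
  rw [sM, if_neg (by linarith : ¬p ≤ 350 / 1000), if_neg (by linarith : ¬p ≤ 355 / 1000), if_neg (by linarith : ¬p ≤ 360 / 1000), if_neg (by linarith : ¬p ≤ 365 / 1000), if_pos (by linarith : p ≤ 370 / 1000)] at hS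
  rcases le_total H (1 / 1000) with hH | hH
  · refine use_box (check_of_mem boxes4_ok (bx := ⟨36750000, 37000000, 0, 100000, 4000000, 75987500, 73995000, 237051597, 631750, 106427, 14, 24, 30⟩) (by simp [boxes4])) (by norm_num) (by norm_num) ?_ ?_ ?_ ?_ ?_ hS ?_ ?_
    all_goals norm_num [one, Box.start]
    all_goals linarith
  · refine use_box (check_of_mem boxes4_ok (bx := ⟨36750000, 37000000, 100000, 790000, 4000000, 75987500, 73995000, 236316037, 631617, 735560, 10, 17, 21⟩) (by simp [boxes4])) (by norm_num) (by norm_num) ?_ ?_ ?_ ?_ ?_ hS ?_ ?_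
    all_goals norm_num [one, Box.start]
    all_goals linarith

lemma kappa_piece15 {p H x S : ℝ} (hp0 : 37 / 100 < p) (hp1 : p ≤ 149 / 400) (hH0 : 0 ≤ H)
    (hW : H ≤ psiW0 p) (hx : x ≤ psiW0 p ^ 2) (hS : S ≤ sM p) : KappaCert p H x S := by
  rw [psiW0, if_neg (by linarith : ¬p ≤ 343 / 1000), if_neg (by linarith : ¬p ≤ 36 / 100), if_pos (by linarith : p ≤ 40 / 100)] at hW hx
  rw [sM, if_neg (by linarith : ¬p ≤ 350 / 1000), if_neg (by linarith : ¬p ≤ 355 / 1000), if_neg (by linarith : ¬p ≤ 360 / 1000), if_neg (by linarith : ¬p ≤ 365 / 1000), if_neg (by linarith : ¬p ≤ 370 / 1000), if_pos (by linarith : p ≤ 375 / 1000)] at hS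
  rcases le_total H (1 / 1000) with hH | hH
  · refine use_box (check_of_mem boxes5_ok (bx := ⟨37000000, 37250000, 0, 100000, 4500000, 74820000, 72872500, 236421641, 629956, 106407, 14, 24, 30⟩) (by simp [boxes5])) (by norm_num) (by norm_num) ?_ ?_ ?_ ?_ ?_ hS ?_ ?_
    all_goals norm_num [one, Box.start]
    all_goals linarith
  · refine use_box (check_of_mem boxes5_ok (bx := ⟨37000000, 37250000, 100000, 790000, 4500000, 74820000, 72872500, 235686241, 629796, 735400, 10, 17, 21⟩) (by simp [boxes5])) (by norm_num) (by norm_num) ?_ ?_ ?_ ?_ ?_ hS ?_ ?_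
    all_goals norm_num [one, Box.start]
    all_goals linarith

lemma kappa_piece16 {p H x S : ℝ} (hp0 : 149 / 400 < p) (hp1 : p ≤ 3 / 8) (hH0 : 0 ≤ H)
    (hW : H ≤ psiW0 p) (hx : x ≤ psiW0 p ^ 2) (hS : S ≤ sM p) : KappaCert p H x S := by
  rw [psiW0, if_neg (by linarith : ¬p ≤ 343 / 1000), if_neg (by linarith : ¬p ≤ 36 / 100), if_pos (by linarith : p ≤ 40 / 100)] at hW hx
  rw [sM, if_neg (by linarith : ¬p ≤ 350 / 1000), if_neg (by linarith : ¬p ≤ 355 / 1000), if_neg (by linarith : ¬p ≤ 360 / 1000), if_neg (by linarith : ¬p ≤ 365 / 1000), if_neg (by linarith : ¬p ≤ 370 / 1000), if_pos (by linarith : p ≤ 375 / 1000)] at hS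
  rcases le_total H (1 / 1000) with hH | hH
  · refine use_box (check_of_mem boxes5_ok (bx := ⟨37250000, 37500000, 0, 100000, 5000000, 72872500, 70925000, 235793496, 628145, 106381, 14, 24, 30⟩) (by simp [boxes5])) (by norm_num) (by norm_num) ?_ ?_ ?_ ?_ ?_ hS ?_ ?_
    all_goals norm_num [one, Box.start]
    all_goals linarith
  · refine use_box (check_of_mem boxes5_ok (bx := ⟨37250000, 37500000, 100000, 790000, 5000000, 72872500, 70925000, 235058283, 627958, 735213, 10, 17, 21⟩) (by simp [boxes5])) (by norm_num) (by norm_num) ?_ ?_ ?_ ?_ ?_ hS ?_ ?_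
    all_goals norm_num [one, Box.start]
    all_goals linarith

lemma kappa_piece17 {p H x S : ℝ} (hp0 : 3 / 8 < p) (hp1 : p ≤ 151 / 400) (hH0 : 0 ≤ H)
    (hW : H ≤ psiW0 p) (hx : x ≤ psiW0 p ^ 2) (hS : S ≤ sM p) : KappaCert p H x S := by
  rw [psiW0, if_neg (by linarith : ¬p ≤ 343 / 1000), if_neg (by linarith : ¬p ≤ 36 / 100), if_pos (by linarith : p ≤ 40 / 100)] at hW hx
  rw [sM, if_neg (by linarith : ¬p ≤ 350 / 1000), if_neg (by linarith : ¬p ≤ 355 / 1000), if_neg (by linarith : ¬p ≤ 360 / 1000), if_neg (by linarith : ¬p ≤ 365 / 1000), if_neg (by linarith : ¬p ≤ 370 / 1000), if_neg (by linarith : ¬p ≤ 375 / 1000), if_pos (by linarith : p ≤ 380 / 1000)] at hS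
  rcases le_total H (1 / 1000) with hH | hH
  · refine use_box (check_of_mem boxes5_ok (bx := ⟨37500000, 37750000, 0, 100000, 5000000, 71630000, 69730000, 235167178, 626318, 106353, 14, 24, 30⟩) (by simp [boxes5])) (by norm_num) (by norm_num) ?_ ?_ ?_ ?_ ?_ hS ?_ ?_
    all_goals norm_num [one, Box.start]
    all_goals linarith
  · refine use_box (check_of_mem boxes5_ok (bx := ⟨37500000, 37750000, 100000, 790000, 5000000, 71630000, 69730000, 234432180, 626103, 734998, 10, 17, 21⟩) (by simp [boxes5])) (by norm_num) (by norm_num) ?_ ?_ ?_ ?_ ?_ hS ?_ ?_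
    all_goals norm_num [one, Box.start]
    all_goals linarith

lemma kappa_piece18 {p H x S : ℝ} (hp0 : 151 / 400 < p) (hp1 : p ≤ 19 / 50) (hH0 : 0 ≤ H)
    (hW : H ≤ psiW0 p) (hx : x ≤ psiW0 p ^ 2) (hS : S ≤ sM p) : KappaCert p H x S := by
  rw [psiW0, if_neg (by linarith : ¬p ≤ 343 / 1000), if_neg (by linarith : ¬p ≤ 36 / 100), if_pos (by linarith : p ≤ 40 / 100)] at hW hx
  rw [sM, if_neg (by linarith : ¬p ≤ 350 / 1000), if_neg (by linarith : ¬p ≤ 355 / 1000), if_neg (by linarith : ¬p ≤ 360 / 1000), if_neg (by linarith : ¬p ≤ 365 / 1000), if_neg (by linarith : ¬p ≤ 370 / 1000), if_neg (by linarith : ¬p ≤ 375 / 1000), if_pos (by linarith : p ≤ 380 / 1000)] at hS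
  rcases le_total H (1 / 1000) with hH | hH
  · refine use_box (check_of_mem boxes6_ok (bx := ⟨37750000, 38000000, 0, 100000, 5800000, 69730000, 67830000, 234542707, 624471, 106320, 14, 24, 30⟩) (by simp [boxes6])) (by norm_num) (by norm_num) ?_ ?_ ?_ ?_ ?_ hS ?_ ?_
    all_goals norm_num [one, Box.start]
    all_goals linarith
  · refine use_box (check_of_mem boxes6_ok (bx := ⟨37750000, 38000000, 100000, 790000, 5800000, 69730000, 67830000, 233807947, 624233, 734760, 10, 17, 21⟩) (by simp [boxes6])) (by norm_num) (by norm_num) ?_ ?_ ?_ ?_ ?_ hS ?_ ?_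
    all_goals norm_num [one, Box.start]
    all_goals linarith

lemma kappa_piece19 {p H x S : ℝ} (hp0 : 19 / 50 < p) (hp1 : p ≤ 767 / 2000) (hH0 : 0 ≤ H)
    (hW : H ≤ psiW0 p) (hx : x ≤ psiW0 p ^ 2) (hS : S ≤ sM p) : KappaCert p H x S := by
  rw [psiW0, if_neg (by linarith : ¬p ≤ 343 / 1000), if_neg (by linarith : ¬p ≤ 36 / 100), if_pos (by linarith : p ≤ 40 / 100)] at hW hx
  rw [sM, if_neg (by linarith : ¬p ≤ 350 / 1000), if_neg (by linarith : ¬p ≤ 355 / 1000), if_neg (by linarith : ¬p ≤ 360 / 1000), if_neg (by linarith : ¬p ≤ 365 / 1000), if_neg (by linarith : ¬p ≤ 370 / 1000), if_neg (by linarith : ¬p ≤ 375 / 1000), if_neg (by linarith : ¬p ≤ 380 / 1000), if_pos (by linarith : p ≤ 400 / 1000)] at hS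
  rcases le_total H (1 / 1000) with hH | hH
  · refine use_box (check_of_mem boxes6_ok (bx := ⟨38000000, 38350000, 0, 100000, 5800000, 70520000, 68003500, 233671574, 871133, 106269, 14, 24, 30⟩) (by simp [boxes6])) (by norm_num) (by norm_num) ?_ ?_ ?_ ?_ ?_ hS ?_ ?_
    all_goals norm_num [one, Box.start]
    all_goals linarith
  · refine use_box (check_of_mem boxes6_ok (bx := ⟨38000000, 38350000, 100000, 790000, 5800000, 70520000, 68003500, 232937189, 870758, 734385, 10, 17, 21⟩) (by simp [boxes6])) (by norm_num) (by norm_num) ?_ ?_ ?_ ?_ ?_ hS ?_ ?_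
    all_goals norm_num [one, Box.start]
    all_goals linarith

lemma kappa_piece20 {p H x S : ℝ} (hp0 : 767 / 2000 < p) (hp1 : p ≤ 31 / 80) (hH0 : 0 ≤ H)
    (hW : H ≤ psiW0 p) (hx : x ≤ psiW0 p ^ 2) (hS : S ≤ sM p) : KappaCert p H x S := by
  rw [psiW0, if_neg (by linarith : ¬p ≤ 343 / 1000), if_neg (by linarith : ¬p ≤ 36 / 100), if_pos (by linarith : p ≤ 40 / 100)] at hW hx
  rw [sM, if_neg (by linarith : ¬p ≤ 350 / 1000), if_neg (by linarith : ¬p ≤ 355 / 1000), if_neg (by linarith : ¬p ≤ 360 / 1000), if_neg (by linarith : ¬p ≤ 365 / 1000), if_neg (by linarith : ¬p ≤ 370 / 1000), if_neg (by linarith : ¬p ≤ 375 / 1000), if_neg (by linarith : ¬p ≤ 380 / 1000), if_pos (by linarith : p ≤ 400 / 1000)] at hS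
  refine use_box (check_of_mem boxes6_ok (bx := ⟨38350000, 38750000, 0, 790000, 6600000, 68003500, 65127500, 231946614, 990575, 840098, 10, 17, 21⟩) (by simp [boxes6])) (by norm_num) (by norm_num) ?_ ?_ ?_ ?_ ?_ hS ?_ ?_
  all_goals norm_num [one, Box.start]
  all_goals linarith

lemma kappa_piece21 {p H x S : ℝ} (hp0 : 31 / 80 < p) (hp1 : p ≤ 393 / 1000) (hH0 : 0 ≤ H)
    (hW : H ≤ psiW0 p) (hx : x ≤ psiW0 p ^ 2) (hS : S ≤ sM p) : KappaCert p H x S := by
  rw [psiW0, if_neg (by linarith : ¬p ≤ 343 / 1000), if_neg (by linarith : ¬p ≤ 36 / 100), if_pos (by linarith : p ≤ 40 / 100)] at hW hx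
  rw [sM, if_neg (by linarith : ¬p ≤ 350 / 1000), if_neg (by linarith : ¬p ≤ 355 / 1000), if_neg (by linarith : ¬p ≤ 360 / 1000), if_neg (by linarith : ¬p ≤ 365 / 1000), if_neg (by linarith : ¬p ≤ 370 / 1000), if_neg (by linarith : ¬p ≤ 375 / 1000), if_neg (by linarith : ¬p ≤ 380 / 1000), if_pos (by linarith : p ≤ 400 / 1000)] at hS
  refine use_box (check_of_mem boxes6_ok (bx := ⟨38750000, 39300000, 0, 790000, 8000000, 65127500, 61173000, 230592633, 1353981, 839225, 10, 17, 21⟩) (by simp [boxes6])) (by norm_num) (by norm_num) ?_ ?_ ?_ ?_ ?_ hS ?_ ?_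
  all_goals norm_num [one, Box.start]
  all_goals linarith

lemma kappa_piece22 {p H x S : ℝ} (hp0 : 393 / 1000 < p) (hp1 : p ≤ 2 / 5) (hH0 : 0 ≤ H)
    (hW : H ≤ psiW0 p) (hx : x ≤ psiW0 p ^ 2) (hS : S ≤ sM p) : KappaCert p H x S := by
  rw [psiW0, if_neg (by linarith : ¬p ≤ 343 / 1000), if_neg (by linarith : ¬p ≤ 36 / 100), if_pos (by linarith : p ≤ 40 / 100)] at hW hx
  rw [sM, if_neg (by linarith : ¬p ≤ 350 / 1000), if_neg (by linarith : ¬p ≤ 355 / 1000), if_neg (by linarith : ¬p ≤ 360 / 1000), if_neg (by linarith : ¬p ≤ 365 / 1000), if_neg (by linarith : ¬p ≤ 370 / 1000), if_neg (by linarith : ¬p ≤ 375 / 1000), if_neg (by linarith : ¬p ≤ 380 / 1000), if_pos (by linarith : p ≤ 400 / 1000)] at hS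
  refine use_box (check_of_mem boxes7_ok (bx := ⟨39300000, 40000000, 0, 790000, 8000000, 61173000, 56140000, 228883068, 1050102, 514701, 10, 17, 21⟩) (by simp [boxes7])) (by norm_num) (by norm_num) ?_ ?_ ?_ ?_ ?_ hS ?_ ?_
  all_goals norm_num [one, Box.start]
  all_goals linarith

lemma kappa_piece23 {p H x S : ℝ} (hp0 : 2 / 5 < p) (hp1 : p ≤ 51 / 125) (hH0 : 0 ≤ H)
    (hW : H ≤ psiW0 p) (hx : x ≤ psiW0 p ^ 2) (hS : S ≤ sM p) : KappaCert p H x S := by
  rw [psiW0, if_neg (by linarith : ¬p ≤ 343 / 1000), if_neg (by linarith : ¬p ≤ 36 / 100), if_neg (by linarith : ¬p ≤ 40 / 100), if_pos (by linarith : p ≤ 44 / 100)] at hW hx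
  rw [sM, if_neg (by linarith : ¬p ≤ 350 / 1000), if_neg (by linarith : ¬p ≤ 355 / 1000), if_neg (by linarith : ¬p ≤ 360 / 1000), if_neg (by linarith : ¬p ≤ 365 / 1000), if_neg (by linarith : ¬p ≤ 370 / 1000), if_neg (by linarith : ¬p ≤ 375 / 1000), if_neg (by linarith : ¬p ≤ 380 / 1000), if_neg (by linarith : ¬p ≤ 400 / 1000), if_pos (by linarith : p ≤ 420 / 1000)] at hS
  refine use_box (check_of_mem boxes7_ok (bx := ⟨40000000, 40800000, 0, 1010000, 9500000, 56130000, 51490000, 226714033, 1051832, 581594, 10, 17, 21⟩) (by simp [boxes7])) (by norm_num) (by norm_num) ?_ ?_ ?_ ?_ ?_ hS ?_ ?_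
  all_goals norm_num [one, Box.start]
  all_goals linarith

lemma kappa_piece24 {p H x S : ℝ} (hp0 : 51 / 125 < p) (hp1 : p ≤ 21 / 50) (hH0 : 0 ≤ H)
    (hW : H ≤ psiW0 p) (hx : x ≤ psiW0 p ^ 2) (hS : S ≤ sM p) : KappaCert p H x S := by
  rw [psiW0, if_neg (by linarith : ¬p ≤ 343 / 1000), if_neg (by linarith : ¬p ≤ 36 / 100), if_neg (by linarith : ¬p ≤ 40 / 100), if_pos (by linarith : p ≤ 44 / 100)] at hW hx
  rw [sM, if_neg (by linarith : ¬p ≤ 350 / 1000), if_neg (by linarith : ¬p ≤ 355 / 1000), if_neg (by linarith : ¬p ≤ 360 / 1000), if_neg (by linarith : ¬p ≤ 365 / 1000), if_neg (by linarith : ¬p ≤ 370 / 1000), if_neg (by linarith : ¬p ≤ 375 / 1000), if_neg (by linarith : ¬p ≤ 380 / 1000), if_neg (by linarith : ¬p ≤ 400 / 1000), if_pos (by linarith : p ≤ 420 / 1000)] at hS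
  refine use_box (check_of_mem boxes7_ok (bx := ⟨40800000, 42000000, 0, 1010000, 11000000, 51490000, 44530000, 223851423, 927494, 345289, 10, 17, 21⟩) (by simp [boxes7])) (by norm_num) (by norm_num) ?_ ?_ ?_ ?_ ?_ hS ?_ ?_
  all_goals norm_num [one, Box.start]
  all_goals linarith

lemma kappa_piece25 {p H x S : ℝ} (hp0 : 21 / 50 < p) (hp1 : p ≤ 43 / 100) (hH0 : 0 ≤ H)
    (hW : H ≤ psiW0 p) (hx : x ≤ psiW0 p ^ 2) (hS : S ≤ sM p) : KappaCert p H x S := by
  rw [psiW0, if_neg (by linarith : ¬p ≤ 343 / 1000), if_neg (by linarith : ¬p ≤ 36 / 100), if_neg (by linarith : ¬p ≤ 40 / 100), if_pos (by linarith : p ≤ 44 / 100)] at hW hx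
  rw [sM, if_neg (by linarith : ¬p ≤ 350 / 1000), if_neg (by linarith : ¬p ≤ 355 / 1000), if_neg (by linarith : ¬p ≤ 360 / 1000), if_neg (by linarith : ¬p ≤ 365 / 1000), if_neg (by linarith : ¬p ≤ 370 / 1000), if_neg (by linarith : ¬p ≤ 375 / 1000), if_neg (by linarith : ¬p ≤ 380 / 1000), if_neg (by linarith : ¬p ≤ 400 / 1000), if_neg (by linarith : ¬p ≤ 420 / 1000)] at hS
  refine use_box (check_of_mem boxes7_ok (bx := ⟨42000000, 43000000, 0, 1010000, 15000000, 44530000, 40240000, 221501930, 1131078, 511309, 10, 17, 21⟩) (by simp [boxes7])) (by norm_num) (by norm_num) ?_ ?_ ?_ ?_ ?_ hS ?_ ?_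
  all_goals norm_num [one, Box.start]
  all_goals linarith

lemma kappa_piece26 {p H x S : ℝ} (hp0 : 43 / 100 < p) (hp1 : p ≤ 11 / 25) (hH0 : 0 ≤ H)
    (hW : H ≤ psiW0 p) (hx : x ≤ psiW0 p ^ 2) (hS : S ≤ sM p) : KappaCert p H x S := by
  rw [psiW0, if_neg (by linarith : ¬p ≤ 343 / 1000), if_neg (by linarith : ¬p ≤ 36 / 100), if_neg (by linarith : ¬p ≤ 40 / 100), if_pos (by linarith : p ≤ 44 / 100)] at hW hx
  rw [sM, if_neg (by linarith : ¬p ≤ 350 / 1000), if_neg (by linarith : ¬p ≤ 355 / 1000), if_neg (by linarith : ¬p ≤ 360 / 1000), if_neg (by linarith : ¬p ≤ 365 / 1000), if_neg (by linarith : ¬p ≤ 370 / 1000), if_neg (by linarith : ¬p ≤ 375 / 1000), if_neg (by linarith : ¬p ≤ 380 / 1000), if_neg (by linarith : ¬p ≤ 400 / 1000), if_neg (by linarith : ¬p ≤ 420 / 1000)] at hS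
  refine use_box (check_of_mem boxes7_ok (bx := ⟨43000000, 44000000, 0, 1010000, 15000000, 40240000, 35950000, 219185504, 1115158, 509399, 10, 17, 21⟩) (by simp [boxes7])) (by norm_num) (by norm_num) ?_ ?_ ?_ ?_ ?_ hS ?_ ?_
  all_goals norm_num [one, Box.start]
  all_goals linarith

lemma kappa_piece27 {p H x S : ℝ} (hp0 : 11 / 25 < p) (hp1 : p ≤ 45 / 100) (hH0 : 0 ≤ H)
    (hW : H ≤ psiW0 p) (hx : x ≤ psiW0 p ^ 2) (hS : S ≤ sM p) : KappaCert p H x S := by
  rw [psiW0, if_neg (by linarith : ¬p ≤ 343 / 1000), if_neg (by linarith : ¬p ≤ 36 / 100), if_neg (by linarith : ¬p ≤ 40 / 100), if_neg (by linarith : ¬p ≤ 44 / 100), if_pos (by linarith : p ≤ 455 / 1000)] at hW hx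
  rw [sM, if_neg (by linarith : ¬p ≤ 350 / 1000), if_neg (by linarith : ¬p ≤ 355 / 1000), if_neg (by linarith : ¬p ≤ 360 / 1000), if_neg (by linarith : ¬p ≤ 365 / 1000), if_neg (by linarith : ¬p ≤ 370 / 1000), if_neg (by linarith : ¬p ≤ 375 / 1000), if_neg (by linarith : ¬p ≤ 380 / 1000), if_neg (by linarith : ¬p ≤ 400 / 1000), if_neg (by linarith : ¬p ≤ 420 / 1000)] at hS
  refine use_box (check_of_mem boxes7_ok (bx := ⟨44000000, 45000000, 0, 1050000, 15000000, 35950000, 31660000, 216860540, 1133056, 543769, 10, 17, 21⟩) (by simp [boxes7])) (by norm_num) (by norm_num) ?_ ?_ ?_ ?_ ?_ hS ?_ ?_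
  all_goals norm_num [one, Box.start]
  all_goals linarith

/-- Case (M): a slack `κ` pays for two large contacts of sum at most `S`. -/
theorem kappa_cert {p H x S : ℝ} (hp0 : 343 / 1000 < p) (hp1 : p ≤ 45 / 100) (hH0 : 0 ≤ H)
    (hH1 : H ≤ rfun p (psiW0 p)) (hx : x ≤ psiW0 p ^ 2) (hS : S ≤ sM p) :
    KappaCert p H x S := by
  have hW : H ≤ psiW0 p := hH1.trans (sub_le_self _ (mul_nonneg (by linarith) (sq_nonneg _)))
  clear hH1
  by_cases q0 : p ≤ 173 / 500
  · exact kappa_piece0 hp0 q0 hH0 hW hx hS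
  by_cases q1 : p ≤ 87 / 250
  · exact kappa_piece1 (not_le.1 q0) q1 hH0 hW hx hS
  by_cases q2 : p ≤ 7 / 20
  · exact kappa_piece2 (not_le.1 q1) q2 hH0 hW hx hS
  by_cases q3 : p ≤ 44 / 125
  · exact kappa_piece3 (not_le.1 q2) q3 hH0 hW hx hS
  by_cases q4 : p ≤ 707 / 2000
  · exact kappa_piece4 (not_le.1 q3) q4 hH0 hW hx hS
  by_cases q5 : p ≤ 71 / 200
  · exact kappa_piece5 (not_le.1 q4) q5 hH0 hW hx hS
  by_cases q6 : p ≤ 891 / 2500
  · exact kappa_piece6 (not_le.1 q5) q6 hH0 hW hx hS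
  by_cases q7 : p ≤ 447 / 1250
  · exact kappa_piece7 (not_le.1 q6) q7 hH0 hW hx hS
  by_cases q8 : p ≤ 897 / 2500
  · exact kappa_piece8 (not_le.1 q7) q8 hH0 hW hx hS
  by_cases q9 : p ≤ 9 / 25
  · exact kappa_piece9 (not_le.1 q8) q9 hH0 hW hx hS
  by_cases q10 : p ≤ 903 / 2500
  · exact kappa_piece10 (not_le.1 q9) q10 hH0 hW hx hS
  by_cases q11 : p ≤ 29 / 80
  · exact kappa_piece11 (not_le.1 q10) q11 hH0 hW hx hS
  by_cases q12 : p ≤ 73 / 200
  · exact kappa_piece12 (not_le.1 q11) q12 hH0 hW hx hS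
  by_cases q13 : p ≤ 147 / 400
  · exact kappa_piece13 (not_le.1 q12) q13 hH0 hW hx hS
  by_cases q14 : p ≤ 37 / 100
  · exact kappa_piece14 (not_le.1 q13) q14 hH0 hW hx hS
  by_cases q15 : p ≤ 149 / 400
  · exact kappa_piece15 (not_le.1 q14) q15 hH0 hW hx hS
  by_cases q16 : p ≤ 3 / 8
  · exact kappa_piece16 (not_le.1 q15) q16 hH0 hW hx hS
  by_cases q17 : p ≤ 151 / 400
  · exact kappa_piece17 (not_le.1 q16) q17 hH0 hW hx hS
  by_cases q18 : p ≤ 19 / 50
  · exact kappa_piece18 (not_le.1 q17) q18 hH0 hW hx hS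
  by_cases q19 : p ≤ 767 / 2000
  · exact kappa_piece19 (not_le.1 q18) q19 hH0 hW hx hS
  by_cases q20 : p ≤ 31 / 80
  · exact kappa_piece20 (not_le.1 q19) q20 hH0 hW hx hS
  by_cases q21 : p ≤ 393 / 1000
  · exact kappa_piece21 (not_le.1 q20) q21 hH0 hW hx hS
  by_cases q22 : p ≤ 2 / 5
  · exact kappa_piece22 (not_le.1 q21) q22 hH0 hW hx hS
  by_cases q23 : p ≤ 51 / 125
  · exact kappa_piece23 (not_le.1 q22) q23 hH0 hW hx hS
  by_cases q24 : p ≤ 21 / 50
  · exact kappa_piece24 (not_le.1 q23) q24 hH0 hW hx hS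
  by_cases q25 : p ≤ 43 / 100
  · exact kappa_piece25 (not_le.1 q24) q25 hH0 hW hx hS
  by_cases q26 : p ≤ 11 / 25
  · exact kappa_piece26 (not_le.1 q25) q26 hH0 hW hx hS
  exact kappa_piece27 (not_le.1 q26) hp1 hH0 hW hx hS

end Vale.Agent.P232.Kappa
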