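import Vale.Agent.P232.PlanarWeight
import Vale.Agent.P232.StretchField

/-!
The weighted certificate at the volume `1/π`: concavity of the slice bounds and one cell of the
quadrature. The variable is `t = π a`.
-/

open MeasureTheory Set
open scoped Interval

namespace Vale.Agent.P232.Kappa

/-- The threshold below which the area of a slice is not yet reached. -/
noncomputable def plainW (t : ℝ) : ℝ := min (Real.sqrt t) (min 1 (Real.sqrt (Real.pi - t)))

/-- The ramp of width `d` inside `[a, b]`. -/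
noncomputable def tent (a b d t : ℝ) : ℝ := clamp01 (min ((t - a) / d) ((b - t) / d))

/-- The pointwise conditions on the profiles `α`, `β`, `ρ` with the weight `k` and the slack `κ`
for the line `H + p t`. -/
def Slot (p H κ : ℝ) (k α β ρ : ℝ → ℝ) (t : ℝ) : Prop :=
  0 ≤ k t ∧ k t ≤ 1 / 2 ∧ 0 ≤ α t ∧ 0 ≤ β t ∧ ρ t ∈ Icc (0 : ℝ) 1 ∧
    α t ^ 2 + β t ^ 2 ≤ ρ t ^ 2 ∧ k t * α t ≤ κ ∧
    ρ t * (H + p * t) ≤ α t * weightW (k t) (t / Real.pi)

/-- A stretch `[a, b]` below the plain bound, worth `V` up to any loss. -/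
def Good (p H κ a b V : ℝ) : Prop :=
  (∀ t ∈ Icc a b, H + p * t < plainW t) ∧ ∀ η > 0, ∃ k α β ρ : ℝ → ℝ, Measurable k ∧
    Continuous α ∧ Continuous β ∧ Continuous ρ ∧ (∀ t, Slot p H κ k α β ρ t) ∧
    (∀ t, t ≤ a ∨ b ≤ t → α t = 0 ∧ β t = 0 ∧ ρ t = 0) ∧ V - η ≤ ∫ t in a..b, β t

lemma Good.mono {p H κ a b V V' : ℝ} (h : Good p H κ a b V) (hV : V' ≤ V) :
    Good p H κ a b V' := by
  refine ⟨h.1, fun η hη => ?_⟩
  obtain ⟨k, α, β, ρ, hk, hα, hβ, hρ, hs, hz, hi⟩ := h.2 η hη
  exact ⟨k, α, β, ρ, hk, hα, hβ, hρ, hs, hz, by linarith⟩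

lemma Good.empty {p H κ a : ℝ} (hκ : 0 ≤ κ) (h : H + p * a < plainW a) : Good p H κ a a 0 := by
  refine ⟨fun t ht => by rwa [le_antisymm ht.2 ht.1], fun η hη => ?_⟩
  refine ⟨fun _ => 0, fun _ => 0, fun _ => 0, fun _ => 0, measurable_const, continuous_const,
    continuous_const, continuous_const, fun t => ?_, fun t _ => ⟨rfl, rfl, rfl⟩, by simp [hη.le]⟩
  simp [Slot, hκ]

lemma Good.trans {p H κ a m b V V' : ℝ} (ham : a ≤ m) (hmb : m ≤ b) (h : Good p H κ a m V)
    (h' : Good p H κ m b V') : Good p H κ a b (V + V') := by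
  refine ⟨fun t ht => ?_, fun η hη => ?_⟩
  · by_cases htm : t ≤ m
    · exact h.1 t ⟨ht.1, htm⟩
    · exact h'.1 t ⟨(not_le.1 htm).le, ht.2⟩
  obtain ⟨k, α, β, ρ, hk, hα, hβ, hρ, hs, hz, hi⟩ := h.2 (η / 2) (half_pos hη)
  obtain ⟨k', α', β', ρ', hk', hα', hβ', hρ', hs', hz', hi'⟩ := h'.2 (η / 2) (half_pos hη)
  refine ⟨fun t => if t ≤ m then k t else k' t, fun t => α t + α' t, fun t => β t + β' t,
    fun t => ρ t + ρ' t, Measurable.ite measurableSet_Iic hk hk', hα.add hα', hβ.add hβ',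
    hρ.add hρ', fun t => ?_, fun t ht => ?_, ?_⟩
  · unfold Slot
    by_cases htm : t ≤ m
    · obtain ⟨e1, e2, e3⟩ := hz' t (Or.inl htm)
      simp only [if_pos htm, e1, e2, e3, add_zero]
      exact hs t
    · obtain ⟨e1, e2, e3⟩ := hz t (Or.inr (not_le.1 htm).le)
      simp only [if_neg htm, e1, e2, e3, zero_add]
      exact hs' t
  · have h1 := hz t (ht.imp id hmb.trans)
    have h2 := hz' t (ht.imp (fun h => h.trans ham) id)
    simp [h1.1, h1.2.1, h1.2.2, h2.1, h2.2.1, h2.2.2]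
  · have z1 : ∫ t in m..b, β t = 0 :=
      (intervalIntegral.integral_congr (g := fun _ => (0 : ℝ)) fun t ht => by
        rw [uIcc_of_le hmb] at ht; exact (hz t (Or.inr ht.1)).2.1).trans (by simp)
    have z2 : ∫ t in a..m, β' t = 0 :=
      (intervalIntegral.integral_congr (g := fun _ => (0 : ℝ)) fun t ht => by
        rw [uIcc_of_le ham] at ht; exact (hz' t (Or.inl ht.2)).2.1).trans (by simp)
    rw [intervalIntegral.integral_add (hβ.intervalIntegrable _ _) (hβ'.intervalIntegrable _ _),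
      ← intervalIntegral.integral_add_adjacent_intervals (hβ.intervalIntegrable a m)
        (hβ.intervalIntegrable m b),
      ← intervalIntegral.integral_add_adjacent_intervals (hβ'.intervalIntegrable a m)
        (hβ'.intervalIntegrable m b), z1, z2]
    linarith

lemma tent_mem (a b d t : ℝ) : tent a b d t ∈ Icc (0 : ℝ) 1 := clamp01_mem _

lemma continuous_tent (a b d : ℝ) : Continuous (tent a b d) :=
  lipschitz_clamp01.continuous.comp (by fun_prop)

lemma tent_of_out {a b d t : ℝ} (hd : 0 < d) (h : t ≤ a ∨ b ≤ t) : tent a b d t = 0 := by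
  refine clamp01_of_nonpos ?_
  rcases h with h | h
  · exact (min_le_left _ _).trans (div_nonpos_of_nonpos_of_nonneg (by linarith) hd.le)
  · exact (min_le_right _ _).trans (div_nonpos_of_nonpos_of_nonneg (by linarith) hd.le)

lemma integral_tent {a b d : ℝ} (hd : 0 < d) (hab : 2 * d ≤ b - a) :
    ∫ t in a..b, (1 - tent a b d t) ≤ 2 * d := by
  have hc : Continuous fun t => 1 - tent a b d t := continuous_const.sub (continuous_tent a b d)
  have hmid : ∫ t in (a + d)..(b - d), (1 - tent a b d t) = 0 := by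
    refine (intervalIntegral.integral_congr (g := fun _ => (0 : ℝ)) fun t ht => ?_).trans (by simp)
    rw [uIcc_of_le (by linarith)] at ht
    have h1 : (1 : ℝ) ≤ min ((t - a) / d) ((b - t) / d) := le_min
      ((one_le_div₀ hd).2 (by linarith [ht.1])) ((one_le_div₀ hd).2 (by linarith [ht.2]))
    simp [tent, clamp01_of_one_le h1]
  have small : ∀ u v : ℝ, u ≤ v → (∫ t in u..v, (1 - tent a b d t)) ≤ v - u := fun u v huv => by
    refine (intervalIntegral.integral_mono_on huv (hc.intervalIntegrable _ _)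
      (intervalIntegrable_const (c := (1 : ℝ))) fun t _ => ?_).trans_eq (by simp)
    linarith [(tent_mem a b d t).1]
  rw [← intervalIntegral.integral_add_adjacent_intervals (hc.intervalIntegrable a (a + d))
      (hc.intervalIntegrable _ _),
    ← intervalIntegral.integral_add_adjacent_intervals (hc.intervalIntegrable (a + d) (b - d))
      (hc.intervalIntegrable _ _), hmid]
  linarith [small a (a + d) (by linarith), small (b - d) b (by linarith)]

lemma sqrt_combo {A B u : ℝ} (hA : 0 ≤ A) (hB : 0 ≤ B) (hu : u ∈ Icc (0 : ℝ) 1) :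
    (1 - u) * Real.sqrt A + u * Real.sqrt B ≤ Real.sqrt ((1 - u) * A + u * B) := by
  refine Real.le_sqrt_of_sq_le ?_
  calc ((1 - u) * Real.sqrt A + u * Real.sqrt B) ^ 2
      ≤ (1 - u) * Real.sqrt A ^ 2 + u * Real.sqrt B ^ 2 := by
        nlinarith [mul_nonneg (mul_nonneg hu.1 (sub_nonneg.2 hu.2))
          (sq_nonneg (Real.sqrt A - Real.sqrt B))]
    _ = _ := by rw [Real.sq_sqrt hA, Real.sq_sqrt hB]

lemma combo_le {x y X Y u : ℝ} (hu : u ∈ Icc (0 : ℝ) 1) (hx : x ≤ X) (hy : y ≤ Y) :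
    (1 - u) * x + u * y ≤ (1 - u) * X + u * Y :=
  add_le_add (mul_le_mul_of_nonneg_left hx (sub_nonneg.2 hu.2))
    (mul_le_mul_of_nonneg_left hy hu.1)

lemma combo_lt {x y X Y u : ℝ} (hu : u ∈ Icc (0 : ℝ) 1) (hx : x < X) (hy : y < Y) :
    (1 - u) * x + u * y < (1 - u) * X + u * Y := by
  rcases hu.1.eq_or_lt with h | h
  · subst h; simpa using hx
  · exact add_lt_add_of_le_of_lt (mul_le_mul_of_nonneg_left hx.le (sub_nonneg.2 hu.2))
      (mul_lt_mul_of_pos_left hy h)

lemma cauchy_combo {u x y X Y L M : ℝ} (hu : u ∈ Icc (0 : ℝ) 1) (hx : X ^ 2 + x ^ 2 ≤ L ^ 2)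
    (hy : Y ^ 2 + y ^ 2 ≤ M ^ 2) (hL : 0 ≤ L) (hM : 0 ≤ M) :
    ((1 - u) * X + u * Y) ^ 2 + ((1 - u) * x + u * y) ^ 2 ≤ ((1 - u) * L + u * M) ^ 2 := by
  have h1 : (X * Y + x * y) ^ 2 ≤ (L * M) ^ 2 :=
    calc (X * Y + x * y) ^ 2 ≤ (X ^ 2 + x ^ 2) * (Y ^ 2 + y ^ 2) := by
          nlinarith [sq_nonneg (X * y - Y * x)]
      _ ≤ L ^ 2 * M ^ 2 := mul_le_mul hx hy (by positivity) (sq_nonneg L)
      _ = _ := by ring
  have hdot : X * Y + x * y ≤ L * M := (abs_le_of_sq_le_sq' h1 (mul_nonneg hL hM)).2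
  nlinarith [mul_le_mul_of_nonneg_left hdot (mul_nonneg hu.1 (sub_nonneg.2 hu.2)),
    mul_le_mul_of_nonneg_left hx (sq_nonneg (1 - u)), mul_le_mul_of_nonneg_left hy (sq_nonneg u)]

lemma plainW_combo {s r u : ℝ} (hs : s ∈ Icc 0 Real.pi) (hr : r ∈ Icc 0 Real.pi)
    (hu : u ∈ Icc (0 : ℝ) 1) :
    (1 - u) * plainW s + u * plainW r ≤ plainW ((1 - u) * s + u * r) := by
  refine le_min ?_ (le_min ?_ ?_)
  · exact (combo_le hu (min_le_left _ _) (min_le_left _ _)).trans (sqrt_combo hs.1 hr.1 hu)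
  · refine (combo_le hu ((min_le_right _ _).trans (min_le_left _ _))
      ((min_le_right _ _).trans (min_le_left _ _))).trans ?_
    linarith
  · refine (combo_le hu ((min_le_right _ _).trans (min_le_right _ _))
      ((min_le_right _ _).trans (min_le_right _ _))).trans ?_
    refine (sqrt_combo (sub_nonneg.2 hs.2) (sub_nonneg.2 hr.2) hu).trans (le_of_eq ?_)
    congr 1; ring

lemma weightW_combo {k s r u : ℝ} (hk : 0 ≤ k) (hk2 : k ≤ 1 / 2) (hs : s ∈ Icc 0 Real.pi)
    (hr : r ∈ Icc 0 Real.pi) (hu : u ∈ Icc (0 : ℝ) 1) :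
    (1 - u) * weightW k (s / Real.pi) + u * weightW k (r / Real.pi) ≤
      weightW k (((1 - u) * s + u * r) / Real.pi) := by
  have hπ := Real.pi_pos
  have ho : 0 ≤ Planar.omega k := Planar.omega_nonneg hk (by nlinarith)
  have he : ∀ t : ℝ, Real.pi * (t / Real.pi) = t := fun t => by field_simp
  have h1 : ∀ t, t ∈ Icc (0 : ℝ) Real.pi → (0 : ℝ) ≤ 1 - t / Real.pi := fun t ht => by
    rw [sub_nonneg, div_le_one hπ]; exact ht.2
  refine le_min ?_ (le_min ?_ ?_)
  · refine (combo_le hu (min_le_left _ _) (min_le_left _ _)).trans ?_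
    simp only [he]
    exact sqrt_combo hs.1 hr.1 hu
  · refine (combo_le hu ((min_le_right _ _).trans (min_le_left _ _))
      ((min_le_right _ _).trans (min_le_left _ _))).trans (le_of_eq ?_)
    field_simp; ring
  · refine (combo_le hu ((min_le_right _ _).trans (min_le_right _ _))
      ((min_le_right _ _).trans (min_le_right _ _))).trans ?_
    have h := sqrt_combo (mul_nonneg ho (h1 s hs)) (mul_nonneg ho (h1 r hr)) hu
    have e : (1 - u) * (Planar.omega k * (1 - s / Real.pi)) +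
        u * (Planar.omega k * (1 - r / Real.pi)) =
        Planar.omega k * (1 - ((1 - u) * s + u * r) / Real.pi) := by
      field_simp; ring
    rw [e] at h
    linarith

/-- The lower bound for `g/l` on a cell. -/
lemma ratio_lower {u la lb Ba Bb M m l : ℝ} (hu : u ∈ Icc (0 : ℝ) 1) (hm : 0 < m) (hma : m ≤ la)
    (hmb : m ≤ lb) (hl : l = (1 - u) * la + u * lb) (hM : M ≤ 0)
    (hMD : M ≤ (lb - la) * (Bb - Ba)) :
    ((1 - u) * Ba + u * Bb + u * (1 - u) * (M / m)) * l ≤
      (1 - u) * (Ba * la) + u * (Bb * lb) := by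
  have hu2 : 0 ≤ u * (1 - u) := mul_nonneg hu.1 (sub_nonneg.2 hu.2)
  have hlm : m ≤ l := by
    rw [hl]
    calc m = (1 - u) * m + u * m := by ring
      _ ≤ _ := combo_le hu hma hmb
  have hA : M / m * l ≤ M := by
    rw [div_mul_eq_mul_div, div_le_iff₀ hm]
    exact mul_le_mul_of_nonpos_left hlm hM
  have key : (1 - u) * (Ba * la) + u * (Bb * lb) - ((1 - u) * Ba + u * Bb) * l =
      u * (1 - u) * ((lb - la) * (Bb - Ba)) := by rw [hl]; ring
  nlinarith [mul_le_mul_of_nonneg_left (hA.trans hMD) hu2]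

/-- One cell, with a constant weight and the values `Ba`, `Bb` at its ends. -/
lemma good_cell {p H κ a b k la lb Ba Bb M : ℝ} (hp : 0 ≤ p) (hH : 0 ≤ H) (hκ : 0 ≤ κ)
    (ha : 0 ≤ a) (hab : a < b) (hb : b ≤ Real.pi) (hk : 0 ≤ k) (hk2 : k ≤ 1 / 2)
    (hla : la ≤ weightW k (a / Real.pi)) (hlb : lb ≤ weightW k (b / Real.pi))
    (hla0 : 0 < la) (hlb0 : 0 < lb)
    (hWa : p * a + H < plainW a) (hWb : p * b + H < plainW b)
    (hka : k * (p * a + H) ≤ κ * la) (hkb : k * (p * b + H) ≤ κ * lb)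
    (hBa0 : 0 ≤ Ba) (hBb0 : 0 ≤ Bb) (hBa1 : Ba ≤ 1) (hBb1 : Bb ≤ 1)
    (hBa : (Ba * la) ^ 2 + (p * a + H) ^ 2 ≤ la ^ 2)
    (hBb : (Bb * lb) ^ 2 + (p * b + H) ^ 2 ≤ lb ^ 2)
    (hM : M ≤ 0) (hMD : M ≤ (lb - la) * (Bb - Ba)) :
    Good p H κ a b ((b - a) * ((Ba + Bb) / 2 + M / min la lb / 6)) := by
  have hba : 0 < b - a := sub_pos.2 hab
  set m := min la lb with hmdef
  have hm : 0 < m := lt_min hla0 hlb0
  have ha' : a ∈ Icc 0 Real.pi := ⟨ha, hab.le.trans hb⟩
  have hb' : b ∈ Icc 0 Real.pi := ⟨ha.trans hab.le, hb⟩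
  set u : ℝ → ℝ := fun t => clamp01 ((t - a) / (b - a)) with hu'
  have hu : ∀ t, u t ∈ Icc (0 : ℝ) 1 := fun t => clamp01_mem _
  have huc : Continuous u := lipschitz_clamp01.continuous.comp (by fun_prop)
  set l : ℝ → ℝ := fun t => (1 - u t) * la + u t * lb with hl
  set c : ℝ → ℝ := fun t => (1 - u t) * (p * a + H) + u t * (p * b + H) with hc
  set P : ℝ → ℝ := fun t => (1 - u t) * Ba + u t * Bb + u t * (1 - u t) * (M / m) with hP
  have hlm : ∀ t, 0 < l t := fun t => hm.trans_le (by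
    calc m = (1 - u t) * m + u t * m := by ring
      _ ≤ _ := combo_le (hu t) (min_le_left _ _) (min_le_right _ _))
  have hc0 : ∀ t, 0 ≤ c t := fun t => add_nonneg
    (mul_nonneg (sub_nonneg.2 (hu t).2) (add_nonneg (mul_nonneg hp ha'.1) hH))
    (mul_nonneg (hu t).1 (add_nonneg (mul_nonneg hp hb'.1) hH))
  have hin : ∀ t ∈ Icc a b, u t = (t - a) / (b - a) ∧ (1 - u t) * a + u t * b = t ∧
      c t = H + p * t := fun t ht => by
    have e : u t = (t - a) / (b - a) := by
      simp only [hu', clamp01]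
      rw [min_eq_right ((div_le_one hba).2 (by linarith [ht.2])),
        max_eq_right (div_nonneg (by linarith [ht.1]) hba.le)]
    have e2 : (1 - u t) * a + u t * b = t := by rw [e]; field_simp; ring
    refine ⟨e, e2, ?_⟩
    calc c t = p * ((1 - u t) * a + u t * b) + H := by simp only [hc]; ring
      _ = _ := by rw [e2]; ring
  refine ⟨fun t ht => ?_, fun η hη => ?_⟩
  · obtain ⟨-, e2, e3⟩ := hin t ht
    have h := plainW_combo ha' hb' (hu t)
    rw [e2] at h
    rw [← e3]
    exact (combo_lt (hu t) hWa hWb).trans_le h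
  set d := min (η / 2) ((b - a) / 2) with hd'
  have hd : 0 < d := lt_min (half_pos hη) (half_pos hba)
  have hd1 : 2 * d ≤ η := by linarith [min_le_left (η / 2) ((b - a) / 2)]
  have hd2 : 2 * d ≤ b - a := by linarith [min_le_right (η / 2) ((b - a) / 2)]
  set φ := tent a b d with hφ
  refine ⟨fun _ => k, fun t => φ t * (c t / l t), fun t => φ t * max 0 (P t), φ, measurable_const,
    (continuous_tent a b d).mul ((show Continuous c by fun_prop).div (show Continuous l by fun_prop)
      fun t => (hlm t).ne'),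
    (continuous_tent a b d).mul (continuous_const.max (show Continuous P by fun_prop)),
    continuous_tent a b d, fun t => ?_, fun t ht => ?_, ?_⟩
  · have hφt := tent_mem a b d t
    set q := max 0 (P t) with hq
    have hq0 : 0 ≤ q := le_max_left _ _
    have hg : q * l t ≤ (1 - u t) * (Ba * la) + u t * (Bb * lb) := by
      rcases max_choice 0 (P t) with h | h <;> rw [hq, h]
      · rw [zero_mul]
        exact add_nonneg (mul_nonneg (sub_nonneg.2 (hu t).2) (mul_nonneg hBa0 hla0.le))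
          (mul_nonneg (hu t).1 (mul_nonneg hBb0 hlb0.le))
      · exact ratio_lower (hu t) hm (min_le_left _ _) (min_le_right _ _) rfl hM hMD
    have hmain : (q * l t) ^ 2 + c t ^ 2 ≤ l t ^ 2 := by
      have h1 := pow_le_pow_left₀ (mul_nonneg hq0 (hlm t).le) hg 2
      have h2 : ((1 - u t) * (Ba * la) + u t * (Bb * lb)) ^ 2 + c t ^ 2 ≤ l t ^ 2 :=
        cauchy_combo (hu t) hBa hBb hla0.le hlb0.le
      linarith
    have hkc : k * (c t / l t) ≤ κ := by
      rw [mul_div_assoc', div_le_iff₀ (hlm t)]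
      calc k * c t = (1 - u t) * (k * (p * a + H)) + u t * (k * (p * b + H)) := by
            simp only [hc]; ring
        _ ≤ (1 - u t) * (κ * la) + u t * (κ * lb) := combo_le (hu t) hka hkb
        _ = κ * l t := by simp only [hl]; ring
    refine ⟨hk, hk2, mul_nonneg hφt.1 (div_nonneg (hc0 t) (hlm t).le), mul_nonneg hφt.1 hq0, hφt,
      ?_, ?_, ?_⟩
    · rw [mul_pow, mul_pow, ← mul_add]
      refine mul_le_of_le_one_right (sq_nonneg _) ?_
      rw [div_pow, ← le_sub_iff_add_le, div_le_iff₀ (pow_pos (hlm t) 2), sub_mul, one_mul,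
        ← mul_pow]
      linarith
    · calc k * (φ t * (c t / l t)) = φ t * (k * (c t / l t)) := by ring
        _ ≤ φ t * κ := mul_le_mul_of_nonneg_left hkc hφt.1
        _ ≤ κ := mul_le_of_le_one_left hκ hφt.2
    · by_cases ht : t ∈ Icc a b
      · obtain ⟨-, e2, e3⟩ := hin t ht
        rw [← e3, mul_assoc]
        refine mul_le_mul_of_nonneg_left ?_ hφt.1
        have h := weightW_combo hk hk2 ha' hb' (hu t)
        rw [e2] at h
        calc c t = c t / l t * l t := (div_mul_cancel₀ _ (hlm t).ne').symm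
          _ ≤ _ := mul_le_mul_of_nonneg_left ((combo_le (hu t) hla hlb).trans h)
            (div_nonneg (hc0 t) (hlm t).le)
      · have h0 : φ t = 0 := tent_of_out hd (by
          simp only [mem_Icc, not_and_or, not_le] at ht
          exact ht.imp le_of_lt le_of_lt)
        simp [h0]
  · simp [hφ, tent_of_out hd ht]
  · have hP1 : ∀ t, P t ≤ 1 := fun t => by
      have h1 : u t * (1 - u t) * (M / m) ≤ 0 := mul_nonpos_of_nonneg_of_nonpos
        (mul_nonneg (hu t).1 (sub_nonneg.2 (hu t).2)) (div_nonpos_of_nonpos_of_nonneg hM hm.le)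
      have h2 := combo_le (hu t) hBa1 hBb1
      simp only [hP]; linarith
    set A := (Bb - Ba + M / m) / (b - a)
    set C := (M / m) / (b - a) ^ 2
    have hI : ∫ t in a..b, P t = (b - a) * ((Ba + Bb) / 2 + M / m / 6) := by
      rw [intervalIntegral.integral_congr (g := fun t => Ba + A * (t - a) - C * (t - a) ^ 2)
        fun t ht => by
          rw [uIcc_of_le hab.le] at ht
          simp only [hP, (hin t ht).1, A, C]
          field_simp; ring]
      have hd : ∀ t ∈ uIcc a b, HasDerivAt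
          (fun t => Ba * t + A * (t - a) ^ 2 / 2 - C * (t - a) ^ 3 / 3)
          (Ba + A * (t - a) - C * (t - a) ^ 2) t := fun t _ => by
        have h := (((hasDerivAt_id' t).const_mul Ba).add
          ((((hasDerivAt_id' t).sub_const a).pow 2).const_mul A |>.div_const 2)).sub
          ((((hasDerivAt_id' t).sub_const a).pow 3).const_mul C |>.div_const 3)
        refine h.congr_deriv ?_
        simp
        ring
      rw [intervalIntegral.integral_eq_sub_of_hasDerivAt hd
        (Continuous.intervalIntegrable (by fun_prop) _ _)]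
      simp only [A, C]
      field_simp
      ring
    have iP : IntervalIntegrable P volume a b :=
      (show Continuous P by fun_prop).intervalIntegrable _ _
    have i1 : IntervalIntegrable (fun t => 1 - φ t) volume a b :=
      (continuous_const.sub (continuous_tent a b d)).intervalIntegrable _ _
    have hle : ∫ t in a..b, (P t - (1 - φ t)) ≤ ∫ t in a..b, φ t * max 0 (P t) := by
      refine intervalIntegral.integral_mono_on hab.le (iP.sub i1)
        (((continuous_tent a b d).mul (continuous_const.max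
          (show Continuous P by fun_prop))).intervalIntegrable _ _) fun t _ => ?_
      nlinarith [le_max_right 0 (P t), max_le zero_le_one (hP1 t), (tent_mem a b d t).2,
        le_max_left 0 (P t)]
    rw [intervalIntegral.integral_sub iP i1, hI] at hle
    linarith [integral_tent hd hd2]

/-- A stretch on which the weight and the profiles are constant. -/
lemma good_flat {p H κ a b k l C B : ℝ} (hp : 0 ≤ p) (hH : 0 ≤ H) (hκ : 0 ≤ κ) (ha : 0 ≤ a)
    (hab : a ≤ b) (hb : b ≤ Real.pi) (hk : 0 ≤ k) (hk2 : k ≤ 1 / 2) (hl0 : 0 < l)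
    (hla : l ≤ weightW k (a / Real.pi)) (hlb : l ≤ weightW k (b / Real.pi))
    (hWa : p * a + H < plainW a) (hWb : p * b + H < plainW b)
    (hC : p * b + H ≤ C) (hkC : k * C ≤ κ * l) (hB0 : 0 ≤ B) (hB1 : B ≤ 1)
    (hB : (B * l) ^ 2 + C ^ 2 ≤ l ^ 2) :
    Good p H κ a b ((b - a) * B) := by
  rcases hab.eq_or_lt with rfl | hlt
  · simpa using Good.empty hκ (by linarith)
  have hca : p * a + H ≤ C :=
    le_trans (add_le_add (mul_le_mul_of_nonneg_left hab hp) le_rfl) hC
  have h0 : ∀ s, 0 ≤ s → p * s + H ≤ C → (B * l) ^ 2 + (p * s + H) ^ 2 ≤ l ^ 2 := fun s hs h =>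
    le_trans (add_le_add le_rfl (pow_le_pow_left₀ (add_nonneg (mul_nonneg hp hs) hH) h 2)) hB
  have h := good_cell (M := 0) hp hH hκ ha hlt hb hk hk2 hla hlb hl0 hl0 hWa hWb
    ((mul_le_mul_of_nonneg_left hca hk).trans hkC) ((mul_le_mul_of_nonneg_left hC hk).trans hkC)
    hB0 hB0 hB1 hB1 (h0 a ha hca) (h0 b (ha.trans hab) hC) le_rfl (by simp)
  simpa using h

end Vale.Agent.P232.Kappa
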