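import Vale.Agent.P232.Endpoint.KappaCell

/-!
The integer check of one box of the weighted certificate (all numbers in units of `10⁻⁸`) and its
soundness.
-/

open Set

namespace Vale.Agent.P232.Kappa

/-- The unit. -/
def one : ℤ := 100000000
/-- `π` from below. -/
def piLo : ℤ := 314159265
/-- `π` from above. -/
def piHi : ℤ := 314159266

/-- Division rounded up. -/
def cdiv (a b : ℤ) : ℤ := -((-a) / b)

/-- Newton's iteration for the square root. -/
def newton (n : ℤ) : ℕ → ℤ → ℤ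
  | 0, r => r
  | f + 1, r => newton n f ((r + n / r) / 2)

/-- A lower bound for the square root. -/
def sqLo (n : ℤ) : ℤ :=
  let r := newton n 8 one
  let s := min r (n / r)
  if 0 ≤ s ∧ s * s ≤ n then s else 0

/-- A lower bound for the arc. -/
def arcI (K : ℤ) : ℤ :=
  (840 * one ^ 6 - 140 * K ^ 2 * one ^ 4 - 21 * K ^ 4 * one ^ 2 - 10 * K ^ 6) / (840 * one ^ 5)

/-- A lower bound for `omega`. -/
def omegaI (K : ℤ) : ℤ := piLo / 4 - 2 * K + K * K / one + K * K * K / (3 * one * one)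

/-- A lower bound for the weighted slice bound. -/
def ellI (K t : ℤ) : ℤ :=
  min (sqLo (t * one))
    (min (K * t / piHi + arcI K) (2 * K + 2 * sqLo (omegaI K * ((piLo - t) * one / piLo))))

/-- A lower bound for the plain slice bound. -/
def plainI (t : ℤ) : ℤ := min (sqLo (t * one)) (min one (sqLo ((piLo - t) * one)))

/-- The speed, rounded up. -/
def speed (P W t : ℤ) : ℤ := cdiv (P * t) one + W

/-- The vertical part. -/
def vert (l x : ℤ) : ℤ := sqLo ((l * l - x * x) * one * one / (l * l))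

/-- Four numbers, one for each corner of a box. -/
structure Quad where
  a00 : ℤ
  a10 : ℤ
  a01 : ℤ
  a11 : ℤ

/-- A box: ranges of `p` and `H`, the slack `κ`, the bounds on `x + y` at its two ends, the
interval and its two extensions, and the numbers of nodes. -/
structure Box where
  p0 : ℤ
  p1 : ℤ
  w0 : ℤ
  w1 : ℤ
  kap : ℤ
  s0 : ℤ
  s1 : ℤ
  T : ℤ
  A : ℤ
  B : ℤ
  n1 : ℕ
  n2 : ℕ
  n3 : ℕ

/-- The smaller slack. -/
def Box.kap0 (b : Box) : ℤ := b.kap * b.p0 / b.p1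

/-- The weight of one cell. -/
def Box.weight (bx : Box) (a b : ℤ) : ℤ :=
  let xa := speed bx.p1 bx.w1 a
  let xb := speed bx.p1 bx.w1 b
  let ya := speed bx.p0 bx.w1 a
  let yb := speed bx.p0 bx.w1 b
  let f := fun K : ℤ => min (min (one / 4) (bx.kap * ellI K a / xa))
    (min (bx.kap * ellI K b / xb) (min (bx.kap0 * ellI K a / ya) (bx.kap0 * ellI K b / yb)))
  f (f 0)

/-- The value of one cell at one corner. -/
def cornerVal (P W kap a b K la lb : ℤ) : Option ℤ :=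
  let xa := speed P W a
  let xb := speed P W b
  if xa ≤ la ∧ xb ≤ lb ∧ xa < plainI a ∧ xb < plainI b ∧ K * xa ≤ kap * la ∧ K * xb ≤ kap * lb then
    let ba := vert la xa
    let bb := vert lb xb
    some ((b - a) * (3 * (ba + bb) + min 0 ((lb - la) * (bb - ba)) / min la lb))
  else none

/-- The values of one cell. -/
def Box.cell (bx : Box) (a b : ℤ) : Option Quad :=
  let K := bx.weight a b
  let la := ellI K a
  let lb := ellI K b
  if a < b ∧ b ≤ piLo ∧ 0 ≤ K ∧ 2 * K ≤ one ∧ 0 < la ∧ 0 < lb then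
    match cornerVal bx.p0 bx.w0 bx.kap0 a b K la lb, cornerVal bx.p1 bx.w0 bx.kap a b K la lb,
      cornerVal bx.p0 bx.w1 bx.kap0 a b K la lb, cornerVal bx.p1 bx.w1 bx.kap a b K la lb with
    | some v, some x, some y, some u => some ⟨v, x, y, u⟩
    | _, _, _, _ => none
  else none

/-- The sum over consecutive nodes, and the last node. -/
def Box.cells (bx : Box) : ℤ → List ℤ → Option (ℤ × Quad)
  | a, [] => some (a, ⟨0, 0, 0, 0⟩)
  | a, b :: l =>
    match bx.cell a b, bx.cells b l with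
    | some v, some (e, s) =>
      some (e, ⟨v.a00 + s.a00, v.a10 + s.a10, v.a01 + s.a01, v.a11 + s.a11⟩)
    | _, _ => none

/-- The first node. -/
def Box.start (bx : Box) : ℤ :=
  max (max (one / 40000) (2 * bx.w1 * bx.w1 / one)) (if bx.p1 ≤ 36000000 then 0 else 6250)

/-- The nodes after the first one. -/
def Box.nodes (bx : Box) : List ℤ :=
  let st := bx.start
  let m := piLo - one
  ((List.range bx.n1).map fun i : ℕ =>
      one * ((i : ℤ) + 1) * ((i : ℤ) + 1) / ((bx.n1 : ℤ) * bx.n1)).filter (fun x => st < x) ++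
    ((List.range bx.n2).map fun i : ℕ => one + (m - one) * ((i : ℤ) + 1) / (bx.n2 : ℤ)) ++
    ((List.range bx.n3).map fun i : ℕ => bx.T -
      (bx.T - m) * ((bx.n3 : ℤ) - i - 1) * ((bx.n3 : ℤ) - i - 1) / ((bx.n3 : ℤ) * bx.n3))

/-- The rounded budget at one corner. -/
def Box.budget (bx : Box) (P W S kap : ℤ) : ℤ :=
  6 * (piHi * (one - P - W) + kap * S
    + cdiv ((bx.kap - bx.kap0) * (bx.s0 - bx.s1)) 4)

/-- The extension beyond the last node. -/
def Box.tail (bx : Box) : Option ℤ :=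
  let e := bx.T + bx.A + bx.B
  let sl := cdiv ((bx.p1 - bx.p0) * bx.A) (4 * one)
  let c00 := speed bx.p0 bx.w0 e + sl
  let c10 := speed bx.p1 bx.w0 (bx.T + bx.B) + sl
  let c01 := speed bx.p0 bx.w1 (bx.T + bx.A) + sl
  let c11 := speed bx.p1 bx.w1 bx.T + sl
  let cm := max (max c00 c10) (max c01 c11)
  let f := fun K : ℤ => min (one / 4) (bx.kap0 * ellI K e / cm)
  let K := f (f 0)
  let l := min (ellI K bx.T) (ellI K e)
  if c00 < plainI e ∧ c10 < plainI (bx.T + bx.B) ∧ c01 < plainI (bx.T + bx.A) ∧ c11 < plainI bx.T ∧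
      0 ≤ K ∧ 2 * K ≤ one ∧ cm ≤ l ∧ K * cm ≤ bx.kap0 * l ∧ 0 ≤ bx.A ∧ 0 ≤ bx.B ∧ e ≤ piLo then
    some (vert l cm)
  else none

/-- The check of a box. -/
def Box.check (bx : Box) : Bool :=
  match bx.cells bx.start bx.nodes, bx.tail with
  | some (e, s), some bt =>
    decide (0 < bx.p0 ∧ bx.p0 < bx.p1 ∧ 2 * bx.p1 ≤ one ∧ 0 ≤ bx.w0 ∧ bx.w0 ≤ bx.w1 ∧
      4 * bx.w1 ≤ one ∧ bx.p1 + bx.w1 ≤ one ∧ 0 ≤ bx.kap0 ∧ bx.kap0 ≤ bx.kap ∧ bx.s1 ≤ bx.s0 ∧
      4 * bx.start ≤ one ∧ 0 ≤ bx.start ∧ bx.nodes ≠ [] ∧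
      speed bx.p1 bx.w1 bx.start < plainI bx.start ∧ one ≤ bx.T ∧ e = bx.T ∧
      bx.budget bx.p0 bx.w0 bx.s0 bx.kap0 < s.a00 + 6 * (bx.A + bx.B) * bt ∧
      bx.budget bx.p1 bx.w0 bx.s1 bx.kap < s.a10 + 6 * bx.B * bt ∧
      bx.budget bx.p0 bx.w1 bx.s0 bx.kap0 < s.a01 + 6 * bx.A * bt ∧
      bx.budget bx.p1 bx.w1 bx.s1 bx.kap < s.a11)
  | _, _ => false

lemma cast_one : ((one : ℤ) : ℝ) = 100000000 := by norm_num [one]

lemma one_pos' : (0 : ℝ) < (one : ℤ) := by norm_num [cast_one]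

lemma div_le_real {a b : ℤ} (hb : 0 < b) : ((a / b : ℤ) : ℝ) ≤ (a : ℝ) / b := by
  rw [le_div_iff₀ (by exact_mod_cast hb)]
  exact_mod_cast Int.ediv_mul_le a hb.ne'

lemma le_cdiv {a b : ℤ} (hb : 0 < b) : (a : ℝ) / b ≤ (cdiv a b : ℤ) := by
  have h := div_le_real (a := -a) hb
  rw [cdiv]
  push_cast at h ⊢
  rw [neg_div] at h
  linarith

lemma piLo_le : ((piLo : ℤ) : ℝ) / (one : ℤ) ≤ Real.pi := by
  have := Real.pi_gt_d20
  norm_num [piLo, one]
  linarith

lemma le_piHi : Real.pi ≤ ((piHi : ℤ) : ℝ) / (one : ℤ) := by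
  have := Real.pi_lt_d20
  norm_num [piHi, one]
  linarith

lemma sqLo_le (n : ℤ) : ((sqLo n : ℤ) : ℝ) ≤ Real.sqrt n := by
  simp only [sqLo]
  split_ifs with h
  · refine Real.le_sqrt_of_sq_le ?_
    have := h.2
    rw [sq]
    exact_mod_cast this
  · simp

lemma sqLo_nonneg (n : ℤ) : 0 ≤ sqLo n := by
  simp only [sqLo]
  split_ifs with h
  · exact h.1
  · exact le_rfl

/-- `sqLo` of a number in units `one²` gives a square root in units `one`. -/
lemma sqLo_div_le {n : ℤ} {x : ℝ} (h : (n : ℝ) ≤ x * ((one : ℤ) : ℝ) ^ 2) :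
    ((sqLo n : ℤ) : ℝ) / (one : ℤ) ≤ Real.sqrt x := by
  rw [div_le_iff₀ one_pos']
  calc ((sqLo n : ℤ) : ℝ) ≤ Real.sqrt n := sqLo_le n
    _ ≤ Real.sqrt (x * ((one : ℤ) : ℝ) ^ 2) := Real.sqrt_le_sqrt h
    _ = _ := by rw [Real.sqrt_mul' _ (sq_nonneg _), Real.sqrt_sq one_pos'.le]

lemma plainI_le {t : ℤ} : ((plainI t : ℤ) : ℝ) / (one : ℤ) ≤ plainW ((t : ℝ) / (one : ℤ)) := by
  have hD := one_pos'
  refine le_min ?_ (le_min ?_ ?_)
  · refine le_trans (div_le_div_of_nonneg_right (by exact_mod_cast min_le_left _ _) hD.le)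
      (sqLo_div_le (le_of_eq ?_))
    push_cast; field_simp
  · rw [div_le_one hD]
    exact_mod_cast (min_le_right _ _).trans (min_le_left _ _)
  · refine le_trans (div_le_div_of_nonneg_right
      (by exact_mod_cast (min_le_right _ _).trans (min_le_right _ _)) hD.le) (sqLo_div_le ?_)
    have h := piLo_le
    rw [div_le_iff₀ hD] at h
    push_cast
    rw [sub_mul, sub_mul, div_mul_eq_mul_div,
      show (t : ℝ) * ((one : ℤ) : ℝ) ^ 2 / (one : ℤ) = t * (one : ℤ) by field_simp]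
    nlinarith

lemma arcI_le {K : ℤ} (h0 : 0 ≤ K) (h1 : 2 * K ≤ one) :
    ((arcI K : ℤ) : ℝ) / (one : ℤ) ≤ Planar.arc ((K : ℝ) / (one : ℤ)) := by
  have hk0 : (0 : ℝ) ≤ (K : ℝ) / (one : ℤ) := div_nonneg (by exact_mod_cast h0) one_pos'.le
  have hk1 : (K : ℝ) / (one : ℤ) ≤ 1 / 2 := by
    rw [div_le_div_iff₀ one_pos' two_pos, one_mul]
    exact_mod_cast (by omega : K * 2 ≤ one)
  refine le_trans ?_ (Planar.arc_bounds hk0 hk1).1
  have h := div_le_real (a := 840 * one ^ 6 - 140 * K ^ 2 * one ^ 4 - 21 * K ^ 4 * one ^ 2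
    - 10 * K ^ 6) (b := 840 * one ^ 5) (by norm_num [one])
  rw [← arcI] at h
  refine (div_le_div_of_nonneg_right h one_pos'.le).trans (le_of_eq ?_)
  push_cast
  rw [cast_one]
  ring

lemma omegaI_le {K : ℤ} (h0 : 0 ≤ K) (h1 : 2 * K ≤ one) :
    ((omegaI K : ℤ) : ℝ) / (one : ℤ) ≤ Planar.omega ((K : ℝ) / (one : ℤ)) := by
  have hk0 : (0 : ℝ) ≤ (K : ℝ) / (one : ℤ) := div_nonneg (by exact_mod_cast h0) one_pos'.le
  have hk1 : (K : ℝ) / (one : ℤ) ≤ 1 / 2 := by
    rw [div_le_div_iff₀ one_pos' two_pos, one_mul]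
    exact_mod_cast (by omega : K * 2 ≤ one)
  refine le_trans ?_ (Planar.omega_lower hk0 hk1)
  have a := div_le_real (a := piLo) (b := 4) (by norm_num)
  have b := div_le_real (a := K * K) (b := one) (by norm_num [one])
  have c := div_le_real (a := K * K * K) (b := 3 * one * one) (by norm_num [one])
  have p := piLo_le
  rw [div_le_iff₀ one_pos'] at p
  rw [omegaI, div_le_iff₀ one_pos']
  push_cast at a b c ⊢
  set k := (K : ℝ) / (one : ℤ) with hk
  have eK : (K : ℝ) = k * (one : ℤ) := (div_mul_cancel₀ _ one_pos'.ne').symm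
  have e2 : (K : ℝ) * K / (one : ℤ) = k ^ 2 * (one : ℤ) := by rw [hk]; field_simp
  have e3 : (K : ℝ) * K * K / (3 * (one : ℤ) * (one : ℤ)) = k ^ 3 / 3 * (one : ℤ) := by
    rw [hk]; field_simp
  have h5 : 0 ≤ (k ^ 5 / 20 + k ^ 7 / 56) * ((one : ℤ) : ℝ) :=
    mul_nonneg (by positivity) one_pos'.le
  linarith

lemma ellI_le {K t : ℤ} (h0 : 0 ≤ K) (h1 : 2 * K ≤ one) (ht0 : 0 ≤ t) (ht : t ≤ piLo) :
    ((ellI K t : ℤ) : ℝ) / (one : ℤ) ≤
      weightW ((K : ℝ) / (one : ℤ)) ((t : ℝ) / (one : ℤ) / Real.pi) := by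
  have hD := one_pos'
  have hπ := Real.pi_pos
  have hk0 : (0 : ℝ) ≤ (K : ℝ) / (one : ℤ) := div_nonneg (by exact_mod_cast h0) hD.le
  have hk1 : (K : ℝ) / (one : ℤ) ≤ 1 / 2 := by
    rw [div_le_div_iff₀ one_pos' two_pos, one_mul]
    exact_mod_cast (by omega : K * 2 ≤ one)
  have htr : (0 : ℝ) ≤ t := by exact_mod_cast ht0
  have hKr : (0 : ℝ) ≤ K := by exact_mod_cast h0
  refine le_min ?_ (le_min ?_ ?_)
  · refine le_trans (div_le_div_of_nonneg_right (by exact_mod_cast min_le_left _ _) hD.le)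
      (sqLo_div_le (le_of_eq ?_))
    push_cast; field_simp
  · refine le_trans (div_le_div_of_nonneg_right
      (Int.cast_le.2 ((min_le_right _ _).trans (min_le_left _ _))) hD.le) ?_
    push_cast
    rw [add_div]
    refine add_le_add ?_ (arcI_le h0 h1)
    refine (div_le_div_of_nonneg_right (div_le_real (by norm_num [piHi])) hD.le).trans ?_
    push_cast
    have hp := le_piHi
    rw [le_div_iff₀ hD] at hp
    rw [show (K : ℝ) / (one : ℤ) * ((t : ℝ) / (one : ℤ) / Real.pi)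
      = (K : ℝ) * t / (Real.pi * (one : ℤ) * (one : ℤ)) by field_simp, div_div]
    exact div_le_div_of_nonneg_left (mul_nonneg hKr htr) (by positivity)
      (mul_le_mul_of_nonneg_right hp hD.le)
  · refine le_trans (div_le_div_of_nonneg_right
      (Int.cast_le.2 ((min_le_right _ _).trans (min_le_right _ _))) hD.le) ?_
    push_cast
    rw [add_div, mul_div_assoc, mul_div_assoc]
    refine add_le_add le_rfl (mul_le_mul_of_nonneg_left (sqLo_div_le ?_) zero_le_two)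
    set Q := (piLo - t) * one / piLo with hQ
    have hQ0 : (0 : ℤ) ≤ Q :=
      Int.ediv_nonneg (mul_nonneg (by omega) (by norm_num [one])) (by norm_num [piLo])
    have hw : 0 ≤ Planar.omega ((K : ℝ) / (one : ℤ)) := Planar.omega_nonneg hk0 (by nlinarith)
    have q := div_le_real (a := (piLo - t) * one) (b := piLo) (by norm_num [piLo])
    rw [← hQ] at q
    push_cast at q
    have hp := piLo_le
    have hP : (0 : ℝ) < (piLo : ℤ) := by norm_num [piLo]
    have q2 : (Q : ℝ) ≤ (1 - (t : ℝ) / (one : ℤ) / Real.pi) * (one : ℤ) := by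
      refine q.trans ?_
      rw [mul_div_right_comm, sub_div, div_self hP.ne']
      refine mul_le_mul_of_nonneg_right (sub_le_sub_left ?_ 1) hD.le
      rw [div_div]
      exact div_le_div_of_nonneg_left htr hP (by
        rw [div_le_iff₀ hD] at hp; linarith [mul_comm Real.pi ((one : ℤ) : ℝ)])
    have o := omegaI_le h0 h1
    rw [div_le_iff₀ hD] at o
    push_cast
    calc (omegaI K : ℝ) * Q ≤ Planar.omega ((K : ℝ) / (one : ℤ)) * (one : ℤ) * Q :=
          mul_le_mul_of_nonneg_right o (by exact_mod_cast hQ0)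
      _ ≤ Planar.omega ((K : ℝ) / (one : ℤ)) * (one : ℤ) *
            ((1 - (t : ℝ) / (one : ℤ) / Real.pi) * (one : ℤ)) :=
          mul_le_mul_of_nonneg_left q2 (mul_nonneg hw hD.le)
      _ = _ := by ring

lemma vert_spec {l x : ℤ} (hl : 0 < l) (hx : 0 ≤ x) (hxl : x ≤ l) :
    0 ≤ ((vert l x : ℤ) : ℝ) / (one : ℤ) ∧ ((vert l x : ℤ) : ℝ) / (one : ℤ) ≤ 1 ∧
      (((vert l x : ℤ) : ℝ) / (one : ℤ) * ((l : ℝ) / (one : ℤ))) ^ 2 + ((x : ℝ) / (one : ℤ)) ^ 2
        ≤ ((l : ℝ) / (one : ℤ)) ^ 2 := by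
  have hD := one_pos'
  have h0 : (0 : ℝ) ≤ (vert l x : ℤ) := by exact_mod_cast sqLo_nonneg _
  have hlr : (0 : ℝ) < l := by exact_mod_cast hl
  have hxr : (0 : ℝ) ≤ x := by exact_mod_cast hx
  have hxlr : (x : ℝ) ≤ l := by exact_mod_cast hxl
  set y := ((l : ℝ) ^ 2 - x ^ 2) / l ^ 2 with hy
  have hy0 : 0 ≤ y := div_nonneg (by nlinarith) (sq_nonneg _)
  have hle : ((vert l x : ℤ) : ℝ) / (one : ℤ) ≤ Real.sqrt y := by
    refine sqLo_div_le ((div_le_real (mul_pos hl hl)).trans (le_of_eq ?_))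
    rw [hy]; push_cast; field_simp
  have hy1 : y ≤ 1 := by rw [hy, div_le_one (by positivity)]; nlinarith
  refine ⟨div_nonneg h0 hD.le, hle.trans (Real.sqrt_le_one.2 hy1), ?_⟩
  have h2 := pow_le_pow_left₀ (div_nonneg h0 hD.le) hle 2
  rw [Real.sq_sqrt hy0] at h2
  have hyl : y * ((l : ℝ) / (one : ℤ)) ^ 2 + ((x : ℝ) / (one : ℤ)) ^ 2
      = ((l : ℝ) / (one : ℤ)) ^ 2 := by rw [hy]; field_simp; ring
  rw [mul_pow]
  nlinarith [mul_le_mul_of_nonneg_right h2 (sq_nonneg ((l : ℝ) / (one : ℤ)))]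

end Vale.Agent.P232.Kappa
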