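import Vale.Agent.P232.Endpoint.Assembly
import Vale.Agent.P232.Endpoint.Kappa

/-!
The certificate of the middle case in the form used by the assembly.
-/

namespace Vale.Agent.P232.Endpoint

theorem kappaCert : KappaCert := by
  intro p H x S hp hp' hH hH' _ hx hS
  obtain ⟨κ, T, k, α, β, ρ, hκ, hT, hTπ, hk, hα, hβ, hρ, hroot, hslot, hz, hI⟩ :=
    Kappa.kappa_cert hp hp' hH hH' hx hS
  exact ⟨κ, T, k, α, β, ρ, hκ, hT, hTπ, hk, hα, hβ, hρ, hroot, hslot, fun t ht => (hz t ht).2.1, hI⟩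

end Vale.Agent.P232.Endpoint
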