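import Vale.Agent.P232.Endpoint.KappaCheck

/-!
Soundness of the check of one box of the weighted certificate.
-/

open Set

namespace Vale.Agent.P232.Kappa

/-- The bilinear combination of four corner values. -/
def mix (l m a b c d : ℝ) : ℝ := (1 - m) * ((1 - l) * a + l * b) + m * ((1 - l) * c + l * d)

variable {l m : ℝ}

lemma mix_le (hl : l ∈ Icc (0 : ℝ) 1) (hm : m ∈ Icc (0 : ℝ) 1) {a b c d a' b' c' d' : ℝ}
    (ha : a ≤ a') (hb : b ≤ b') (hc : c ≤ c') (hd : d ≤ d') :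
    mix l m a b c d ≤ mix l m a' b' c' d' :=
  combo_le hm (combo_le hl ha hb) (combo_le hl hc hd)

lemma mix_lt (hl : l ∈ Icc (0 : ℝ) 1) (hm : m ∈ Icc (0 : ℝ) 1) {a b c d a' b' c' d' : ℝ}
    (ha : a < a') (hb : b < b') (hc : c < c') (hd : d < d') :
    mix l m a b c d < mix l m a' b' c' d' :=
  combo_lt hm (combo_lt hl ha hb) (combo_lt hl hc hd)

lemma mix_const (x : ℝ) : mix l m x x x x = x := by unfold mix; ring

lemma mix_cauchy (hl : l ∈ Icc (0 : ℝ) 1) (hm : m ∈ Icc (0 : ℝ) 1) {L a b c d x y u v : ℝ}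
    (hL : 0 ≤ L) (ha : a ^ 2 + x ^ 2 ≤ L ^ 2) (hb : b ^ 2 + y ^ 2 ≤ L ^ 2)
    (hc : c ^ 2 + u ^ 2 ≤ L ^ 2) (hd : d ^ 2 + v ^ 2 ≤ L ^ 2) :
    mix l m a b c d ^ 2 + mix l m x y u v ^ 2 ≤ L ^ 2 := by
  have e : ∀ s : ℝ, (1 - s) * L + s * L = L := fun s => by ring
  have h1 := cauchy_combo hl ha hb hL hL
  have h2 := cauchy_combo hl hc hd hL hL
  rw [e] at h1 h2
  have h3 := cauchy_combo hm h1 h2 hL hL
  rwa [e] at h3

/-- The value of `p` at a point of the box. -/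
noncomputable def Box.pp (bx : Box) (l : ℝ) : ℝ :=
  ((1 - l) * bx.p0 + l * bx.p1) / (one : ℤ)

/-- The value of `H` at a point of the box. -/
noncomputable def Box.ww (bx : Box) (m : ℝ) : ℝ :=
  ((1 - m) * bx.w0 + m * bx.w1) / (one : ℤ)

/-- The value of the slack at a point of the box. -/
noncomputable def Box.kk (bx : Box) (l : ℝ) : ℝ :=
  ((1 - l) * bx.kap0 + l * bx.kap) / (one : ℤ)

lemma speed_ge {P W t : ℤ} :
    (P : ℝ) / (one : ℤ) * ((t : ℝ) / (one : ℤ)) + (W : ℝ) / (one : ℤ)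
      ≤ (speed P W t : ℤ) / (one : ℤ) := by
  have h := le_cdiv (a := P * t) (b := one) (by norm_num [one])
  push_cast at h
  rw [speed, Int.cast_add, add_div]
  refine add_le_add ?_ le_rfl
  refine le_trans (le_of_eq ?_) (div_le_div_of_nonneg_right h one_pos'.le)
  field_simp

lemma speed_nonneg {P W t : ℤ} (hP : 0 ≤ P) (hW : 0 ≤ W) (ht : 0 ≤ t) : 0 ≤ speed P W t := by
  have h := le_cdiv (a := P * t) (b := one) (by norm_num [one])
  have : (0 : ℝ) ≤ (cdiv (P * t) one : ℤ) := le_trans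
    (div_nonneg (by exact_mod_cast mul_nonneg hP ht) one_pos'.le) h
  have : (0 : ℤ) ≤ cdiv (P * t) one := by exact_mod_cast this
  unfold speed
  omega

lemma cornerVal_spec {P W kap a b K la lb v : ℤ} (hP : 0 ≤ P) (hW : 0 ≤ W) (ha : 0 ≤ a)
    (hab : a < b) (hla : 0 < la) (hlb : 0 < lb) (h : cornerVal P W kap a b K la lb = some v) :
    ∃ Ba Bb M xa xb : ℝ, 0 ≤ Ba ∧ Ba ≤ 1 ∧ 0 ≤ Bb ∧ Bb ≤ 1 ∧
      (P : ℝ) / (one : ℤ) * ((a : ℝ) / (one : ℤ)) + (W : ℝ) / (one : ℤ) ≤ xa ∧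
      (P : ℝ) / (one : ℤ) * ((b : ℝ) / (one : ℤ)) + (W : ℝ) / (one : ℤ) ≤ xb ∧
      xa < plainW ((a : ℝ) / (one : ℤ)) ∧ xb < plainW ((b : ℝ) / (one : ℤ)) ∧
      (K : ℝ) / (one : ℤ) * xa ≤ (kap : ℝ) / (one : ℤ) * ((la : ℝ) / (one : ℤ)) ∧
      (K : ℝ) / (one : ℤ) * xb ≤ (kap : ℝ) / (one : ℤ) * ((lb : ℝ) / (one : ℤ)) ∧
      (Ba * ((la : ℝ) / (one : ℤ))) ^ 2 + xa ^ 2 ≤ ((la : ℝ) / (one : ℤ)) ^ 2 ∧
      (Bb * ((lb : ℝ) / (one : ℤ))) ^ 2 + xb ^ 2 ≤ ((lb : ℝ) / (one : ℤ)) ^ 2 ∧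
      M ≤ 0 ∧ M ≤ ((lb : ℝ) / (one : ℤ) - (la : ℝ) / (one : ℤ)) * (Bb - Ba) ∧
      (v : ℝ) / (6 * ((one : ℤ) : ℝ) ^ 2) ≤ ((b : ℝ) / (one : ℤ) - (a : ℝ) / (one : ℤ))
        * ((Ba + Bb) / 2 + M / min ((la : ℝ) / (one : ℤ)) ((lb : ℝ) / (one : ℤ)) / 6) := by
  simp only [cornerVal] at h
  split at h
  case isFalse => simp at h
  case isTrue hc =>
    obtain ⟨h1, h2, h3, h4, h5, h6⟩ := hc
    have hv := Option.some.inj h
    have hD := one_pos'
    have xa0 := speed_nonneg hP hW ha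
    have xb0 := speed_nonneg hP hW (ha.trans hab.le)
    obtain ⟨a0, a1, a2⟩ := vert_spec hla xa0 h1
    obtain ⟨b0, b1, b2⟩ := vert_spec hlb xb0 h2
    set ba := vert la (speed P W a)
    set bb := vert lb (speed P W b)
    refine ⟨_, _, ((min 0 ((lb - la) * (bb - ba)) : ℤ) : ℝ) / ((one : ℤ) : ℝ) ^ 2, _, _, a0, a1,
      b0, b1, speed_ge, speed_ge, ?_, ?_, ?_, ?_, a2, b2, ?_, ?_, ?_⟩
    · exact (div_lt_div_of_pos_right (by exact_mod_cast h3) hD).trans_le plainI_le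
    · exact (div_lt_div_of_pos_right (by exact_mod_cast h4) hD).trans_le plainI_le
    · rw [div_mul_div_comm, div_mul_div_comm]
      exact div_le_div_of_nonneg_right (by exact_mod_cast h5) (by positivity)
    · rw [div_mul_div_comm, div_mul_div_comm]
      exact div_le_div_of_nonneg_right (by exact_mod_cast h6) (by positivity)
    · exact div_nonpos_of_nonpos_of_nonneg (by exact_mod_cast min_le_left _ _) (sq_nonneg _)
    · rw [← sub_div, ← sub_div, div_mul_div_comm, sq]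
      exact div_le_div_of_nonneg_right (by exact_mod_cast min_le_right _ _) (by positivity)
    · have q := div_le_real (a := min 0 ((lb - la) * (bb - ba))) (b := min la lb) (lt_min hla hlb)
      have hmin : min ((la : ℝ) / (one : ℤ)) ((lb : ℝ) / (one : ℤ))
          = ((min la lb : ℤ) : ℝ) / (one : ℤ) := by
        rw [Int.cast_min, min_div_div_right hD.le]
      have hm : (0 : ℝ) < ((min la lb : ℤ) : ℝ) := by exact_mod_cast lt_min hla hlb
      have hba : (0 : ℝ) ≤ (b : ℝ) - a := by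
        rw [sub_nonneg]; exact_mod_cast hab.le
      rw [← hv, hmin]
      push_cast at q hm ⊢
      calc ((b : ℝ) - a) * (3 * ((ba : ℝ) + bb) + _) / (6 * ((one : ℤ) : ℝ) ^ 2)
          ≤ ((b : ℝ) - a) * (3 * ((ba : ℝ) + bb) + _) / (6 * ((one : ℤ) : ℝ) ^ 2) :=
            div_le_div_of_nonneg_right
              (mul_le_mul_of_nonneg_left (add_le_add le_rfl q) hba) (by positivity)
        _ = _ := by field_simp; ring

lemma cell_sound {bx : Box} {a b : ℤ} {v : Quad} (hl : l ∈ Icc (0 : ℝ) 1)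
    (hm : m ∈ Icc (0 : ℝ) 1) (hp0 : 0 ≤ bx.p0) (hp1 : bx.p0 ≤ bx.p1) (hw0 : 0 ≤ bx.w0)
    (hw1 : bx.w0 ≤ bx.w1) (hk0 : 0 ≤ bx.kap0) (hk1 : bx.kap0 ≤ bx.kap) (ha : 0 ≤ a)
    (h : bx.cell a b = some v) :
    a < b ∧ b ≤ piLo ∧ Good (bx.pp l) (bx.ww m) (bx.kk l)
      ((a : ℝ) / (one : ℤ)) ((b : ℝ) / (one : ℤ))
      (mix l m v.a00 v.a10 v.a01 v.a11 / (6 * ((one : ℤ) : ℝ) ^ 2)) := by
  simp only [Box.cell] at h
  split at h
  case isFalse => simp at h
  case isTrue hc =>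
    obtain ⟨hab, hb, hK0, hK1, hla, hlb⟩ := hc
    set K := bx.weight a b
    set la := ellI K a with hla'
    set lb := ellI K b with hlb'
    split at h
    case h_2 => simp at h
    case h_1 v0 v1 v2 v3 e0 e1 e2 e3 =>
      have hv := Option.some.inj h
      subst hv
      obtain ⟨A0, B0, M0, x0, y0, p00, p01, p02, p03, p04, p05, p06, p07, p08, p09, p0a, p0b, p0c,
        p0d, p0e⟩ := cornerVal_spec hp0 hw0 ha hab hla hlb e0
      obtain ⟨A1, B1, M1, x1, y1, p10, p11, p12, p13, p14, p15, p16, p17, p18, p19, p1a, p1b, p1c,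
        p1d, p1e⟩ := cornerVal_spec (hp0.trans hp1) hw0 ha hab hla hlb e1
      obtain ⟨A2, B2, M2, x2, y2, p20, p21, p22, p23, p24, p25, p26, p27, p28, p29, p2a, p2b, p2c,
        p2d, p2e⟩ := cornerVal_spec hp0 (hw0.trans hw1) ha hab hla hlb e2
      obtain ⟨A3, B3, M3, x3, y3, p30, p31, p32, p33, p34, p35, p36, p37, p38, p39, p3a, p3b, p3c,
        p3d, p3e⟩ := cornerVal_spec (hp0.trans hp1) (hw0.trans hw1) ha hab hla hlb e3
      refine ⟨hab, hb, ?_⟩
      have hD := one_pos'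
      have hb' : (b : ℝ) / (one : ℤ) ≤ Real.pi :=
        (div_le_div_of_nonneg_right (by exact_mod_cast hb) hD.le).trans piLo_le
      have hp : 0 ≤ bx.pp l := div_nonneg (add_nonneg
        (mul_nonneg (sub_nonneg.2 hl.2) (by exact_mod_cast hp0))
        (mul_nonneg hl.1 (by exact_mod_cast hp0.trans hp1))) hD.le
      have hw : 0 ≤ bx.ww m := div_nonneg (add_nonneg
        (mul_nonneg (sub_nonneg.2 hm.2) (by exact_mod_cast hw0))
        (mul_nonneg hm.1 (by exact_mod_cast hw0.trans hw1))) hD.le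
      have hκ : 0 ≤ bx.kk l := div_nonneg (add_nonneg
        (mul_nonneg (sub_nonneg.2 hl.2) (by exact_mod_cast hk0))
        (mul_nonneg hl.1 (by exact_mod_cast hk0.trans hk1))) hD.le
      have hc : ∀ t : ℝ, bx.pp l * t + bx.ww m = mix l m
          ((bx.p0 : ℝ) / (one : ℤ) * t + (bx.w0 : ℝ) / (one : ℤ))
          ((bx.p1 : ℝ) / (one : ℤ) * t + (bx.w0 : ℝ) / (one : ℤ))
          ((bx.p0 : ℝ) / (one : ℤ) * t + (bx.w1 : ℝ) / (one : ℤ))
          ((bx.p1 : ℝ) / (one : ℤ) * t + (bx.w1 : ℝ) / (one : ℤ)) := fun t => by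
        unfold mix Box.pp Box.ww; ring
      have hca := (hc ((a : ℝ) / (one : ℤ))).trans_le (mix_le hl hm p04 p14 p24 p34)
      have hcb := (hc ((b : ℝ) / (one : ℤ))).trans_le (mix_le hl hm p05 p15 p25 p35)
      have hk : (0 : ℝ) ≤ (K : ℝ) / (one : ℤ) := div_nonneg (by exact_mod_cast hK0) hD.le
      have hk2 : (K : ℝ) / (one : ℤ) ≤ 1 / 2 := by
        rw [div_le_div_iff₀ hD two_pos, one_mul]; exact_mod_cast (by omega : K * 2 ≤ one)
      have ha' : (0 : ℝ) ≤ (a : ℝ) / (one : ℤ) := div_nonneg (by exact_mod_cast ha) hD.le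
      have hla0 : (0 : ℝ) < (la : ℝ) / (one : ℤ) := div_pos (by exact_mod_cast hla) hD
      have hlb0 : (0 : ℝ) < (lb : ℝ) / (one : ℤ) := div_pos (by exact_mod_cast hlb) hD
      have hsa : ∀ {A X L : ℝ}, 0 ≤ X → X ≤ A → A ^ 2 ≤ L → X ^ 2 ≤ L := fun h0 h1 h2 =>
        (pow_le_pow_left₀ h0 h1 2).trans h2
      have hg := good_cell (p := bx.pp l) (H := bx.ww m) (κ := bx.kk l)
        (k := (K : ℝ) / (one : ℤ)) (la := (la : ℝ) / (one : ℤ)) (lb := (lb : ℝ) / (one : ℤ))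
        (Ba := mix l m A0 A1 A2 A3) (Bb := mix l m B0 B1 B2 B3) (M := mix l m M0 M1 M2 M3)
        hp hw hκ ha' (div_lt_div_of_pos_right (by exact_mod_cast hab) hD) hb' hk hk2
        (ellI_le hK0 hK1 ha (by omega)) (ellI_le hK0 hK1 (by omega) hb) hla0 hlb0
        (hca.trans_lt ((mix_lt hl hm p06 p16 p26 p36).trans_eq (mix_const _)))
        (hcb.trans_lt ((mix_lt hl hm p07 p17 p27 p37).trans_eq (mix_const _)))
        ((mul_le_mul_of_nonneg_left hca hk).trans ((le_of_eq (by unfold mix; ring)).trans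
          ((mix_le hl hm p08 p18 p28 p38).trans_eq (by unfold mix Box.kk; ring))))
        ((mul_le_mul_of_nonneg_left hcb hk).trans ((le_of_eq (by unfold mix; ring)).trans
          ((mix_le hl hm p09 p19 p29 p39).trans_eq (by unfold mix Box.kk; ring))))
        ((mix_const (0 : ℝ)).symm.trans_le (mix_le hl hm p00 p10 p20 p30))
        ((mix_const (0 : ℝ)).symm.trans_le (mix_le hl hm p02 p12 p22 p32))
        ((mix_le hl hm p01 p11 p21 p31).trans_eq (mix_const _))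
        ((mix_le hl hm p03 p13 p23 p33).trans_eq (mix_const _))
        (by
          have h1 := mix_cauchy hl hm hla0.le p0a p1a p2a p3a
          have h2 := pow_le_pow_left₀ (add_nonneg (mul_nonneg hp ha') hw) hca 2
          have e : mix l m A0 A1 A2 A3 * ((la : ℝ) / (one : ℤ)) = mix l m (A0 * ((la : ℝ) / (one : ℤ)))
              (A1 * ((la : ℝ) / (one : ℤ))) (A2 * ((la : ℝ) / (one : ℤ)))
              (A3 * ((la : ℝ) / (one : ℤ))) := by unfold mix; ring
          rw [e]; linarith)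
        (by
          have h1 := mix_cauchy hl hm hlb0.le p0b p1b p2b p3b
          have h2 := pow_le_pow_left₀ (add_nonneg (mul_nonneg hp
            (div_nonneg (by exact_mod_cast (by omega : (0 : ℤ) ≤ b)) hD.le)) hw) hcb 2
          have e : mix l m B0 B1 B2 B3 * ((lb : ℝ) / (one : ℤ)) = mix l m (B0 * ((lb : ℝ) / (one : ℤ)))
              (B1 * ((lb : ℝ) / (one : ℤ))) (B2 * ((lb : ℝ) / (one : ℤ)))
              (B3 * ((lb : ℝ) / (one : ℤ))) := by unfold mix; ring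
          rw [e]; linarith)
        ((mix_le hl hm p0c p1c p2c p3c).trans_eq (mix_const _))
        ((mix_le hl hm p0d p1d p2d p3d).trans_eq (by unfold mix; ring))
      refine hg.mono (le_trans (le_of_eq ?_) ((mix_le hl hm p0e p1e p2e p3e).trans_eq ?_))
      · unfold mix; ring
      · unfold mix; ring

lemma cells_sound {bx : Box} (hl : l ∈ Icc (0 : ℝ) 1) (hm : m ∈ Icc (0 : ℝ) 1) (hp0 : 0 ≤ bx.p0)
    (hp1 : bx.p0 ≤ bx.p1) (hw0 : 0 ≤ bx.w0) (hw1 : bx.w0 ≤ bx.w1) (hk0 : 0 ≤ bx.kap0)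
    (hk1 : bx.kap0 ≤ bx.kap) : ∀ (L : List ℤ) (a e : ℤ) (s : Quad), 0 ≤ a →
    bx.cells a L = some (e, s) → a ≤ e ∧ ∀ a0 V, a0 ≤ (a : ℝ) / (one : ℤ) →
      Good (bx.pp l) (bx.ww m) (bx.kk l) a0 ((a : ℝ) / (one : ℤ)) V →
      Good (bx.pp l) (bx.ww m) (bx.kk l) a0 ((e : ℝ) / (one : ℤ))
        (V + mix l m s.a00 s.a10 s.a01 s.a11 / (6 * ((one : ℤ) : ℝ) ^ 2)) := by
  intro L
  induction L with
  | nil =>
    intro a e s ha h
    simp only [Box.cells, Option.some.injEq, Prod.mk.injEq] at h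
    obtain ⟨rfl, rfl⟩ := h
    refine ⟨le_rfl, fun a0 V _ hV => ?_⟩
    simpa [mix] using hV
  | cons b L ih =>
    intro a e s ha h
    simp only [Box.cells] at h
    split at h
    case h_2 => simp at h
    case h_1 v e' s' hc hr =>
      simp only [Option.some.injEq, Prod.mk.injEq] at h
      obtain ⟨rfl, rfl⟩ := h
      obtain ⟨hab, -, hg⟩ := cell_sound hl hm hp0 hp1 hw0 hw1 hk0 hk1 ha hc
      have hab' : (a : ℝ) / (one : ℤ) ≤ (b : ℝ) / (one : ℤ) :=
        div_le_div_of_nonneg_right (by exact_mod_cast hab.le) one_pos'.le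
      obtain ⟨hbe, hrest⟩ := ih b e' s' (ha.trans hab.le) hr
      refine ⟨hab.le.trans hbe, fun a0 V h0 hV => ?_⟩
      refine (hrest a0 _ (h0.trans hab') (hV.trans h0 hab' hg)).mono (le_of_eq ?_)
      unfold mix
      push_cast
      ring

lemma tail_sound {bx : Box} {bt : ℤ} (hl : l ∈ Icc (0 : ℝ) 1) (hm : m ∈ Icc (0 : ℝ) 1)
    (hp0' : 0 < bx.p0) (hp1 : bx.p0 ≤ bx.p1) (hw0 : 0 ≤ bx.w0) (hw1 : bx.w0 ≤ bx.w1)
    (hk0 : 0 ≤ bx.kap0) (hk1 : bx.kap0 ≤ bx.kap) (hT : one ≤ bx.T)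
    (h : bx.tail = some bt) : ∃ T : ℝ, (bx.T : ℝ) / (one : ℤ) ≤ T ∧ T ≤ Real.pi ∧
      Good (bx.pp l) (bx.ww m) (bx.kk l) ((bx.T : ℝ) / (one : ℤ)) T
        (mix l m (bx.A + bx.B) bx.B bx.A 0 * bt / ((one : ℤ) : ℝ) ^ 2) := by
  simp only [Box.tail] at h
  split at h
  case isFalse => simp at h
  case isTrue hc =>
    obtain ⟨q00, q10, q01, q11, hK0, hK1, hcl, hKc, hA, hB, he⟩ := hc
    have hv := Option.some.inj h
    clear h
    set e := bx.T + bx.A + bx.B with hedef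
    set sl := cdiv ((bx.p1 - bx.p0) * bx.A) (4 * one) with hsldef
    set c00 := speed bx.p0 bx.w0 e + sl
    set c10 := speed bx.p1 bx.w0 (bx.T + bx.B) + sl
    set c01 := speed bx.p0 bx.w1 (bx.T + bx.A) + sl
    set c11 := speed bx.p1 bx.w1 bx.T + sl
    set cm := max (max c00 c10) (max c01 c11)
    set f := fun K : ℤ => min (one / 4) (bx.kap0 * ellI K e / cm)
    set K := f (f 0)
    set L := min (ellI K bx.T) (ellI K e)
    subst hv
    have hD := one_pos'
    have hp0 : 0 ≤ bx.p0 := hp0'.le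
    have hone : (0 : ℤ) < one := by norm_num [one]
    have hTpos : 0 ≤ bx.T := hone.le.trans hT
    have hsl : ((bx.p1 : ℝ) - bx.p0) * bx.A / (4 * (one : ℤ)) ≤ (sl : ℤ) := by
      have := le_cdiv (a := (bx.p1 - bx.p0) * bx.A) (b := 4 * one) (by omega)
      push_cast at this
      exact this
    have hsl0 : (0 : ℝ) ≤ (sl : ℤ) := le_trans (div_nonneg (mul_nonneg
      (sub_nonneg.2 (by exact_mod_cast hp1)) (by exact_mod_cast hA)) (by positivity)) hsl
    set p := bx.pp l with hpdef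
    set H := bx.ww m with hHdef
    have hp : 0 ≤ p := div_nonneg (add_nonneg
      (mul_nonneg (sub_nonneg.2 hl.2) (by exact_mod_cast hp0))
      (mul_nonneg hl.1 (by exact_mod_cast hp0.trans hp1))) hD.le
    have hw : 0 ≤ H := div_nonneg (add_nonneg
      (mul_nonneg (sub_nonneg.2 hm.2) (by exact_mod_cast hw0))
      (mul_nonneg hm.1 (by exact_mod_cast hw0.trans hw1))) hD.le
    set T := mix l m (e : ℝ) ((bx.T + bx.B : ℤ) : ℝ) ((bx.T + bx.A : ℤ) : ℝ) bx.T / (one : ℤ)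
      with hTdef
    have eT : T = (bx.T : ℝ) / (one : ℤ) + mix l m (bx.A + bx.B) bx.B bx.A 0 / (one : ℤ) := by
      rw [hTdef, hedef]; unfold mix; push_cast; ring
    have hTle : (bx.T : ℝ) / (one : ℤ) ≤ T := by
      rw [eT, le_add_iff_nonneg_right]
      refine div_nonneg ((mix_const (0 : ℝ)).symm.trans_le (mix_le hl hm ?_ ?_ ?_ le_rfl)) hD.le
      · exact add_nonneg (by exact_mod_cast hA) (by exact_mod_cast hB)
      · exact_mod_cast hB
      · exact_mod_cast hA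
    have hTe : T ≤ (e : ℝ) / (one : ℤ) := by
      refine div_le_div_of_nonneg_right ((mix_le hl hm le_rfl ?_ ?_ ?_).trans_eq (mix_const _)) hD.le
      all_goals exact_mod_cast (by omega)
    have hepi : (e : ℝ) / (one : ℤ) ≤ Real.pi :=
      (div_le_div_of_nonneg_right (by exact_mod_cast he) hD.le).trans piLo_le
    have hTI : ∀ t : ℤ, 0 ≤ t → t ≤ e → (t : ℝ) / (one : ℤ) ∈ Icc 0 Real.pi := fun t h0 h1 =>
      ⟨div_nonneg (by exact_mod_cast h0) hD.le,
        (div_le_div_of_nonneg_right (by exact_mod_cast h1) hD.le).trans hepi⟩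
    -- the line at the moving end
    have hcT : p * T + H ≤ mix l m ((c00 : ℤ) : ℝ) (c10 : ℤ) (c01 : ℤ) (c11 : ℤ) / (one : ℤ) := by
      have s00 := speed_ge (P := bx.p0) (W := bx.w0) (t := e)
      have s10 := speed_ge (P := bx.p1) (W := bx.w0) (t := bx.T + bx.B)
      have s01 := speed_ge (P := bx.p0) (W := bx.w1) (t := bx.T + bx.A)
      have s11 := speed_ge (P := bx.p1) (W := bx.w1) (t := bx.T)
      have hs := mix_le hl hm s00 s10 s01 s11
      have h4 : l * (1 - l) * ((((bx.p1 : ℝ) - bx.p0) * bx.A) / (one : ℤ)) ≤ (sl : ℤ) := by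
        refine le_trans ?_ hsl
        have : l * (1 - l) ≤ 1 / 4 := by nlinarith [sq_nonneg (l - 1 / 2)]
        refine (mul_le_mul_of_nonneg_right this (div_nonneg (mul_nonneg
          (sub_nonneg.2 (by exact_mod_cast hp1)) (by exact_mod_cast hA)) hD.le)).trans (le_of_eq ?_)
        field_simp
      have h5 := div_le_div_of_nonneg_right h4 hD.le
      have key : p * T + H = mix l m
          ((bx.p0 : ℝ) / (one : ℤ) * ((e : ℝ) / (one : ℤ)) + (bx.w0 : ℝ) / (one : ℤ))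
          ((bx.p1 : ℝ) / (one : ℤ) * (((bx.T + bx.B : ℤ) : ℝ) / (one : ℤ)) + (bx.w0 : ℝ) / (one : ℤ))
          ((bx.p0 : ℝ) / (one : ℤ) * (((bx.T + bx.A : ℤ) : ℝ) / (one : ℤ)) + (bx.w1 : ℝ) / (one : ℤ))
          ((bx.p1 : ℝ) / (one : ℤ) * ((bx.T : ℝ) / (one : ℤ)) + (bx.w1 : ℝ) / (one : ℤ))
          + l * (1 - l) * ((((bx.p1 : ℝ) - bx.p0) * bx.A) / (one : ℤ)) / (one : ℤ) := by
        rw [hpdef, hHdef, eT]; unfold mix Box.pp Box.ww
        rw [hedef]; push_cast; ring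
      rw [key]
      refine (add_le_add hs h5).trans (le_of_eq ?_)
      simp only [c00, c10, c01, c11]
      unfold mix; push_cast; ring
    have hWb : p * T + H < plainW T := by
      refine hcT.trans_lt (lt_of_lt_of_le (div_lt_div_of_pos_right (mix_lt hl hm
        (Int.cast_lt.2 q00) (Int.cast_lt.2 q10) (Int.cast_lt.2 q01) (Int.cast_lt.2 q11)) hD) ?_)
      have i1 := hTI e (by omega) le_rfl
      have i2 := hTI (bx.T + bx.B) (by omega) (by omega)
      have i3 := hTI (bx.T + bx.A) (by omega) (by omega)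
      have i4 := hTI bx.T hTpos (by omega)
      have cv : ∀ {s r : ℝ}, s ∈ Icc 0 Real.pi → r ∈ Icc 0 Real.pi → ∀ {u : ℝ}, u ∈ Icc (0 : ℝ) 1 →
          (1 - u) * s + u * r ∈ Icc 0 Real.pi := fun hs hr u hu =>
        convex_Icc 0 Real.pi hs hr (sub_nonneg.2 hu.2) hu.1 (by ring)
      have w1 := (combo_le hl (plainI_le (t := e)) (plainI_le (t := bx.T + bx.B))).trans
        (plainW_combo i1 i2 hl)
      have w2 := (combo_le hl (plainI_le (t := bx.T + bx.A)) (plainI_le (t := bx.T))).trans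
        (plainW_combo i3 i4 hl)
      have w3 := (combo_le hm w1 w2).trans (plainW_combo (cv i1 i2 hl) (cv i3 i4 hl) hm)
      refine (le_of_eq ?_).trans (w3.trans (le_of_eq (congrArg plainW ?_)))
      · unfold mix; ring
      · rw [hTdef]; unfold mix; ring
    have hC : p * T + H ≤ (cm : ℝ) / (one : ℤ) := by
      refine hcT.trans (div_le_div_of_nonneg_right ((mix_le hl hm ?_ ?_ ?_ ?_).trans_eq
        (mix_const _)) hD.le)
      · exact Int.cast_le.2 ((le_max_left _ _).trans (le_max_left _ _))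
      · exact Int.cast_le.2 ((le_max_right _ _).trans (le_max_left _ _))
      · exact Int.cast_le.2 ((le_max_left _ _).trans (le_max_right _ _))
      · exact Int.cast_le.2 ((le_max_right _ _).trans (le_max_right _ _))
    have hWa : p * ((bx.T : ℝ) / (one : ℤ)) + H < plainW ((bx.T : ℝ) / (one : ℤ)) := by
      have hsp := speed_ge (P := bx.p1) (W := bx.w1) (t := bx.T)
      have h1 : p * ((bx.T : ℝ) / (one : ℤ)) + H ≤
          (bx.p1 : ℝ) / (one : ℤ) * ((bx.T : ℝ) / (one : ℤ)) + (bx.w1 : ℝ) / (one : ℤ) := by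
        refine add_le_add (mul_le_mul_of_nonneg_right (div_le_div_of_nonneg_right ?_ hD.le)
          (hTI bx.T hTpos (by omega)).1) (div_le_div_of_nonneg_right ?_ hD.le)
        · nlinarith [(Int.cast_le (R := ℝ)).2 hp1, hl.1, hl.2]
        · nlinarith [(Int.cast_le (R := ℝ)).2 hw1, hm.1, hm.2]
      refine (h1.trans hsp).trans_lt ((div_lt_div_of_pos_right ?_ hD).trans_le plainI_le)
      have h11 : (c11 : ℝ) < (plainI bx.T : ℝ) := Int.cast_lt.2 q11
      simp only [c11, Int.cast_add] at h11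
      linarith
    have hcm : 0 < cm := by
      have hpos : 0 < p := by
        rw [hpdef, Box.pp]
        refine div_pos ?_ hD
        have h1 : (0 : ℝ) < bx.p0 := Int.cast_pos.2 hp0'
        nlinarith [(Int.cast_le (R := ℝ)).2 hp1, hl.1, hl.2]
      have hT0 : 0 < (bx.T : ℝ) / (one : ℤ) := div_pos (Int.cast_pos.2 (by omega)) hD
      have h1 : 0 < p * T + H :=
        add_pos_of_pos_of_nonneg (mul_pos hpos (hT0.trans_le hTle)) hw
      have h2 := h1.trans_le hC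
      rw [lt_div_iff₀ hD, zero_mul] at h2
      exact_mod_cast h2
    have hLpos : 0 < L := hcm.trans_le hcl
    obtain ⟨b0, b1, b2⟩ := vert_spec hLpos hcm.le hcl
    have hl0 : (0 : ℝ) < (L : ℝ) / (one : ℤ) := div_pos (Int.cast_pos.2 hLpos) hD
    have hlW : (L : ℝ) / (one : ℤ) ≤ weightW ((K : ℝ) / (one : ℤ)) (T / Real.pi) ∧
        (L : ℝ) / (one : ℤ) ≤ weightW ((K : ℝ) / (one : ℤ)) ((bx.T : ℝ) / (one : ℤ) / Real.pi) := by
      have hk : (0 : ℝ) ≤ (K : ℝ) / (one : ℤ) := div_nonneg (Int.cast_nonneg hK0) hD.le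
      have hk2 : (K : ℝ) / (one : ℤ) ≤ 1 / 2 := by
        rw [div_le_div_iff₀ hD two_pos, one_mul]; exact_mod_cast (mul_comm K 2).trans_le hK1
      have g1 : (L : ℝ) / (one : ℤ) ≤
          weightW ((K : ℝ) / (one : ℤ)) ((bx.T : ℝ) / (one : ℤ) / Real.pi) :=
        (div_le_div_of_nonneg_right (Int.cast_le.2 (min_le_left (ellI K bx.T) (ellI K e))) hD.le).trans
          (ellI_le hK0 hK1 hTpos (show bx.T ≤ piLo by omega))
      have g2 : (L : ℝ) / (one : ℤ) ≤
          weightW ((K : ℝ) / (one : ℤ)) ((e : ℝ) / (one : ℤ) / Real.pi) :=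
        (div_le_div_of_nonneg_right (Int.cast_le.2 (min_le_right (ellI K bx.T) (ellI K e))) hD.le).trans
          (ellI_le hK0 hK1 (show 0 ≤ e by omega) he)
      refine ⟨?_, g1⟩
      rcases hTle.eq_or_lt with h0 | h0
      · rw [← h0]; exact g1
      · obtain ⟨u, v, hu, hv, huv, htu⟩ := (Convex.mem_Icc (hTle.trans hTe)).1 ⟨hTle, hTe⟩
        have hv' : v ∈ Icc (0 : ℝ) 1 := ⟨hv, by linarith⟩
        have g3 := (combo_le hv' g1 g2).trans (weightW_combo hk hk2 (hTI bx.T hTpos (by omega))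
          (hTI e (by omega) le_rfl) hv')
        rw [show 1 - v = u by linarith, htu] at g3
        calc (L : ℝ) / (one : ℤ) = u * ((L : ℝ) / (one : ℤ)) + v * ((L : ℝ) / (one : ℤ)) := by
              rw [← add_mul, huv, one_mul]
          _ ≤ _ := g3
    have hg := good_flat (p := p) (H := H) (κ := bx.kk l) (k := (K : ℝ) / (one : ℤ))
      (a := (bx.T : ℝ) / (one : ℤ)) (b := T) (l := (L : ℝ) / (one : ℤ))
      (C := (cm : ℝ) / (one : ℤ)) (B := ((vert L cm : ℤ) : ℝ) / (one : ℤ)) hp hw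
      (div_nonneg (add_nonneg (mul_nonneg (sub_nonneg.2 hl.2) (Int.cast_nonneg hk0))
        (mul_nonneg hl.1 (Int.cast_nonneg (hk0.trans hk1)))) hD.le)
      (hTI bx.T hTpos (by omega)).1 hTle (hTe.trans hepi)
      (div_nonneg (Int.cast_nonneg hK0) hD.le)
      (by rw [div_le_div_iff₀ hD two_pos, one_mul]; exact_mod_cast (mul_comm K 2).trans_le hK1)
      hl0 hlW.2 hlW.1 hWa hWb hC ?_ b0 b1 b2
    · refine ⟨T, hTle, hTe.trans hepi, hg.mono (le_of_eq ?_)⟩
      rw [eT]; ring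
    · have hk' : (K : ℝ) / (one : ℤ) * ((cm : ℝ) / (one : ℤ))
          ≤ (bx.kap0 : ℝ) / (one : ℤ) * ((L : ℝ) / (one : ℤ)) := by
        rw [div_mul_div_comm, div_mul_div_comm]
        exact div_le_div_of_nonneg_right (by exact_mod_cast hKc) (by positivity)
      refine hk'.trans (mul_le_mul_of_nonneg_right (div_le_div_of_nonneg_right ?_ hD.le) hl0.le)
      nlinarith [(Int.cast_le (R := ℝ)).2 hk1, hl.1, hl.2]

/-- The weighted calibration data on `[x, T]` with its budget `S` for the contacts. -/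
def KappaCert (p H x S : ℝ) : Prop :=
  ∃ (κ T : ℝ) (k α β ρ : ℝ → ℝ), 0 ≤ κ ∧ 1 ≤ T ∧ T ≤ Real.pi ∧ Measurable k ∧ Continuous α ∧
    Continuous β ∧ Continuous ρ ∧ (∀ t ∈ Icc 1 T, H + p * t < plainW t) ∧
    (∀ t, Slot p H κ k α β ρ t) ∧ (∀ t, t ≤ x ∨ T ≤ t → α t = 0 ∧ β t = 0 ∧ ρ t = 0) ∧
    Real.pi * (1 - p - H) + κ * S < ∫ t in x..T, β t

theorem check_sound {bx : Box} (h : bx.check = true) (hl : l ∈ Icc (0 : ℝ) 1)
    (hm : m ∈ Icc (0 : ℝ) 1) {x S : ℝ} (hx : x ≤ (bx.start : ℝ) / (one : ℤ))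
    (hS : S ≤ ((1 - l) * bx.s0 + l * bx.s1) / (one : ℤ)) :
    KappaCert (bx.pp l) (bx.ww m) x S := by
  simp only [Box.check] at h
  split at h
  case h_2 => simp at h
  case h_1 e s bt hc ht =>
    obtain ⟨hp, hpp, hp2, hw0, hw1, -, hsum, hk0, hk1, hs, hst4, hst0, -, hst, hT, he,
      b00, b10, b01, b11⟩ := of_decide_eq_true h
    subst he
    have hD := one_pos'
    obtain ⟨hse, hcells⟩ := cells_sound hl hm hp.le hpp.le hw0 hw1 hk0 hk1 bx.nodes bx.start
      bx.T s hst0 hc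
    obtain ⟨T, hT1, hTpi, htail⟩ := tail_sound hl hm hp hpp.le hw0 hw1 hk0 hk1 hT ht
    have hκ : 0 ≤ bx.kk l := div_nonneg (add_nonneg (mul_nonneg (sub_nonneg.2 hl.2)
      (Int.cast_nonneg hk0)) (mul_nonneg hl.1 (Int.cast_nonneg (hk0.trans hk1)))) hD.le
    have hse' : (bx.start : ℝ) / (one : ℤ) ≤ (bx.T : ℝ) / (one : ℤ) :=
      div_le_div_of_nonneg_right (Int.cast_le.2 hse) hD.le
    have hstart : bx.ww m + bx.pp l * ((bx.start : ℝ) / (one : ℤ))
        < plainW ((bx.start : ℝ) / (one : ℤ)) := by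
      rw [add_comm]
      refine lt_of_le_of_lt ?_ ((div_lt_div_of_pos_right (Int.cast_lt.2 hst) hD).trans_le plainI_le)
      refine le_trans ?_ speed_ge
      refine add_le_add (mul_le_mul_of_nonneg_right (div_le_div_of_nonneg_right ?_ hD.le)
        (div_nonneg (Int.cast_nonneg hst0) hD.le)) (div_le_div_of_nonneg_right ?_ hD.le)
      · nlinarith [(Int.cast_le (R := ℝ)).2 hpp.le, hl.1, hl.2]
      · nlinarith [(Int.cast_le (R := ℝ)).2 hw1, hm.1, hm.2]
    have hg := (hcells _ 0 le_rfl (Good.empty hκ hstart)).trans hse' hT1 htail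
    set V := 0 + mix l m s.a00 s.a10 s.a01 s.a11 / (6 * ((one : ℤ) : ℝ) ^ 2)
      + mix l m (bx.A + bx.B) bx.B bx.A 0 * bt / ((one : ℤ) : ℝ) ^ 2 with hV
    have hbud : Real.pi * (1 - bx.pp l - bx.ww m) + bx.kk l * S < V := by
      have hR : 0 ≤ 1 - bx.pp l - bx.ww m := by
        have : bx.pp l + bx.ww m ≤ 1 := by
          unfold Box.pp Box.ww
          rw [← add_div, div_le_one hD]
          have h1 : (bx.p1 : ℝ) + bx.w1 ≤ (one : ℤ) := by exact_mod_cast hsum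
          nlinarith [(Int.cast_le (R := ℝ)).2 hpp.le, (Int.cast_le (R := ℝ)).2 hw1, hl.1, hl.2,
            hm.1, hm.2]
        linarith
      have h1 := mul_le_mul_of_nonneg_right le_piHi hR
      have h2 := mul_le_mul_of_nonneg_left hS hκ
      have h4 := le_cdiv (a := (bx.kap - bx.kap0) * (bx.s0 - bx.s1)) (b := 4) (by norm_num)
      have h3 : l * (1 - l) * (((bx.kap : ℝ) - bx.kap0) * ((bx.s0 : ℝ) - bx.s1))
          ≤ (cdiv ((bx.kap - bx.kap0) * (bx.s0 - bx.s1)) 4 : ℤ) := by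
        refine le_trans ?_ h4
        push_cast
        rw [le_div_iff₀ (by norm_num : (0 : ℝ) < 4)]
        have h5 : 0 ≤ ((bx.kap : ℝ) - bx.kap0) * ((bx.s0 : ℝ) - bx.s1) := mul_nonneg
          (sub_nonneg.2 (Int.cast_le.2 hk1)) (sub_nonneg.2 (Int.cast_le.2 hs))
        nlinarith [mul_nonneg h5 (sq_nonneg (1 - 2 * l))]
      have hsum' := mix_lt hl hm (Int.cast_lt (R := ℝ) |>.2 b00) (Int.cast_lt (R := ℝ) |>.2 b10)
        (Int.cast_lt (R := ℝ) |>.2 b01) (Int.cast_lt (R := ℝ) |>.2 b11)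
      have hsum'' := div_lt_div_of_pos_right hsum'
        (show (0 : ℝ) < 6 * ((one : ℤ) : ℝ) ^ 2 by positivity)
      have hid : ((piHi : ℤ) : ℝ) / (one : ℤ) * (1 - bx.pp l - bx.ww m)
          + bx.kk l * (((1 - l) * bx.s0 + l * bx.s1) / (one : ℤ))
          = mix l m (bx.budget bx.p0 bx.w0 bx.s0 bx.kap0) (bx.budget bx.p1 bx.w0 bx.s1 bx.kap)
              (bx.budget bx.p0 bx.w1 bx.s0 bx.kap0) (bx.budget bx.p1 bx.w1 bx.s1 bx.kap)
              / (6 * ((one : ℤ) : ℝ) ^ 2)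
            + (l * (1 - l) * (((bx.kap : ℝ) - bx.kap0) * ((bx.s0 : ℝ) - bx.s1))
              - (cdiv ((bx.kap - bx.kap0) * (bx.s0 - bx.s1)) 4 : ℤ)) / ((one : ℤ) : ℝ) ^ 2 := by
        unfold mix Box.budget Box.pp Box.ww Box.kk
        push_cast
        field_simp
        ring
      have h7 := div_nonpos_of_nonpos_of_nonneg (sub_nonpos.2 h3) (sq_nonneg ((one : ℤ) : ℝ))
      refine lt_of_le_of_lt (le_trans (add_le_add h1 h2) (by rw [hid]; linarith))
        (hsum''.trans_eq ?_)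
      rw [hV]; unfold mix; push_cast; ring
    obtain ⟨η, hη, hηV⟩ : ∃ η > 0,
        Real.pi * (1 - bx.pp l - bx.ww m) + bx.kk l * S < V - η :=
      ⟨(V - (Real.pi * (1 - bx.pp l - bx.ww m) + bx.kk l * S)) / 2, by linarith, by linarith⟩
    obtain ⟨k, α, β, ρ, hk, hα, hβ, hρ, hslot, hz, hi⟩ := hg.2 η hη
    have hxs := hx
    have hs1 : (bx.start : ℝ) / (one : ℤ) ≤ 1 := by
      rw [div_le_one hD]; exact Int.cast_le.2 (by omega)
    refine ⟨bx.kk l, T, k, α, β, ρ, hκ, ?_, hTpi, hk, hα, hβ, hρ,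
      fun t ht => hg.1 t ⟨hs1.trans ht.1, ht.2⟩, hslot,
      fun t ht => hz t (ht.imp (fun h => h.trans hxs) id), ?_⟩
    · exact ((one_le_div hD).2 (Int.cast_le.2 hT)).trans hT1
    · rw [← intervalIntegral.integral_add_adjacent_intervals
        (hβ.intervalIntegrable x ((bx.start : ℝ) / (one : ℤ))) (hβ.intervalIntegrable _ T),
        (intervalIntegral.integral_congr (g := fun _ => (0 : ℝ)) fun t ht => by
          rw [uIcc_of_le hxs] at ht; exact (hz t (Or.inl ht.2)).2.1).trans (by simp :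
          (∫ _ in x..((bx.start : ℝ) / (one : ℤ)), (0 : ℝ)) = 0), zero_add]
      linarith

end Vale.Agent.P232.Kappa
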