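import Vale.Agent.P232.Endpoint.Assembly
import Vale.Agent.P232.Endpoint.KappaFinal
import Vale.Agent.P232.Endpoint.CornerSets

/-!
The endpoint bound from the positivity of the endpoint function alone.
-/

namespace Vale.Agent.P232.Endpoint

/-- The endpoint bound, given `PsiPos`. -/
theorem endpointBound_of_psi (hpsi : PsiPos) : EndpointBound :=
  endpointBound_of hpsi kappaCert fun _ _ _ hd _ _ _ a b c h => corner_false hd a b c h

end Vale.Agent.P232.Endpoint
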