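import Vale.Agent.P232.Endpoint.Sides
import Vale.Agent.P232.PlanarWeight
import Vale.Agent.P232.SliceContacts

/-!
The middle case on the sets side: a certificate with weights on the contacts of the slices in the
direction of the tiny contact contradicts the calibrated inequality.
-/

open MeasureTheory Set Filter Function Real
open scoped Topology NNReal

namespace Vale.Agent.P232.Endpoint

open Weighted (wDer relPer)

variable {D : Set R3} {P lam : ℝ}

theorem continuous_weightW : Continuous fun q : ℝ × ℝ => weightW q.1 q.2 := by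
  have ha : Continuous Planar.arc :=
    intervalIntegral.continuous_parametric_intervalIntegral_of_continuous'
      (f := fun s x => Real.sqrt (1 - (s * x) ^ 2)) (by fun_prop) 0 1
  have ho : Continuous Planar.omega := by unfold Planar.omega; fun_prop
  unfold weightW
  fun_prop

theorem contact_mem {B : Set (ℝ × ℝ)} (hB : IsSqDown B) :
    contactX B ∈ Icc (0 : ℝ) 1 ∧ contactY B ∈ Icc (0 : ℝ) 1 := by
  have h : (1 / 2 : ℝ) ∈ Ioo (0 : ℝ) 1 := by constructor <;> norm_num
  refine ⟨⟨hB.contactX_nonneg, (hB.contactX_le h).trans (hB.isHeight.mem (1 / 2) h).2⟩,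
    measureReal_nonneg, ?_⟩
  calc contactY B ≤ volume.real (Ioo (0 : ℝ) 1) :=
        measureReal_mono (fun x hx => hx.1) (by simp)
    _ = 1 := by simp [Measure.real]

/-- A certificate with contact weights is contradictory. -/
theorem EndData.middle_contradiction (hd : EndData D P lam) (k : Fin 3) {kap T S : ℝ}
    {wt al be rho : ℝ → ℝ} (hkap : 0 ≤ kap) (hT1 : 1 ≤ T) (hwm : Measurable wt)
    (halc : Continuous al) (hbec : Continuous be) (hrhoc : Continuous rho)
    (hroot : ∀ t ∈ Icc 1 T,
      hOf D P lam k + pOf P lam * t < min √t (min 1 √(π - t)))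
    (hall : ∀ t, 0 ≤ wt t ∧ wt t ≤ 1 / 2 ∧ 0 ≤ al t ∧ 0 ≤ be t ∧ rho t ∈ Icc (0 : ℝ) 1 ∧
      al t ^ 2 + be t ^ 2 ≤ rho t ^ 2 ∧ wt t * al t ≤ kap ∧
      rho t * (hOf D P lam k + pOf P lam * t) ≤ al t * weightW (wt t) (t / π))
    (hbe0 : ∀ t, (t ≤ xOf D k ∨ T ≤ t) → be t = 0)
    (hxT : xOf D k ≤ T) (hS : ∑ j, xOf D j - xOf D k ≤ S)
    (hI : π * (1 - pOf P lam - hOf D P lam k) + kap * S < ∫ t in (xOf D k)..T, be t) : False := by
  set p := pOf P lam with hp
  set H := hOf D P lam k with hHd
  set A := areaExt D k with hA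
  set A0 := rightLim A 0 with hA0
  have hP1 := hd.per_le_one
  have hR : 0 ≤ 1 - p - H := sub_nonneg.2 (hd.h_le k)
  have hH0 : 0 ≤ H := (r_nonneg hd.p_le (hd.x_nonneg k) (hd.x_lt k).le).trans (hd.h_ge k)
  -- the end of the range lies below the first slice
  have hTA : T ≤ π * A0 := by
    by_contra hlt
    push Not at hlt
    have ht0 : 1 ≤ π * A0 := by
      have := (div_lt_iff₀ Real.pi_pos).1 (hd.area_gt k)
      simp only [← hA, ← hA0] at this
      linarith [mul_comm A0 π]
    have h := hroot _ ⟨ht0, hlt.le⟩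
    have h1 := hd.first_slice k
    have hmono : Monotone Real.sqrt := fun a b => Real.sqrt_le_sqrt
    rw [W2, hmono.map_min, hmono.map_min, Real.sqrt_one] at h1
    simp only [← hA, ← hA0, ← hHd, ← hp] at h1
    have h2 : P * (H + p * (π * A0)) ≤ H + p * (π * A0) :=
      mul_le_of_le_one_left (add_nonneg hH0 (mul_nonneg hd.p_nonneg (by linarith))) hP1
    linarith
  set cx : ℝ → ℝ := fun z => contactX (slice D k z) with hcx
  set cy : ℝ → ℝ := fun z => contactY (slice D k z) with hcy
  obtain ⟨hcxm, hcxi⟩ := integral_contactX hd.meas hd.down k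
  obtain ⟨hcym, hcyi⟩ := integral_contactY hd.meas hd.down k
  have hmA : Measurable A := (areaExt_antitone hd.down k).measurable
  have hAb : ∀ z, A z ∈ Icc (0 : ℝ) 1 := fun z =>
    ⟨sliceArea_nonneg D k _, sliceArea_le_one hd.down.1 k _⟩
  have hc : ∀ z, cx z ∈ Icc (0 : ℝ) 1 ∧ cy z ∈ Icc (0 : ℝ) 1 := fun z =>
    contact_mem (isSqDown_slice hd.meas hd.down k z)
  set f : ℝ → ℝ :=
    fun z => weightW (wt (π * A z)) (A z) - wt (π * A z) * (cx z + cy z) with hf
  have hwA : Measurable fun z => wt (π * A z) := hwm.comp (hmA.const_mul π)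
  have hfm : Measurable f :=
    (continuous_weightW.measurable.comp (hwA.prodMk hmA)).sub (hwA.mul (hcxm.add hcym))
  obtain ⟨M, hM⟩ := (isCompact_Icc.prod isCompact_Icc).exists_bound_of_continuousOn
    (continuous_weightW.continuousOn (s := Icc (0 : ℝ) (1 / 2) ×ˢ Icc (0 : ℝ) 1))
  have hfi : IntegrableOn f (Ioo (0 : ℝ) 1) := by
    refine IntegrableOn.of_bound (by simp) hfm.aestronglyMeasurable (M + 1)
      (Eventually.of_forall fun z => ?_)
    have hw := hall (π * A z)
    refine (norm_sub_le _ _).trans (add_le_add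
      (hM (wt (π * A z), A z) ⟨⟨hw.1, hw.2.1⟩, hAb z⟩) ?_)
    rw [norm_mul, Real.norm_of_nonneg hw.1,
      Real.norm_of_nonneg (add_nonneg (hc z).1.1 (hc z).2.1)]
    calc wt (π * A z) * (cx z + cy z) ≤ 1 / 2 * (1 + 1) :=
          mul_le_mul hw.2.1 (add_le_add (hc z).1.2 (hc z).2.2)
            (add_nonneg (hc z).1.1 (hc z).2.1) (by norm_num)
      _ = 1 := by norm_num
  have hb : ∀ᵐ z, z ∈ Ioo (0 : ℝ) 1 → ∀ ε > 0, ∃ pp qq, IsSqField pp qq ∧
      f z ≤ flux pp qq (slice D k z) + ε := by
    refine Eventually.of_forall fun z hz ε hε => ?_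
    have hw := hall (π * A z)
    obtain ⟨pp, qq, hpq, hle⟩ := sq_weight (isSqDown_slice hd.meas hd.down k z) hw.1
      (k := wt (π * A z)) (by nlinarith [hw.1, hw.2.1]) hε
    refine ⟨pp, qq, hpq, ?_⟩
    have e : volume.real (slice D k z) = A z := by
      rw [hA, areaExt_eq hz.1.le]; rfl
    rw [e] at hle
    simp only [hf, hcx, hcy]
    linarith
  have hcal := Calib.calib hd.finite hd.down k (α := fun a => al (π * a)) (β := fun a => be (π * a))
    (ρ := fun a => rho (π * a)) (halc.comp (continuous_const_mul π))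
    (hbec.comp (continuous_const_mul π)) (hrhoc.comp (continuous_const_mul π))
    (fun a => (hall _).2.2.1) (fun a => (hall _).2.2.2.1) (fun a => (hall _).2.2.2.2.1)
    (fun a => (hall _).2.2.2.2.2.1) hfi hb (hd.rate_le k)
  rw [hd.rest_eq k, intervalIntegral.integral_comp_mul_left be Real.pi_pos.ne', smul_eq_mul]
    at hcal
  simp only [← hA, ← hA0, ← hp, ← hHd] at hcal
  -- the gain of the slices against the contacts
  have hcxI : IntegrableOn cx (Ioo (0 : ℝ) 1) :=
    IntegrableOn.of_bound (by simp) hcxm.aestronglyMeasurable 1 (Eventually.of_forall fun z =>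
      (Real.norm_of_nonneg (hc z).1.1).trans_le (hc z).1.2)
  have hcyI : IntegrableOn cy (Ioo (0 : ℝ) 1) :=
    IntegrableOn.of_bound (by simp) hcym.aestronglyMeasurable 1 (Eventually.of_forall fun z =>
      (Real.norm_of_nonneg (hc z).2.1).trans_le (hc z).2.2)
  have hsum : kap * (∑ j, xOf D j - xOf D k) / π =
      kap * (faceArea D (k.succAbove 0) + faceArea D (k.succAbove 1)) := by
    rw [Fin.sum_univ_succAbove (fun j => xOf D j) k, Fin.sum_univ_two]
    simp only [xOf]
    field_simp
    ring
  have hnn : -(kap * (∑ j, xOf D j - xOf D k) / π) ≤ ∫ z in Ioo (0 : ℝ) 1,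
      (al (π * A z) * f z - rho (π * A z) * (lam * (A z - faceArea D k) + endPer D k)) := by
    rw [hsum, ← hcxi, ← hcyi, ← integral_add hcxI hcyI, ← MeasureTheory.integral_const_mul,
      ← integral_neg]
    refine setIntegral_mono_on ((hcxI.add hcyI).const_mul kap).neg ?_ measurableSet_Ioo
      fun z _ => ?_
    · refine Integrable.sub (hfi.bdd_mul (c := 1)
        (halc.measurable.comp (hmA.const_mul π)).aestronglyMeasurable (Eventually.of_forall
          fun z => ?_)) (Integrable.of_bound
        ((hrhoc.measurable.comp (hmA.const_mul π)).mul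
          (((hmA.sub_const _).const_mul lam).add_const _)).aestronglyMeasurable
        (|lam| * 2 + |endPer D k|) (Eventually.of_forall fun z => ?_))
      · have hw := hall (π * A z)
        rw [Real.norm_of_nonneg hw.2.2.1]
        refine (pow_le_one_iff_of_nonneg hw.2.2.1 two_ne_zero).1 ?_
        linarith [hw.2.2.2.2.2.1, sq_nonneg (be (π * A z)),
          pow_le_one₀ (n := 2) hw.2.2.2.2.1.1 hw.2.2.2.2.1.2]
      · have hw := hall (π * A z)
        rw [norm_mul, Real.norm_of_nonneg hw.2.2.2.2.1.1]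
        refine (mul_le_of_le_one_left (norm_nonneg _) hw.2.2.2.2.1.2).trans ?_
        refine (norm_add_le _ _).trans (add_le_add ?_ le_rfl)
        rw [norm_mul, Real.norm_eq_abs, Real.norm_eq_abs]
        refine mul_le_mul_of_nonneg_left (abs_le.2 ?_) (abs_nonneg _)
        have h1 := hAb z
        have h2 := faceArea_nonneg hd.down k
        have h3 : faceArea D k ≤ 1 :=
          (hd.proper k).le.trans ((div_le_one Real.pi_pos).2 (by linarith [Real.pi_gt_three]))
        constructor <;> linarith [h1.1, h1.2]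
    · obtain ⟨w0, -, a0, -, r01, -, hka, hle⟩ := hall (π * A z)
      rw [mul_div_cancel_left₀ _ Real.pi_pos.ne'] at hle
      rw [hd.line_eq k]
      simp only [← hp, ← hHd, hf]
      have hcl : rho (π * A z) * (P * (H + p * (π * A z))) ≤
          rho (π * A z) * (H + p * (π * A z)) :=
        mul_le_mul_of_nonneg_left (mul_le_of_le_one_left (add_nonneg hH0
          (mul_nonneg hd.p_nonneg (mul_nonneg Real.pi_pos.le (hAb z).1))) hP1) r01.1
      have hcc := mul_le_mul_of_nonneg_right hka (add_nonneg (hc z).1.1 (hc z).2.1)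
      linarith
  -- the integral of the profile
  have hmono : ∫ t in (xOf D k)..T, be t ≤ ∫ t in (π * faceArea D k)..(π * A0), be t :=
    intervalIntegral.integral_mono_interval le_rfl hxT hTA
      (Eventually.of_forall fun t => (hall t).2.2.2.1) (hbec.intervalIntegrable _ _)
  have h2 := mul_le_mul_of_nonneg_left (le_trans (add_le_add_right hnn _) hcal) Real.pi_pos.le
  rw [mul_add, mul_inv_cancel_left₀ Real.pi_pos.ne', mul_neg,
    mul_div_cancel₀ _ Real.pi_pos.ne'] at h2
  have h3 := mul_le_mul_of_nonneg_left hS hkap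
  have h4 : π * (P * (1 - p - H)) ≤ π * (1 - p - H) :=
    mul_le_mul_of_nonneg_left (mul_le_of_le_one_left hR hP1) Real.pi_pos.le
  linarith

end Vale.Agent.P232.Endpoint
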