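import Vale.Agent.P232.Calib
import Vale.Agent.P232.Bottom
import Vale.Agent.P232.RateIdentity
import Vale.Agent.P232.CylinderEq
import Vale.Agent.P232.InteriorDownset
import Vale.Agent.P232.Endpoint.Algebra
import Vale.Agent.P232.Endpoint.PsiDefs

/-!
The sets side at volume `1/π`: the multiplier data of a minimiser without a full face, in the
normalised variables of the scalar lemmas, and the exclusion of a good contact.
-/

open MeasureTheory Set Filter Function Real
open scoped Topology NNReal

namespace Vale.Agent.P232.Endpoint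

open Weighted (wDer relPer)

variable {D : Set R3} {P lam : ℝ}

/-- A minimiser at volume `1/π` without a full face, with its multiplier. -/
structure EndData (D : Set R3) (P lam : ℝ) : Prop where
  crit : IsCritical D P
  vol : (volume D).toReal = 1 / π
  proper : ∀ k, faceArea D k < 1 / π
  lam_nonneg : 0 ≤ lam
  lam_le : lam ≤ P * π / 2
  horiz : ∀ k, wDer D (horW k) = lam * (1 / π - faceArea D k) + endPer D k
  rate : ∀ (k : Fin 3) (u : ℝ → ℝ), (∃ K, LipschitzWith K u) → (∃ C, ∀ z, |u z| ≤ C) →
    wDer D (horU k u) = lam * ((∫ z in (0 : ℝ)..1, u z * areaExt D k z) -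
      faceArea D k * ∫ z in (0 : ℝ)..1, u z) + endPer D k * ∫ z in (0 : ℝ)..1, u z

/-- Without a full face the data exist. -/
theorem exists_endData (h : IsCritical D P) (hv : (volume D).toReal = 1 / π)
    (hm : ∀ k, faceArea D k ≠ 1 / π) : ∃ lam, EndData D P lam := by
  obtain ⟨lam, h0, h1, h2, h3⟩ := exists_lagrange_rate h hv hm
  refine ⟨lam, h, hv, fun k => lt_of_le_of_ne (hv ▸ faceArea_le_volume h.1 h.2.1 k) (hm k),
    h0, ?_, fun k => by rw [h2 k, hv], h3⟩
  calc lam ≤ P / (2 * (volume D).toReal) := h1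
    _ = P * π / 2 := by rw [hv]; field_simp

/-- The normalised multiplier. -/
noncomputable def pOf (P lam : ℝ) : ℝ := lam / (π * P)

/-- The normalised contacts. -/
noncomputable def xOf (D : Set R3) (k : Fin 3) : ℝ := π * faceArea D k

/-- The normalised excess of a trace. -/
noncomputable def hOf (D : Set R3) (P lam : ℝ) (k : Fin 3) : ℝ :=
  endPer D k / P - pOf P lam * xOf D k

namespace EndData

variable (hd : EndData D P lam)

include hd

theorem meas : MeasurableSet D := hd.crit.1

theorem down : IsDownset D := hd.crit.2.1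

theorem finite : Weighted.Finite D := ⟨hd.crit.1, hd.crit.2.1.1, P, hd.crit.2.2.1⟩

theorem per_le_one : P ≤ 1 := by
  have h := hd.crit.2.2.2.2.1
  rw [hd.vol] at h
  exact h.trans ballTube_inv_pi_le

theorem area_gt (k : Fin 3) : 1 / π < rightLim (areaExt D k) 0 := by
  have hanti := areaExt_antitone hd.down k
  have hle : 1 / π ≤ rightLim (areaExt D k) 0 :=
    hd.vol ▸ volume_le_first_slice hd.meas hd.down k
  refine lt_of_le_of_ne hle fun heq => (hd.proper k).ne ?_
  set A := rightLim (areaExt D k) 0 with hA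
  have hAt : ∀ s, 0 < s → areaExt D k s ≤ A := fun s hs => hanti.le_rightLim hs
  have hge : ∀ z ∈ Ioo (0 : ℝ) 1, areaExt D k z = A := by
    intro z hz
    refine le_antisymm (hAt z hz.1) ?_
    by_contra hlt
    push Not at hlt
    have h3 := intervalIntegral.integral_add_adjacent_intervals
      (hanti.intervalIntegrable (μ := volume) (a := 0) (b := z))
      (hanti.intervalIntegrable (μ := volume) (a := z) (b := 1))
    rw [← volume_eq_integral_areaExt hd.meas hd.down k, hd.vol] at h3
    have h1 : ∫ s in (0 : ℝ)..z, areaExt D k s ≤ ∫ _ in (0 : ℝ)..z, A :=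
      intervalIntegral.integral_mono_on_of_le_Ioo hz.1.le hanti.intervalIntegrable
        intervalIntegrable_const fun s hs => hAt s hs.1
    have h2 : ∫ s in z..1, areaExt D k s ≤ ∫ _ in z..1, areaExt D k z :=
      intervalIntegral.integral_mono_on hz.2.le hanti.intervalIntegrable
        intervalIntegrable_const fun s hs => hanti hs.1
    simp only [intervalIntegral.integral_const, smul_eq_mul, sub_zero] at h1 h2
    have := mul_lt_mul_of_pos_left hlt (sub_pos.2 hz.2)
    linarith
  rw [heq, faceArea]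
  refine tendsto_nhds_unique (hanti.tendsto_leftLim 1) (tendsto_const_nhds.congr' ?_)
  filter_upwards [Ioo_mem_nhdsLT (show (0 : ℝ) < 1 by norm_num)] with z hz
  exact (hge z hz).symm

theorem per_pos : 0 < P := by
  have h := drop_le hd.meas hd.down hd.crit.2.2.1 0
  linarith [hd.area_gt 0, hd.proper 0]

theorem lam_eq : lam = pOf P lam * π * P := by
  rw [pOf]; field_simp [Real.pi_pos.ne', hd.per_pos.ne']

theorem p_nonneg : 0 ≤ pOf P lam :=
  div_nonneg hd.lam_nonneg (mul_nonneg Real.pi_pos.le hd.per_pos.le)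

theorem p_le : pOf P lam ≤ 1 / 2 := by
  rw [pOf, div_le_iff₀ (mul_pos Real.pi_pos hd.per_pos)]
  linarith [hd.lam_le, mul_comm P π]

theorem x_nonneg (k : Fin 3) : 0 ≤ xOf D k :=
  mul_nonneg Real.pi_pos.le (faceArea_nonneg hd.down k)

theorem x_lt (k : Fin 3) : xOf D k < 1 := by
  have := (lt_div_iff₀ Real.pi_pos).1 (hd.proper k)
  rw [xOf]; linarith [mul_comm π (faceArea D k)]

theorem endPer_eq (k : Fin 3) :
    endPer D k = P * (hOf D P lam k + pOf P lam * xOf D k) := by
  rw [hOf]; field_simp [hd.per_pos.ne']; ring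

theorem h_ge (k : Fin 3) : √(xOf D k) - pOf P lam * xOf D k ≤ hOf D P lam k := by
  rw [hOf, xOf]
  refine sub_le_sub_right ?_ _
  have h := sqrt_le_endPer hd.meas hd.down hd.vol.le k
  rw [le_div_iff₀ hd.per_pos]
  exact (mul_le_of_le_one_right (Real.sqrt_nonneg _) hd.per_le_one).trans h

/-- The excess `P - C` in normalised variables. -/
theorem rest_eq (k : Fin 3) :
    relPer D - wDer D (horW k) = P * (1 - pOf P lam - hOf D P lam k) := by
  rw [← hd.crit.eq_relPer, hd.horiz k, hd.endPer_eq k, xOf, pOf]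
  field_simp [Real.pi_pos.ne', hd.per_pos.ne']
  ring

theorem h_le (k : Fin 3) : hOf D P lam k ≤ 1 - pOf P lam := by
  have h := wDer_horW_le hd.meas hd.down hd.crit.2.2.1 k
  have h2 := hd.rest_eq k
  by_contra hc
  have := mul_neg_of_pos_of_neg hd.per_pos
    (show 1 - pOf P lam - hOf D P lam k < 0 by linarith)
  linarith

theorem sum_h : ∑ k, hOf D P lam k = 2 - 3 * pOf P lam := by
  have h := sum_wDer_horW hd.meas hd.down hd.crit.2.2.1
  have h2 : ∑ k, (relPer D - wDer D (horW k)) =
      ∑ k, P * (1 - pOf P lam - hOf D P lam k) := Finset.sum_congr rfl fun k _ => hd.rest_eq k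
  rw [← Finset.mul_sum, Finset.sum_sub_distrib, h, ← hd.crit.eq_relPer] at h2
  simp only [Finset.sum_sub_distrib, Finset.sum_const, Finset.card_univ, Fintype.card_fin,
    nsmul_eq_mul] at h2
  have h3 : P * (3 * (1 - pOf P lam) - ∑ k, hOf D P lam k) = P * 1 := by
    push_cast at h2; linarith
  have h4 := mul_left_cancel₀ hd.per_pos.ne' h3
  linarith

/-- The weighted identity in the form used by the calibration. -/
theorem rate_le (k : Fin 3) (u : ℝ → ℝ) (hu : ∃ K, LipschitzWith K u)
    (hu1 : ∀ z, u z ∈ Icc (0 : ℝ) 1) :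
    wDer D (Calib.horU k u) ≤ lam * ((∫ z in Ioo (0 : ℝ) 1, u z * areaExt D k z) -
      faceArea D k * ∫ z in Ioo (0 : ℝ) 1, u z) + endPer D k * ∫ z in Ioo (0 : ℝ) 1, u z := by
  refine le_of_eq ?_
  rw [show Calib.horU k u = horU k u from rfl,
    hd.rate k u hu ⟨1, fun z => abs_le.2 ⟨by linarith [(hu1 z).1], (hu1 z).2⟩⟩,
    intervalIntegral.integral_of_le zero_le_one, intervalIntegral.integral_of_le zero_le_one,
    integral_Ioc_eq_integral_Ioo, integral_Ioc_eq_integral_Ioo]

/-- The line `lam (a - m) + l` in normalised variables. -/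
theorem line_eq (k : Fin 3) (a : ℝ) :
    lam * (a - faceArea D k) + endPer D k
      = P * (hOf D P lam k + pOf P lam * (π * a)) := by
  rw [hd.endPer_eq k, xOf, pOf]
  field_simp [Real.pi_pos.ne', hd.per_pos.ne']
  ring

/-- The translation condition. -/
theorem first_slice (k : Fin 3) :
    √(W2 (π * rightLim (areaExt D k) 0))
      ≤ P * (hOf D P lam k + pOf P lam * (π * rightLim (areaExt D k) 0)) := by
  have h := Bottom.plain_first_le hd.crit hd.vol k (hd.vol.symm ▸ hd.proper k) hd.lam_nonneg
    (by rw [hd.vol]; exact hd.horiz k) le_rfl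
  rw [hd.line_eq k] at h
  refine le_trans (le_of_eq ?_) h
  have hmono : Monotone Real.sqrt := fun a b => Real.sqrt_le_sqrt
  rw [W2, hmono.map_min, hmono.map_min, Real.sqrt_one, mul_sub, mul_one]

end EndData

/-- The planar bound of a slice is the square root of `W2`. -/
theorem sqrt_W2 (a : ℝ) : √(W2 (π * a)) = min √(π * a) (min 1 √(π * (1 - a))) := by
  have hmono : Monotone Real.sqrt := fun a b => Real.sqrt_le_sqrt
  rw [W2, hmono.map_min, hmono.map_min, Real.sqrt_one, mul_sub, mul_one]

/-- `√x - p x` increases strictly on `[0, 1]`. -/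
theorem rfun_strict {p w x : ℝ} (hp : p ≤ 1 / 2) (hw : 0 ≤ w) (h : w ^ 2 < x) (hx : x ≤ 1) :
    w - p * w ^ 2 < √x - p * x := by
  have hx0 : 0 ≤ x := (sq_nonneg w).trans h.le
  have h1 : w < √x := (Real.lt_sqrt hw).2 h
  have h2 : √x ≤ 1 := Real.sqrt_le_one.2 hx
  have h3 : 0 < 1 - p * (√x + w) := by
    linarith [mul_le_mul_of_nonneg_right hp (add_nonneg (Real.sqrt_nonneg x) hw)]
  have h4 := mul_pos (sub_pos.2 h1) h3
  rw [show (√x - w) * (1 - p * (√x + w)) = (√x - p * √x ^ 2) - (w - p * w ^ 2) by ring,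
    Real.sq_sqrt hx0] at h4
  linarith

theorem W2_pos {t : ℝ} (h0 : 0 < t) (h1 : t < π) : 0 < W2 t :=
  lt_min h0 (lt_min one_pos (sub_pos.2 h1))

/-- The calibrated inequality for the plain planar bound and normalised profiles `g`, `h` of
`t = π a`. -/
theorem EndData.calib_plain (hd : EndData D P lam) (k : Fin 3) {g h r : ℝ → ℝ} (hgc : Continuous g)
    (hhc : Continuous h) (hrc : Continuous r) (hg : ∀ t, 0 ≤ g t) (hh : ∀ t, 0 ≤ h t)
    (hr : ∀ t, r t ∈ Icc (0 : ℝ) 1) (hsq : ∀ t, h t ^ 2 + g t ^ 2 ≤ r t ^ 2) {E : ℝ}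
    (hline : ∀ t, r t * (P * (hOf D P lam k + pOf P lam * t)) ≤ h t * √(W2 t) + E) :
    (∫ t in (xOf D k)..(π * rightLim (areaExt D k) 0), g t) ≤
      π * (P * (1 - pOf P lam - hOf D P lam k) + E) := by
  set A := areaExt D k with hA
  have hmA : Measurable A := (areaExt_antitone hd.down k).measurable
  have hfi : IntegrableOn (fun z => √(W2 (π * A z))) (Ioo (0 : ℝ) 1) := by
    refine IntegrableOn.of_bound (by simp) ?_ 1 (Eventually.of_forall fun z => ?_)
    · exact (Real.continuous_sqrt.measurable.comp ((show Continuous W2 by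
        unfold W2; fun_prop).measurable.comp (hmA.const_mul π))).aestronglyMeasurable
    · rw [Real.norm_of_nonneg (Real.sqrt_nonneg _)]
      exact Real.sqrt_le_one.2 ((min_le_right _ _).trans (min_le_left _ _))
  have hb : ∀ᵐ z, z ∈ Ioo (0 : ℝ) 1 → ∀ ε > 0, ∃ p q, IsSqField p q ∧
      √(W2 (π * A z)) ≤ flux p q (slice D k z) + ε := by
    refine Eventually.of_forall fun z hz ε hε => ?_
    obtain ⟨p, q, hpq, hle⟩ := sq_plain (isSqDown_slice hd.meas hd.down k z) hε
    refine ⟨p, q, hpq, ?_⟩
    rw [sqrt_W2, hA, areaExt_eq hz.1.le]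
    rw [measureReal_def] at hle
    simp only [sliceArea]
    linarith
  have hc := Calib.calib hd.finite hd.down k (α := fun a => h (π * a)) (β := fun a => g (π * a))
    (ρ := fun a => r (π * a)) (hhc.comp (continuous_const_mul π))
    (hgc.comp (continuous_const_mul π)) (hrc.comp (continuous_const_mul π)) (fun a => hh _)
    (fun a => hg _) (fun a => hr _) (fun a => hsq _) hfi hb (hd.rate_le k)
  rw [hd.rest_eq k, intervalIntegral.integral_comp_mul_left g Real.pi_pos.ne', smul_eq_mul] at hc
  have hnn : -E ≤ ∫ z in Ioo (0 : ℝ) 1, (h (π * A z) * √(W2 (π * A z))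
      - r (π * A z) * (lam * (A z - faceArea D k) + endPer D k)) := by
    have hi : IntegrableOn (fun z => h (π * A z) * √(W2 (π * A z))
        - r (π * A z) * (lam * (A z - faceArea D k) + endPer D k)) (Ioo (0 : ℝ) 1) := by
      refine Integrable.sub (hfi.bdd_mul (c := 1)
        (hhc.measurable.comp (hmA.const_mul π)).aestronglyMeasurable (Eventually.of_forall
          fun z => ?_)) (Integrable.of_bound
        ((hrc.measurable.comp (hmA.const_mul π)).mul (((hmA.sub_const _).const_mul lam).add_const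
          _)).aestronglyMeasurable (|lam| * 2 + |endPer D k|) (Eventually.of_forall fun z => ?_))
      · rw [Real.norm_of_nonneg (hh _)]
        refine (pow_le_one_iff_of_nonneg (hh _) two_ne_zero).1 ?_
        linarith [hsq (π * A z), sq_nonneg (g (π * A z)),
          pow_le_one₀ (n := 2) (hr (π * A z)).1 (hr (π * A z)).2]
      · rw [norm_mul, Real.norm_of_nonneg (hr _).1]
        refine (mul_le_of_le_one_left (norm_nonneg _) (hr _).2).trans ?_
        refine (norm_add_le _ _).trans (add_le_add ?_ le_rfl)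
        rw [norm_mul, Real.norm_eq_abs, Real.norm_eq_abs]
        refine mul_le_mul_of_nonneg_left ?_ (abs_nonneg _)
        have h0 : A z = sliceArea D k (max z 0) := rfl
        have h1 : |A z| ≤ 1 := by
          rw [h0, abs_of_nonneg (sliceArea_nonneg D k _)]
          exact sliceArea_le_one hd.down.1 k _
        have h2 : |faceArea D k| ≤ 1 := abs_le.2 ⟨by linarith [faceArea_nonneg hd.down k],
          (hd.proper k).le.trans ((div_le_one Real.pi_pos).2 (by linarith [Real.pi_gt_three]))⟩
        exact (abs_sub _ _).trans (by linarith)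
    have := setIntegral_mono_on (integrableOn_const (C := -E) (by simp)) hi measurableSet_Ioo
      fun z _ => by
        rw [hd.line_eq k]
        linarith [hline (π * A z)]
    simpa [setIntegral_const, Measure.real] using this
  simp only [hA] at hnn
  have h2 := mul_le_mul_of_nonneg_left
    (le_trans (add_le_add_right hnn _) hc) Real.pi_pos.le
  rw [mul_add, mul_inv_cancel_left₀ Real.pi_pos.ne'] at h2
  simp only [xOf]
  linarith

/-- A good contact is impossible. -/
theorem EndData.not_good (hd : EndData D P lam) (k : Fin 3) {w : ℝ} (hw0 : 0 ≤ w) (hw1 : w < 1)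
    (hH : rfun (pOf P lam) w = hOf D P lam k) : ¬Good (pOf P lam) w := by
  rintro ⟨T, hwT, hTπ, hc, hI⟩
  set p := pOf P lam with hp
  set H := hOf D P lam k with hHd
  set A := rightLim (areaExt D k) 0 with hA
  have hp0 := hd.p_nonneg
  have hP0 := hd.per_pos
  have hP1 := hd.per_le_one
  have hR : 0 ≤ 1 - p - H := sub_nonneg.2 (hd.h_le k)
  have hcf : ∀ t, cfun p w t = H + p * t := fun t => by rw [cfun, ← hH, rfun]; ring
  have hxw : xOf D k ≤ w ^ 2 := (by
    by_contra hh
    have h2 : √(xOf D k) - p * xOf D k ≤ H := hd.h_ge k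
    have h3 : (w ^ 2 : ℝ) < xOf D k := not_le.1 hh
    rw [← hH, rfun] at h2
    exact absurd (rfun_strict hd.p_le hw0 h3 (hd.x_lt k).le) (not_lt.2 h2))
  have hw2 : w ^ 2 < 1 := (sq_lt_one_iff₀ hw0).2 hw1
  -- the end of the range lies below the first slice
  have hTA : T ≤ π * A := by
    by_contra hlt
    push Not at hlt
    have ht0 : 1 ≤ π * A := by
      have := (div_lt_iff₀ Real.pi_pos).1 (hd.area_gt k)
      linarith [mul_comm A π]
    have hmem : π * A ∈ Icc (w ^ 2) T := ⟨by linarith, hlt.le⟩
    obtain ⟨c0, c1⟩ := hc _ hmem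
    obtain ⟨cT0, cT1⟩ := hc T ⟨hwT, le_rfl⟩
    have hle : √(W2 (π * A)) ≤ cfun p w (π * A) := by
      refine (hd.first_slice k).trans ?_
      rw [← hcf]
      exact mul_le_of_le_one_left c0 hP1
    have hW : W2 (π * A) = cfun p w (π * A) ^ 2 :=
      le_antisymm ((Real.sqrt_le_left c0).1 hle) c1
    have hcm : cfun p w (π * A) ≤ cfun p w T := by
      rw [hcf, hcf]; linarith [mul_le_mul_of_nonneg_left hlt.le hp0]
    have hsq := pow_le_pow_left₀ c0 hcm 2
    rcases lt_or_ge 1 (π - π * A) with h1 | h1
    · have hone : W2 (π * A) = 1 := by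
        rw [W2, min_eq_left h1.le, min_eq_right ht0]
      have hc1 : cfun p w (π * A) = 1 := by
        rcases sq_eq_one_iff.1 (hone ▸ hW).symm with h | h
        · exact h
        · linarith
      rcases hp0.eq_or_lt with hp' | hp'
      · have hpz : p = 0 := hp'.symm
        have e : H = w := by rw [← hH, rfun, hpz, zero_mul, sub_zero]
        rw [hcf, hpz, zero_mul, add_zero, e] at hc1
        linarith
      · have : cfun p w (π * A) < cfun p w T := by
          rw [hcf, hcf]; linarith [mul_lt_mul_of_pos_left hlt hp']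
        have hlt2 := pow_lt_pow_left₀ this c0 two_ne_zero
        have : W2 T ≤ 1 := (min_le_right _ _).trans (min_le_left _ _)
        linarith
    · have hW1 : W2 (π * A) = π - π * A := by
        rw [W2, min_eq_right h1, min_eq_right (h1.trans ht0)]
      have : W2 T ≤ π - T := (min_le_right _ _).trans (min_le_right _ _)
      linarith
  -- the profiles
  set ρ : ℕ → ℝ → ℝ := fun n t => clamp01 ((n : ℝ) * min (t - w ^ 2) (T - t) - 1) with hρ
  set q : ℕ → ℝ → ℝ :=
    fun n t => min 1 (cfun p w t ^ 2 / max (W2 t) (1 / ((n : ℝ) + 1))) with hq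
  have hWc : Continuous W2 := by unfold W2; fun_prop
  have hqc : ∀ n, Continuous (q n) := fun n =>
    continuous_const.min (((show Continuous (cfun p w) by unfold cfun; fun_prop).pow 2).div
      (hWc.max continuous_const) fun t => (lt_max_of_lt_right (by positivity)).ne')
  have hρc : ∀ n, Continuous (ρ n) := fun n => lipschitz_clamp01.continuous.comp (by fun_prop)
  have hq0 : ∀ n t, 0 ≤ q n t := fun n t =>
    le_min zero_le_one (div_nonneg (sq_nonneg _) (le_max_of_le_right (by positivity)))
  have hq1 : ∀ n t, q n t ≤ 1 := fun n t => min_le_left _ _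
  have hρ1 : ∀ n t, ρ n t ∈ Icc (0 : ℝ) 1 := fun n t => clamp01_mem _
  have hsupp : ∀ n t, ρ n t ≠ 0 → w ^ 2 < t ∧ t < T ∧ 1 / ((n : ℝ) + 1) ≤ min (t - w ^ 2) (T - t) := by
    intro n t h
    have h1 : 1 < (n : ℝ) * min (t - w ^ 2) (T - t) := by
      by_contra hh
      exact h (clamp01_of_nonpos (by linarith))
    have hm : 0 < min (t - w ^ 2) (T - t) := by
      by_contra hh
      have := mul_nonpos_of_nonneg_of_nonpos (Nat.cast_nonneg (α := ℝ) n) (not_lt.1 hh)
      linarith
    refine ⟨by linarith [min_le_left (t - w ^ 2) (T - t)],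
      by linarith [min_le_right (t - w ^ 2) (T - t)], ?_⟩
    rw [div_le_iff₀ (by positivity), mul_add, mul_one, mul_comm]
    linarith
  have key : ∀ n, ∫ t in (w ^ 2)..T, ρ n t * √(1 - q n t) ≤ π * (1 - p - H) := by
    intro n
    have h1 := hd.calib_plain k (g := fun t => ρ n t * √(1 - q n t))
      (h := fun t => ρ n t * √(q n t)) (r := ρ n)
      ((hρc n).mul (Real.continuous_sqrt.comp (continuous_const.sub (hqc n))))
      ((hρc n).mul (Real.continuous_sqrt.comp (hqc n))) (hρc n)
      (fun t => mul_nonneg (hρ1 n t).1 (Real.sqrt_nonneg _))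
      (fun t => mul_nonneg (hρ1 n t).1 (Real.sqrt_nonneg _)) (hρ1 n)
      (fun t => by
        rw [mul_pow, mul_pow, Real.sq_sqrt (hq0 n t), Real.sq_sqrt (sub_nonneg.2 (hq1 n t))]
        linarith) (E := 0) (fun t => by
        rw [add_zero, mul_assoc]
        rcases eq_or_ne (ρ n t) 0 with h | h
        · rw [h, zero_mul, zero_mul]
        obtain ⟨ht1, ht2, ht3⟩ := hsupp n t h
        obtain ⟨c0, c1⟩ := hc t ⟨ht1.le, ht2.le⟩
        have hWn : 1 / ((n : ℝ) + 1) ≤ W2 t := by
          have hn1 : 1 / ((n : ℝ) + 1) ≤ 1 := by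
            rw [div_le_one (by positivity)]; linarith [n.cast_nonneg (α := ℝ)]
          exact le_min (by linarith [min_le_left (t - w ^ 2) (T - t), sq_nonneg w])
            (le_min hn1 (by linarith [min_le_right (t - w ^ 2) (T - t)]))
        have hW0 : 0 < W2 t := lt_of_lt_of_le (by positivity) hWn
        refine mul_le_mul_of_nonneg_left ?_ (hρ1 n t).1
        rw [← hcf]
        refine (mul_le_of_le_one_left c0 hP1).trans (le_of_eq ?_)
        simp only [hq]
        rw [max_eq_left hWn, min_eq_right ((div_le_one hW0).2 c1),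
          ← Real.sqrt_mul (div_nonneg (sq_nonneg _) hW0.le), div_mul_cancel₀ _ hW0.ne',
          Real.sqrt_sq c0])
    refine le_trans (intervalIntegral.integral_mono_interval (hxw) hwT hTA
      (Eventually.of_forall fun t => mul_nonneg (hρ1 n t).1 (Real.sqrt_nonneg _))
      (((hρc n).mul (Real.continuous_sqrt.comp
        (continuous_const.sub (hqc n)))).intervalIntegrable _ _)) (h1.trans ?_)
    rw [add_zero]
    exact mul_le_mul_of_nonneg_left (mul_le_of_le_one_left hR hP1) Real.pi_pos.le
  have hlim : Tendsto (fun n => ∫ t in (w ^ 2)..T, ρ n t * √(1 - q n t)) atTop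
      (𝓝 (∫ t in (w ^ 2)..T, √(1 - cfun p w t ^ 2 / W2 t))) := by
    refine intervalIntegral.tendsto_integral_filter_of_dominated_convergence (fun _ => (1 : ℝ))
      (Eventually.of_forall fun n => ((hρc n).mul (Real.continuous_sqrt.comp
        (continuous_const.sub (hqc n)))).aestronglyMeasurable) ?_ intervalIntegrable_const ?_
    · refine Eventually.of_forall fun n => Eventually.of_forall fun t _ => ?_
      rw [Real.norm_of_nonneg (mul_nonneg (hρ1 n t).1 (Real.sqrt_nonneg _))]
      exact mul_le_one₀ (hρ1 n t).2 (Real.sqrt_nonneg _)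
        (Real.sqrt_le_one.2 (by linarith [hq0 n t]))
    · filter_upwards [volume.ae_ne T] with t htT ht
      rw [uIoc_of_le hwT] at ht
      have htT' : t < T := lt_of_le_of_ne ht.2 htT
      have hW0 : 0 < W2 t := W2_pos (lt_of_le_of_lt (sq_nonneg w) ht.1) (htT'.trans hTπ)
      have hd0 : 0 < min (t - w ^ 2) (T - t) := lt_min (sub_pos.2 ht.1) (sub_pos.2 htT')
      refine tendsto_const_nhds.congr' ?_
      filter_upwards [eventually_ge_atTop ⌈2 / min (t - w ^ 2) (T - t)⌉₊,
        tendsto_one_div_add_atTop_nhds_zero_nat.eventually (eventually_le_nhds hW0)] with n hn hn'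
      have h2 : 2 ≤ (n : ℝ) * min (t - w ^ 2) (T - t) := by
        rw [← div_le_iff₀ hd0]
        exact (Nat.le_ceil _).trans (Nat.cast_le.2 hn)
      simp only [hρ, hq]
      rw [clamp01_of_one_le (by linarith), one_mul, max_eq_left hn',
        min_eq_right ((div_le_one hW0).2 (hc t ⟨ht.1.le, ht.2⟩).2)]
  have := le_of_tendsto hlim (Eventually.of_forall key)
  have e : π * (1 - p * (1 - w ^ 2) - w) = π * (1 - p - H) := by rw [← hH, rfun]; ring
  linarith

end Vale.Agent.P232.Endpoint
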